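import Vale.Agent.P338.R2.H898.Raw

/-!
Programs on files (zippers): syntax, semantics with costs, basic rules.
-/

namespace Vale.Agent.P338.R2.H898

/-- A file: `l` is the part to the left of the head (nearest symbol first), `r` the part from the
head on. -/
@[ext] structure Zip (α : Type) where
  /-- left of the head, nearest first -/
  l : List α
  /-- from the head on -/
  r : List α

namespace Zip

variable {α : Type}

/-- The whole contents of the file. -/
def full (z : Zip α) : List α := z.l.reverse ++ z.r

/-- The symbol under the head (`none` at the end of the file). -/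
def peek (z : Zip α) : Option α := z.r.head?

/-- The empty file. -/
def nil : Zip α := ⟨[], []⟩

end Zip

/-- Operations on a file. -/
inductive Op (α : Type)
  /-- move right (appending a default symbol at the end of the file) -/
  | right
  /-- move left -/
  | left
  /-- overwrite the symbol under the head -/
  | write (a : α)
  /-- cut off the part from the head on -/
  | trunc
  /-- go to the beginning -/
  | rew

/-- The effect of an operation (`d` is the default symbol). -/
def Op.app {α : Type} (d : α) : Op α → Zip α → Zip α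
  | .right, ⟨l, []⟩ => ⟨d :: l, []⟩
  | .right, ⟨l, a :: r⟩ => ⟨a :: l, r⟩
  | .left, ⟨[], r⟩ => ⟨[], r⟩
  | .left, ⟨a :: l, r⟩ => ⟨l, a :: r⟩
  | .write a, ⟨l, []⟩ => ⟨l, [a]⟩
  | .write a, ⟨l, _ :: r⟩ => ⟨l, a :: r⟩
  | .trunc, ⟨l, _⟩ => ⟨l, []⟩
  | .rew, ⟨l, r⟩ => ⟨[], l.reverse ++ r⟩

/-- The store: finite memory and files. -/
@[ext] structure Store (M F α : Type) where
  /-- memory -/
  m : M
  /-- files -/
  z : F → Zip α

/-- The symbols under the heads. -/
def Store.reads {M F α : Type} (s : Store M F α) : F → Option α := fun f => (s.z f).peek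

/-- Structured programs on files. `prim g` computes from the memory and the symbols under the
heads a new memory and possibly an operation on one file. -/
inductive Prog (M F α : Type)
  | prim (g : M → (F → Option α) → M × Option (F × Op α))
  | seq (p q : Prog M F α)
  | ite (c : M → (F → Option α) → Bool) (p q : Prog M F α)
  | loop (c : M → (F → Option α) → Bool) (p : Prog M F α)

namespace Prog

variable {M F α : Type} [DecidableEq F]

/-- The effect of an action. -/
def appAct (d : α) (s : Store M F α) : M × Option (F × Op α) → Store M F α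
  | (m, none) => ⟨m, s.z⟩
  | (m, some (f, o)) => ⟨m, Function.update s.z f (o.app d (s.z f))⟩

/-- Big step semantics with exact cost (`d` is the default symbol). -/
inductive Exec (d : α) : Prog M F α → Store M F α → ℕ → Store M F α → Prop
  | prim (g : M → (F → Option α) → M × Option (F × Op α)) (s : Store M F α) :
      Exec d (.prim g) s 1 (appAct d s (g s.m s.reads))
  | seq {p q : Prog M F α} {s s1 s2 : Store M F α} {t t' : ℕ} :
      Exec d p s t s1 → Exec d q s1 t' s2 → Exec d (.seq p q) s (t + t') s2
  | iteT {c : M → (F → Option α) → Bool} {p q : Prog M F α} {s s1 : Store M F α} {t : ℕ} :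
      c s.m s.reads = true → Exec d p s t s1 → Exec d (.ite c p q) s (1 + t) s1
  | iteF {c : M → (F → Option α) → Bool} {p q : Prog M F α} {s s1 : Store M F α} {t : ℕ} :
      c s.m s.reads = false → Exec d q s t s1 → Exec d (.ite c p q) s (1 + t) s1
  | loopT {c : M → (F → Option α) → Bool} {p : Prog M F α} {s s1 s2 : Store M F α} {t t' : ℕ} :
      c s.m s.reads = true → Exec d p s t s1 → Exec d (.loop c p) s1 t' s2 →
        Exec d (.loop c p) s (1 + t + t') s2
  | loopF {c : M → (F → Option α) → Bool} {p : Prog M F α} {s : Store M F α} :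
      c s.m s.reads = false → Exec d (.loop c p) s 1 s

/-- `Run d p s t s'`: from the store `s` the program `p` terminates with the store `s'`, at a cost
of at most `t`. -/
def Run (d : α) (p : Prog M F α) (s : Store M F α) (t : ℕ) (s' : Store M F α) : Prop :=
  ∃ t' ≤ t, Exec d p s t' s'

variable {d : α}

theorem Run.mono {p : Prog M F α} {s s' : Store M F α} {t t' : ℕ} (h : Run d p s t s')
    (ht : t ≤ t') : Run d p s t' s' := by
  obtain ⟨u, hu, h⟩ := h
  exact ⟨u, hu.trans ht, h⟩

theorem Run.prim (g : M → (F → Option α) → M × Option (F × Op α)) (s : Store M F α) :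
    Run d (.prim g) s 1 (appAct d s (g s.m s.reads)) := ⟨1, le_rfl, Exec.prim g s⟩

theorem Run.prim' {g : M → (F → Option α) → M × Option (F × Op α)} {s s' : Store M F α}
    (h : appAct d s (g s.m s.reads) = s') : Run d (.prim g) s 1 s' := h ▸ Run.prim g s

theorem Run.seq {p q : Prog M F α} {s s1 s2 : Store M F α} {t t' : ℕ}
    (h : Run d p s t s1) (h' : Run d q s1 t' s2) : Run d (.seq p q) s (t + t') s2 := by
  obtain ⟨u, hu, h⟩ := h
  obtain ⟨u', hu', h'⟩ := h'
  exact ⟨u + u', by omega, Exec.seq h h'⟩

theorem Run.iteT {c : M → (F → Option α) → Bool} {p q : Prog M F α} {s s1 : Store M F α} {t : ℕ}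
    (hc : c s.m s.reads = true) (h : Run d p s t s1) : Run d (.ite c p q) s (1 + t) s1 := by
  obtain ⟨u, hu, h⟩ := h
  exact ⟨1 + u, by omega, Exec.iteT hc h⟩

theorem Run.iteF {c : M → (F → Option α) → Bool} {p q : Prog M F α} {s s1 : Store M F α} {t : ℕ}
    (hc : c s.m s.reads = false) (h : Run d q s t s1) : Run d (.ite c p q) s (1 + t) s1 := by
  obtain ⟨u, hu, h⟩ := h
  exact ⟨1 + u, by omega, Exec.iteF hc h⟩

theorem Run.loopT {c : M → (F → Option α) → Bool} {p : Prog M F α} {s s1 s2 : Store M F α}
    {t t' : ℕ} (hc : c s.m s.reads = true) (h : Run d p s t s1) (h' : Run d (.loop c p) s1 t' s2) :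
    Run d (.loop c p) s (1 + t + t') s2 := by
  obtain ⟨u, hu, h⟩ := h
  obtain ⟨u', hu', h'⟩ := h'
  exact ⟨1 + u + u', by omega, Exec.loopT hc h h'⟩

theorem Run.loopF {c : M → (F → Option α) → Bool} {p : Prog M F α} {s : Store M F α}
    (hc : c s.m s.reads = false) : Run d (.loop c p) s 1 s := ⟨1, le_rfl, Exec.loopF hc⟩

/-- Rule for loops: `I i` is the store after `i` iterations. -/
theorem Run.loop {c : M → (F → Option α) → Bool} {p : Prog M F α} (n : ℕ) (I : ℕ → Store M F α)
    (t : ℕ → ℕ) (hc : ∀ i < n, c (I i).m (I i).reads = true)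
    (hn : c (I n).m (I n).reads = false)
    (h : ∀ i < n, Run d p (I i) (t i) (I (i + 1))) :
    Run d (.loop c p) (I 0) ((∑ i ∈ Finset.range n, (t i + 1)) + 1) (I n) := by
  induction n generalizing I t with
  | zero => exact (Run.loopF hn).mono (by simp)
  | succ n ih =>
    have h1 := ih (fun i => I (i + 1)) (fun i => t (i + 1)) (fun i hi => hc (i + 1) (by omega)) hn
      (fun i hi => h (i + 1) (by omega))
    refine (Run.loopT (hc 0 (by omega)) (h 0 (by omega)) h1).mono ?_
    rw [Finset.sum_range_succ']
    omega

theorem Run.loop_const {c : M → (F → Option α) → Bool} {p : Prog M F α} (n : ℕ)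
    (I : ℕ → Store M F α) (t : ℕ) (hc : ∀ i < n, c (I i).m (I i).reads = true)
    (hn : c (I n).m (I n).reads = false)
    (h : ∀ i < n, Run d p (I i) t (I (i + 1))) :
    Run d (.loop c p) (I 0) (n * (t + 1) + 1) (I n) := by
  have := Run.loop n I (fun _ => t) hc hn h
  simpa using this

end Prog

end Vale.Agent.P338.R2.H898
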