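import Vale.Agent.P338.R2.H898.Zip

/-!
Embedding programs in programs with more files and more memory.
-/

namespace Vale.Agent.P338.R2.H898

/-- A part `M₁` of the memory `M`. -/
structure Lens (M M₁ : Type) where
  /-- read the part -/
  get : M → M₁
  /-- replace the part -/
  set : M₁ → M → M
  get_set : ∀ a m, get (set a m) = a
  set_get : ∀ m, set (get m) m = m
  set_set : ∀ a b m, set a (set b m) = set a m

namespace Lens

/-- The whole memory. -/
def idL (M : Type) : Lens M M := ⟨fun m => m, fun a _ => a, fun _ _ => rfl, fun _ => rfl,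
  fun _ _ _ => rfl⟩

/-- The first component. -/
def fstL (M N : Type) : Lens (M × N) M := ⟨Prod.fst, fun a m => (a, m.2), fun _ _ => rfl,
  fun _ => rfl, fun _ _ _ => rfl⟩

/-- The second component. -/
def sndL (M N : Type) : Lens (M × N) N := ⟨Prod.snd, fun a m => (m.1, a), fun _ _ => rfl,
  fun _ => rfl, fun _ _ _ => rfl⟩

end Lens

namespace Prog

variable {M M₁ F F₁ α : Type}

/-- Renaming of files and embedding of the memory. -/
def map (L : Lens M M₁) (ι : F₁ → F) : Prog M₁ F₁ α → Prog M F α
  | .prim g => .prim fun m r =>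
      (L.set (g (L.get m) (fun f => r (ι f))).1 m,
        (g (L.get m) (fun f => r (ι f))).2.map fun x => (ι x.1, x.2))
  | .seq p q => .seq (map L ι p) (map L ι q)
  | .ite c p q => .ite (fun m r => c (L.get m) (fun f => r (ι f))) (map L ι p) (map L ι q)
  | .loop c p => .loop (fun m r => c (L.get m) (fun f => r (ι f))) (map L ι p)

end Prog

namespace Store

variable {M M₁ F F₁ α : Type}

/-- The part of a store seen by an embedded program. -/
def pull (L : Lens M M₁) (ι : F₁ → F) (S : Store M F α) : Store M₁ F₁ α :=
  ⟨L.get S.m, fun f => S.z (ι f)⟩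

/-- Replace the part of a store seen by an embedded program. -/
noncomputable def put (L : Lens M M₁) (ι : F₁ → F) (S : Store M F α) (s : Store M₁ F₁ α) :
    Store M F α :=
  ⟨L.set s.m S.m, Function.extend ι s.z S.z⟩

variable {L : Lens M M₁} {ι : F₁ → F}

theorem pull_put (hι : Function.Injective ι) (S : Store M F α) (s : Store M₁ F₁ α) :
    (S.put L ι s).pull L ι = s := by
  rcases s with ⟨m, z⟩
  simp only [pull, put, L.get_set, Store.mk.injEq, true_and]
  funext f
  exact hι.extend_apply _ _ _

theorem put_pull (hι : Function.Injective ι) (S : Store M F α) :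
    S.put L ι (S.pull L ι) = S := by
  rcases S with ⟨m, z⟩
  simp only [pull, put, L.set_get, Store.mk.injEq, true_and]
  funext f
  by_cases h : ∃ g, ι g = f
  · obtain ⟨g, rfl⟩ := h
    exact hι.extend_apply _ _ _
  · exact Function.extend_apply' _ _ _ h

theorem put_put (hι : Function.Injective ι) (S : Store M F α) (s s' : Store M₁ F₁ α) :
    (S.put L ι s).put L ι s' = S.put L ι s' := by
  simp only [put, L.set_set, Store.mk.injEq, true_and]
  funext f
  by_cases h : ∃ g, ι g = f
  · obtain ⟨g, rfl⟩ := h
    rw [hι.extend_apply, hι.extend_apply]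
  · rw [Function.extend_apply' _ _ _ h, Function.extend_apply' _ _ _ h,
      Function.extend_apply' _ _ _ h]

theorem put_z_apply (hι : Function.Injective ι) (S : Store M F α) (s : Store M₁ F₁ α) (f : F₁) :
    (S.put L ι s).z (ι f) = s.z f := hι.extend_apply _ _ _

theorem put_z_of_notMem (S : Store M F α) (s : Store M₁ F₁ α) {f : F} (h : ∀ g, ι g ≠ f) :
    (S.put L ι s).z f = S.z f :=
  Function.extend_apply' _ _ _ (by
    rintro ⟨g, hg⟩
    exact h g hg)

theorem put_m (S : Store M F α) (s : Store M₁ F₁ α) : (S.put L ι s).m = L.set s.m S.m := rfl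

end Store

namespace Prog

variable {M M₁ F F₁ α : Type} [DecidableEq F] [DecidableEq F₁] {L : Lens M M₁} {ι : F₁ → F}
  {d : α}

theorem appAct_put (hι : Function.Injective ι) (S : Store M F α)
    (x : M₁ × Option (F₁ × Op α)) :
    appAct d S (L.set x.1 S.m, x.2.map fun y => (ι y.1, y.2)) =
      S.put L ι (appAct d (S.pull L ι) x) := by
  obtain ⟨m, o⟩ := x
  cases o with
  | none =>
    simp only [Option.map_none, appAct, Store.put, Store.mk.injEq, true_and]
    funext f
    by_cases h : ∃ g, ι g = f
    · obtain ⟨g, rfl⟩ := h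
      rw [hι.extend_apply]
      rfl
    · rw [Function.extend_apply' _ _ _ h]
  | some y =>
    obtain ⟨f, op⟩ := y
    simp only [Option.map_some, appAct, Store.put, Store.mk.injEq, true_and]
    funext g
    by_cases h : ∃ g', ι g' = g
    · obtain ⟨g', rfl⟩ := h
      rw [hι.extend_apply]
      by_cases hg : g' = f
      · subst hg
        rw [Function.update_self, Function.update_self]
        rfl
      · rw [Function.update_of_ne (fun h => hg (hι h)), Function.update_of_ne hg]
        rfl
    · rw [Function.extend_apply' _ _ _ h, Function.update_of_ne]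
      rintro rfl
      exact h ⟨f, rfl⟩

theorem Exec.map (hι : Function.Injective ι) {p : Prog M₁ F₁ α} {s s' : Store M₁ F₁ α} {t : ℕ}
    (he : Exec d p s t s') :
    ∀ S : Store M F α, S.pull L ι = s → Exec d (p.map L ι) S t (S.put L ι s') := by
  induction he with
  | prim g s =>
    rintro S rfl
    have := Exec.prim (d := d) (fun (m : M) (r : F → Option α) =>
      (L.set (g (L.get m) (fun f => r (ι f))).1 m,
        (g (L.get m) (fun f => r (ι f))).2.map fun x => (ι x.1, x.2))) S
    rw [appAct_put hι] at this
    exact this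
  | seq _ _ ih1 ih2 =>
    intro S hS
    have h1 := ih1 S hS
    have h2 := ih2 _ (Store.pull_put hι S _)
    rw [Store.put_put hι] at h2
    exact Exec.seq h1 h2
  | iteT hc _ ih =>
    rintro S rfl
    exact Exec.iteT hc (ih S rfl)
  | iteF hc _ ih =>
    rintro S rfl
    exact Exec.iteF hc (ih S rfl)
  | loopT hc _ _ ih1 ih2 =>
    rintro S rfl
    have h1 := ih1 S rfl
    have h2 := ih2 _ (Store.pull_put hι S _)
    rw [Store.put_put hι] at h2
    exact Exec.loopT hc h1 h2
  | loopF hc =>
    rintro S rfl
    rw [Store.put_pull hι]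
    exact Exec.loopF hc

/-- **Frame rule**: an embedded program acts on its part of the store and changes nothing else. -/
theorem Run.map (hι : Function.Injective ι) {p : Prog M₁ F₁ α} {s s' : Store M₁ F₁ α} {t : ℕ}
    (h : Run d p s t s') {S : Store M F α} (hS : S.pull L ι = s) :
    Run d (p.map L ι) S t (S.put L ι s') := by
  obtain ⟨u, hu, he⟩ := h
  exact ⟨u, hu, he.map hι S hS⟩

end Prog

end Vale.Agent.P338.R2.H898
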