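import Mathlib

/-!
P338: deterministic multitape Turing machines, integer multiplication and matrix transposition.
All definitions used in the final statement.
-/

namespace Vale.Agent.P338.R2.H898

/-- Head moves. -/
inductive Move
  | left
  | stay
  | right
  deriving DecidableEq

/-- The letters of input and output words. -/
inductive Letter
  | zero
  | one
  | hash
  deriving DecidableEq

/-- A deterministic multitape Turing machine: a finite alphabet, a finite set of tapes (each a
sequence of cells `0, 1, 2, …`), a finite set of states. `step q r` is the action in state `q`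
when the symbols under the heads are `r`: `none` means that the machine halts, `some (q', a)`
means that the state becomes `q'` and that on tape `i` the symbol `(a i).1` is written and the
head makes the move `(a i).2`. -/
structure MTM where
  /-- the alphabet -/
  Sym : Type
  /-- the index set of the tapes -/
  Tape : Type
  /-- the states -/
  State : Type
  finSym : Finite Sym
  finTape : Finite Tape
  finState : Finite State
  /-- the blank symbol -/
  blank : Sym
  /-- the symbols representing `0`, `1` and `#` -/
  letter : Letter → Sym
  letter_inj : Function.Injective letter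
  letter_ne_blank : ∀ a, letter a ≠ blank
  /-- the first tape, which carries the input -/
  inp : Tape
  /-- the output tape -/
  out : Tape
  /-- the initial state -/
  start : State
  /-- the transition function -/
  step : State → (Tape → Sym) → Option (State × (Tape → Sym × Move))

/-- The new head position after a move; on the leftmost cell a move to the left has no effect. -/
def Move.app : Move → ℕ → ℕ
  | .left, p => p - 1
  | .stay, p => p
  | .right, p => p + 1

namespace MTM

/-- Configurations: the state, the contents of the tapes and the head positions. -/
structure Conf (A : MTM) where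
  /-- the state -/
  state : A.State
  /-- the contents of the tapes -/
  tape : A.Tape → ℕ → A.Sym
  /-- the head positions -/
  head : A.Tape → ℕ

/-- The action of the machine in a configuration. -/
def act (A : MTM) (c : A.Conf) : Option (A.State × (A.Tape → A.Sym × Move)) :=
  A.step c.state (fun i => c.tape i (c.head i))

/-- The machine has halted in the configuration `c`. -/
def Halted (A : MTM) (c : A.Conf) : Prop := A.act c = none

/-- The next configuration (the same one if the machine has halted). -/
def next (A : MTM) (c : A.Conf) : A.Conf :=
  match A.act c with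
  | none => c
  | some (q, a) =>
    { state := q
      tape := fun i => Function.update (c.tape i) (c.head i) (a i).1
      head := fun i => (a i).2.app (c.head i) }

open Classical in
/-- The initial configuration for the input word `w`: it is written on the first tape, all other
cells are blank, all heads are on the leftmost cell. -/
noncomputable def init (A : MTM) (w : List Letter) : A.Conf :=
  { state := A.start
    tape := fun i p => if i = A.inp then ((w[p]?).map A.letter).getD A.blank else A.blank
    head := fun _ => 0 }

/-- The configuration after `t` steps on the input `w`. -/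
noncomputable def conf (A : MTM) (w : List Letter) (t : ℕ) : A.Conf := (A.next)^[t] (A.init w)

/-- The machine halts on the input `w`. -/
def Halts (A : MTM) (w : List Letter) : Prop := ∃ t, A.Halted (A.conf w t)

open Classical in
/-- The number of steps on the input `w` (junk value `0` if the machine does not halt). -/
noncomputable def time (A : MTM) (w : List Letter) : ℕ := sInf {t | A.Halted (A.conf w t)}

/-- On the input `w` the machine halts with the word `v` written on its output tape: the cells
`0, 1, …` of the output tape contain `v`, followed by blanks. -/
def Computes (A : MTM) (w v : List Letter) : Prop :=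
  A.Halts w ∧ ∀ p, (A.conf w (A.time w)).tape A.out p = ((v[p]?).map A.letter).getD A.blank

end MTM

/-- The letter of a bit. -/
def bitL : Bool → Letter
  | false => .zero
  | true => .one

/-- The value of a binary word, most significant bit first. -/
def val (x : List Bool) : ℕ := x.foldl (fun a b => 2 * a + b.toNat) 0

/-- The binary representation of `z` with `k` bits, most significant bit first. -/
def bin (k z : ℕ) : List Bool := List.ofFn fun i : Fin k => z.testBit (k - 1 - i)

/-- The input word `x#y`. -/
def mulWord (x y : List Bool) : List Letter := x.map bitL ++ Letter.hash :: y.map bitL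

/-- The machine `A` multiplies. -/
def Multiplies (A : MTM) : Prop :=
  ∀ n : ℕ, 1 ≤ n → ∀ x y : List Bool, x.length = n → y.length = n →
    A.Computes (mulWord x y) ((bin (2 * n) (val x * val y)).map bitL)

/-- `T_A(n)`: the worst-case running time on pairs of `n`-bit numbers. -/
noncomputable def mulTime (A : MTM) (n : ℕ) : ℕ :=
  sSup {t | ∃ x y : List Bool, x.length = n ∧ y.length = n ∧ t = A.time (mulWord x y)}

/-- The word representing an `r × s` bit matrix: its rows, separated by `#`. -/
def matWord {r s : ℕ} (M : Fin r → Fin s → Bool) : List Letter :=
  List.intercalate [Letter.hash] (List.ofFn fun i => List.ofFn fun j => bitL (M i j))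

/-- The machine `B` transposes bit matrices. -/
def Transposes (B : MTM) : Prop :=
  ∀ r s : ℕ, 1 ≤ r → 1 ≤ s → ∀ M : Fin r → Fin s → Bool,
    B.Computes (matWord M) (matWord fun j i => M i j)

/-- The machine `B` transposes square bit matrices. -/
def TransposesSquares (B : MTM) : Prop :=
  ∀ m : ℕ, 1 ≤ m → ∀ M : Fin m → Fin m → Bool, B.Computes (matWord M) (matWord fun j i => M i j)

/-- The worst-case running time of `B` on `r × s` bit matrices. -/
noncomputable def transTime (B : MTM) (r s : ℕ) : ℕ :=
  sSup {t | ∃ M : Fin r → Fin s → Bool, t = B.time (matWord M)}

/-- The rows of a square bit matrix, one after the other. -/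
def plainWord {m : ℕ} (M : Fin m → Fin m → Bool) : List Letter :=
  (List.ofFn fun i => List.ofFn fun j => bitL (M i j)).flatten

/-- The machine `B` transposes square bit matrices given as plain bit strings. -/
def TransposesPlain (B : MTM) : Prop :=
  ∀ m : ℕ, 1 ≤ m → ∀ M : Fin m → Fin m → Bool,
    B.Computes (plainWord M) (plainWord fun j i => M i j)

/-- The worst-case running time of `B` on `m × m` bit matrices given as plain bit strings. -/
noncomputable def plainTime (B : MTM) (m : ℕ) : ℕ :=
  sSup {t | ∃ M : Fin m → Fin m → Bool, t = B.time (plainWord M)}

/-- The size parameter of an `r × s` matrix: it is of the order of `r * s` for near-square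
matrices, and takes every positive value. -/
def mu (r s : ℕ) : ℕ := 2 ^ Nat.log 2 r * s + (r - 2 ^ Nat.log 2 r)

/-- The inequality of the reduction, for the machine `A` and near-square matrices. -/
def Ineq (C₀ : ℕ) (A : MTM) : Prop :=
  ∀ ρ < C₀, ∃ B : MTM, Transposes B ∧ ∃ C : ℝ, ∀ r s : ℕ, 2 ≤ r → 2 ≤ s → r ≤ 4 * s → s ≤ 4 * r →
    ∀ j : ℕ, (transTime B r s : ℝ) ≤
      C * ((j + 1) * mulTime A (C₀ * mu r s + ρ) + r * s * Real.log (r * s) / 2 ^ j)

/-- The inequality of the reduction for square matrices given as plain bit strings. -/
def PlainIneq (C₀ : ℕ) (A : MTM) : Prop :=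
  ∀ ρ < C₀, ∃ B : MTM, TransposesPlain B ∧ ∃ C : ℝ, ∀ m : ℕ, 2 ≤ m → ∀ j : ℕ,
    (plainTime B m : ℝ) ≤
      C * ((j + 1) * mulTime A (C₀ * mu m m + ρ) + m ^ 2 * Real.log m / 2 ^ j)

/-- Transposing near-square bit matrices requires `Ω(rs log(rs))` steps on every machine. -/
def RectHard : Prop :=
  ∀ B : MTM, Transposes B → ∃ c : ℝ, 0 < c ∧ ∃ N : ℕ, ∀ r s : ℕ, N ≤ r → N ≤ s → r ≤ 4 * s →
    s ≤ 4 * r → c * (r * s * Real.log (r * s)) ≤ transTime B r s

/-- Transposing square bit matrices requires `Ω(m² log m)` steps on every machine. -/
def SquareHard : Prop :=
  ∀ B : MTM, TransposesSquares B → ∃ c : ℝ, 0 < c ∧ ∃ N : ℕ, ∀ m : ℕ, N ≤ m →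
    c * (m ^ 2 * Real.log m) ≤ transTime B m m

/-- The lower bound of Q1 for the machine `A`. -/
def MulHard (A : MTM) : Prop :=
  ∃ c : ℝ, 0 < c ∧ ∃ N : ℕ, 2 ≤ N ∧ ∀ n : ℕ, N ≤ n → c * (n * Real.log n) ≤ mulTime A n

/-- Transposing square bit matrices, given as plain bit strings, requires `Ω(m² log m)` steps on
every machine. -/
def PlainHard : Prop :=
  ∀ B : MTM, TransposesPlain B → ∃ c : ℝ, 0 < c ∧ ∃ N : ℕ, ∀ m : ℕ, N ≤ m →
    c * (m ^ 2 * Real.log m) ≤ plainTime B m

end Vale.Agent.P338.R2.H898
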