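import Vale.Agent.P338.R2.H525.PlainD
import Vale.Agent.P338.R2.H207.Bridge

/-!
The linear lower bound for the multiplication time, and the inequality of the reduction without
the additional term.
-/

namespace Vale.Agent.P338.R2.H898

section lower

variable (A : MTM)

theorem head_next_le (c : A.Conf) (i : A.Tape) : (A.next c).head i ≤ c.head i + 1 := by
  unfold MTM.next
  cases A.act c with
  | none => simp
  | some x =>
    obtain ⟨q, a⟩ := x
    simp only
    cases (a i).2 <;> simp [Move.app]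
    omega

theorem tape_next (c : A.Conf) (i : A.Tape) {p : ℕ} (hp : p ≠ c.head i) :
    (A.next c).tape i p = c.tape i p := by
  unfold MTM.next
  cases A.act c with
  | none => rfl
  | some x =>
    obtain ⟨q, a⟩ := x
    exact Function.update_of_ne hp _ _

theorem conf_far (w : List Letter) (t : ℕ) (i : A.Tape) :
    (A.conf w t).head i ≤ t ∧ ∀ p, t ≤ p → (A.conf w t).tape i p = (A.init w).tape i p := by
  induction t with
  | zero => exact ⟨le_rfl, fun p _ => rfl⟩
  | succ t ih =>
    have e : A.conf w (t + 1) = A.next (A.conf w t) := Function.iterate_succ_apply' _ _ _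
    rw [e]
    refine ⟨(head_next_le A _ i).trans (by omega), fun p hp => ?_⟩
    rw [tape_next A _ i (by omega), ih.2 p (by omega)]

theorem length_bin (k z : ℕ) : (bin k z).length = k := by simp [bin]

theorem le_time {A : MTM} (hA : Multiplies A) {n : ℕ} (hn : 1 ≤ n) {x y : List Bool}
    (hx : x.length = n) (hy : y.length = n) : n ≤ A.time (mulWord x y) := by
  obtain ⟨-, hv⟩ := hA n hn x y hx hy
  by_contra hlt
  set T := A.time (mulWord x y) with hT
  have hfar := (conf_far A (mulWord x y) T A.out).2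
  set v := (bin (2 * n) (val x * val y)).map bitL with hvdef
  have hvl : v.length = 2 * n := by rw [hvdef, List.length_map, length_bin]
  by_cases ho : A.out = A.inp
  · have h1 := hfar (2 * n) (by omega)
    rw [hv (2 * n)] at h1
    have h2 : v[2 * n]? = none := by
      rw [List.getElem?_eq_none_iff]
      omega
    have hwl : (mulWord x y).length = 2 * n + 1 := by
      simp [mulWord, hx, hy]
      omega
    simp only [h2, Option.map_none, Option.getD_none, MTM.init, ho, if_true] at h1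
    rw [List.getElem?_eq_getElem (by omega)] at h1
    exact A.letter_ne_blank _ h1.symm
  · have h1 := hfar (2 * n - 1) (by omega)
    rw [hv (2 * n - 1)] at h1
    rw [List.getElem?_eq_getElem (by omega)] at h1
    simp only [Option.map_some, Option.getD_some, MTM.init, ho, if_false] at h1
    exact A.letter_ne_blank _ h1

/-- The trivial lower bound. -/
theorem le_mulTime {A : MTM} (hA : Multiplies A) {n : ℕ} (hn : 1 ≤ n) : n ≤ mulTime A n :=
  (le_time hA hn (List.length_replicate (n := n) (a := true))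
    (List.length_replicate (n := n) (a := true))).trans
    (H207.time_le_mulTime A List.length_replicate List.length_replicate)

end lower

theorem log_add_two_le {L : ℝ} (hL : 0 ≤ L) (j : ℕ) :
    Real.log (L + 2) ≤ (j + 1) + L / 2 ^ j := by
  have h2 : (1 : ℝ) ≤ 2 ^ j := one_le_pow₀ (by norm_num)
  have h3 : 0 ≤ L / 2 ^ j := by positivity
  have h4 : L + 2 ≤ 2 ^ j * (L / 2 ^ j + 2) := by
    have : 2 ^ j * (L / 2 ^ j + 2) = L + 2 ^ j * 2 := by
      field_simp
    rw [this]
    linarith
  calc Real.log (L + 2) ≤ Real.log (2 ^ j * (L / 2 ^ j + 2)) := Real.log_le_log (by linarith) h4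
    _ = j * Real.log 2 + Real.log (L / 2 ^ j + 2) := by
        rw [Real.log_mul (by positivity) (by positivity), Real.log_pow]
    _ ≤ j * 1 + (L / 2 ^ j + 1) := by
        have a1 : Real.log 2 ≤ 1 := by
          have := Real.log_two_lt_d9
          linarith
        have a2 : Real.log (L / 2 ^ j + 2) ≤ L / 2 ^ j + 2 - 1 :=
          Real.log_le_sub_one_of_pos (by linarith)
        have a3 : (j : ℝ) * Real.log 2 ≤ j * 1 := mul_le_mul_of_nonneg_left a1 (Nat.cast_nonneg j)
        linarith
    _ = _ := by ring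

/-- The additional term is absorbed. -/
theorem absorb_loglog {x T : ℝ} (hx : 1 ≤ x) (hT : x ≤ 2 * T) (j : ℕ) :
    (j + 1) * T + (x * Real.log x) / 2 ^ j + x * Real.log (Real.log x + 2) ≤
      3 * ((j + 1) * T + x * Real.log x / 2 ^ j) := by
  have h1 := log_add_two_le (Real.log_nonneg hx) j
  have h2 : x * Real.log (Real.log x + 2) ≤ x * ((j + 1) + Real.log x / 2 ^ j) :=
    mul_le_mul_of_nonneg_left h1 (by linarith)
  have h3 : x * ((j + 1) + Real.log x / 2 ^ j) = (j + 1) * x + x * Real.log x / 2 ^ j := by ring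
  have h4 : ((j : ℝ) + 1) * x ≤ (j + 1) * (2 * T) := mul_le_mul_of_nonneg_left hT (by positivity)
  have h5 : 0 ≤ x * Real.log x / 2 ^ j := by
    have := Real.log_nonneg hx
    positivity
  linarith

theorem mul_le_mulTime {A : MTM} (hA : Multiplies A) {C₀ : ℕ} (hC₀ : 1 ≤ C₀) (ρ : ℕ) {r s : ℕ}
    (hr : 1 ≤ r) (hs : 1 ≤ s) :
    (r : ℝ) * s ≤ 2 * (mulTime A (C₀ * mu r s + ρ) : ℝ) := by
  have h1 : r * s ≤ 2 * mu r s := H784.mul_le_two_mu
  have h2 : 1 ≤ r * s := Nat.mul_pos hr hs
  have h3 : mu r s ≤ C₀ * mu r s := Nat.le_mul_of_pos_left _ hC₀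
  have h4 := le_mulTime hA (n := C₀ * mu r s + ρ) (by omega)
  exact_mod_cast (by omega : r * s ≤ 2 * mulTime A (C₀ * mu r s + ρ))

/-- The inequality without the additional term. -/
theorem ineq_of_ineqL {C₀ : ℕ} {A : MTM} (hA : Multiplies A) (h : IneqL C₀ A) : Ineq C₀ A := by
  intro ρ hρ
  obtain ⟨B, hB, C, hC⟩ := h ρ hρ
  refine ⟨B, hB, |C| * 3, fun r s hr hs h1 h2 j => ?_⟩
  have h3 := hC r s hr hs h1 h2 j
  have hx : (1 : ℝ) ≤ (r : ℝ) * s := by
    have : 1 ≤ r * s := Nat.mul_pos (by omega) (by omega)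
    exact_mod_cast this
  have h4 := absorb_loglog hx (mul_le_mulTime hA (show 1 ≤ C₀ by omega) ρ (show 1 ≤ r by omega)
    (show 1 ≤ s by omega)) j
  set T : ℝ := (mulTime A (C₀ * mu r s + ρ) : ℝ)
  have h5 : 0 ≤ ((j : ℝ) + 1) * T + (r * s * Real.log (r * s)) / 2 ^ j +
      r * s * Real.log (Real.log (r * s) + 2) := by
    have a1 := Real.log_nonneg hx
    have a2 : 0 ≤ Real.log (Real.log ((r : ℝ) * s) + 2) := Real.log_nonneg (by linarith)
    have a3 : 0 ≤ T := Nat.cast_nonneg _
    positivity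
  calc (transTime B r s : ℝ) ≤ _ := h3
    _ ≤ |C| * _ := mul_le_mul_of_nonneg_right (le_abs_self C) h5
    _ ≤ |C| * (3 * ((j + 1) * T + r * s * Real.log (r * s) / 2 ^ j)) :=
        mul_le_mul_of_nonneg_left h4 (abs_nonneg C)
    _ = _ := by ring

/-- The inequality for squares given as plain words. -/
theorem plainIneq_of_ineq {C₀ : ℕ} {A : MTM} (hA : Multiplies A) (h : Ineq C₀ A) :
    PlainIneq C₀ A := by
  intro ρ hρ
  obtain ⟨B, hB, C, hC⟩ := h ρ hρ
  obtain ⟨B', hB', K, hK⟩ := H525.exists_plainTime B hB.squares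
  refine ⟨B', hB', K * (2 * |C| + 2), fun m hm j => ?_⟩
  have h1 := hC m m hm hm (by omega) (by omega) j
  have h2 : (plainTime B' m : ℝ) ≤ K * (transTime B m m + m * m) := by
    exact_mod_cast hK m (by omega)
  have hmR : (2 : ℝ) ≤ m := by exact_mod_cast hm
  have hlog : 0 ≤ Real.log m := Real.log_nonneg (by linarith)
  have h6 := mul_le_mulTime hA (by omega : 1 ≤ C₀) ρ (r := m) (s := m) (by omega) (by omega)
  set T : ℝ := (mulTime A (C₀ * mu m m + ρ) : ℝ)
  have hT : 0 ≤ T := Nat.cast_nonneg _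
  have e1 : Real.log ((m : ℝ) * m) = 2 * Real.log m := by
    rw [Real.log_mul (by linarith) (by linarith)]
    ring
  rw [e1] at h1
  have hj : T ≤ ((j : ℝ) + 1) * T := by
    have : (0 : ℝ) ≤ j * T := by positivity
    linarith
  have hq : 0 ≤ (m : ℝ) ^ 2 * Real.log m / 2 ^ j := by positivity
  have g1 : ((j : ℝ) + 1) * T + (m : ℝ) * m * (2 * Real.log m) / 2 ^ j ≤
      2 * ((j + 1) * T + m ^ 2 * Real.log m / 2 ^ j) := by
    have a1 : (m : ℝ) * m * (2 * Real.log m) / 2 ^ j = 2 * (m ^ 2 * Real.log m / 2 ^ j) := by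
      ring
    rw [a1]
    linarith
  have g0 : 0 ≤ ((j : ℝ) + 1) * T + (m : ℝ) * m * (2 * Real.log m) / 2 ^ j := by positivity
  have g2 : (transTime B m m : ℝ) ≤ |C| * (2 * ((j + 1) * T + m ^ 2 * Real.log m / 2 ^ j)) :=
    h1.trans ((mul_le_mul_of_nonneg_right (le_abs_self C) g0).trans
      (mul_le_mul_of_nonneg_left g1 (abs_nonneg C)))
  have g3 : (m : ℝ) * m ≤ 2 * ((j + 1) * T + m ^ 2 * Real.log m / 2 ^ j) := by
    linarith
  have hK0 : (0 : ℝ) ≤ K := Nat.cast_nonneg _
  calc (plainTime B' m : ℝ) ≤ K * (transTime B m m + m * m) := h2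
    _ ≤ K * (|C| * (2 * ((j + 1) * T + m ^ 2 * Real.log m / 2 ^ j)) +
        2 * ((j + 1) * T + m ^ 2 * Real.log m / 2 ^ j)) :=
      mul_le_mul_of_nonneg_left (add_le_add g2 g3) hK0
    _ = _ := by ring

end Vale.Agent.P338.R2.H898
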