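import Vale.Agent.P338.R2.H898.XRun

/-!
The `Run` statement of a pass with word registers.
-/

namespace Vale.Agent.P338.R2.H898

open H968 (forR run_forR seqL run_skip upd_self CFile CallEnv CallMem run_act')
open H968.CallEnv (mem0 callC)
open H778 (bits)
open Prog
open Function (update)

/-- The environment of the calls in the files of a pass. -/
def locEnv {A : MTM} {M F R V α : Type} {d : α} (E : CallEnv A M F α d) :
    CallEnv A M (WF R V A.Tape) α d where
  file := WF.call
  file_inj := fun a b h => by simpa using h
  enc := E.enc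
  dec := E.dec
  dec_enc := E.dec_enc
  dec_d := E.dec_d
  bit := E.bit
  unbit := E.unbit
  unbit_bit := E.unbit_bit
  mark := E.mark
  get := E.get
  put := E.put
  get_put := E.get_put
  put_put := E.put_put

section

variable {M R V T α : Type} [DecidableEq V] {d : α}

/-- Fill the registers of a list with zeros. -/
noncomputable def initL (o : α) : List V → Prog M (WF R V T) α
  | [] => H968.skip
  | i :: l => .seq (forR .wid (.seq (H968.act (.reg i) (.write o)) (H968.act (.reg i) .right)))
      (.seq (H968.act (.reg i) .rew) (initL o l))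

/-- Erase the registers of a list. -/
noncomputable def clrW : List V → Prog M (WF R V T) α
  | [] => H968.skip
  | i :: l => .seq (H968.act (.reg i) .trunc) (clrW l)

/-- Replace the contents of the registers. -/
def setR (g : V → Zip α) (z : WF R V T → Zip α) : WF R V T → Zip α
  | .reg i => g i
  | .inp => z .inp
  | .out => z .out
  | .rul r => z (.rul r)
  | .wid => z .wid
  | .wp => z .wp
  | .wmu => z .wmu
  | .wl => z .wl
  | .call c => z (.call c)

omit [DecidableEq V] in
theorem setR_setR (g g' : V → Zip α) (z : WF R V T → Zip α) :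
    setR g' (setR g z) = setR g' z := by
  funext f
  cases f <;> rfl

omit [DecidableEq V] in
theorem setR_ne (g : V → Zip α) (z : WF R V T → Zip α) {f : WF R V T} (h : ∀ i, f ≠ .reg i) :
    setR g z f = z f := by
  cases f with
  | reg i => exact absurd rfl (h i)
  | inp => rfl
  | out => rfl
  | rul r => rfl
  | wid => rfl
  | wp => rfl
  | wmu => rfl
  | wl => rfl
  | call c => rfl

omit [DecidableEq V] in
theorem setR_self (z : WF R V T → Zip α) : setR (fun i => z (.reg i)) z = z := by
  funext f
  cases f <;> rfl

theorem update_setR (g : V → Zip α) (z : WF R V T → Zip α) (i : V) (v : Zip α) :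
    update (setR g z) (.reg i) v = setR (update g i v) z := by
  funext f
  by_cases h : f = .reg i
  · subst h
    rw [Function.update_self]
    exact (Function.update_self i v g).symm
  · rw [Function.update_of_ne h]
    cases f with
    | reg j =>
      have h' : j ≠ i := fun h1 => h (by rw [h1])
      exact (Function.update_of_ne h' v g).symm
    | inp => rfl
    | out => rfl
    | rul r => rfl
    | wid => rfl
    | wp => rfl
    | wmu => rfl
    | wl => rfl
    | call c => rfl

theorem run_initL (o : α) (NR : List α) (m : M) (z : WF R V T → Zip α)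
    (hz : z .wid = ⟨[], NR⟩) (l : List V) (hl : l.Nodup) (g : V → Zip α)
    (hg : ∀ i ∈ l, g i = Zip.nil) :
    Run d (initL o l) ⟨m, setR g z⟩ (l.length * (4 * NR.length + 3) + 1)
      ⟨m, setR (fun i => if i ∈ l then ⟨[], List.replicate NR.length o⟩ else g i) z⟩ := by
  induction l generalizing g with
  | nil =>
    have h1 := run_skip (d := d) (⟨m, setR g z⟩ : Store M (WF R V T) α)
    simp only [List.length_nil, Nat.zero_mul, Nat.zero_add, List.not_mem_nil, if_false]
    exact h1
  | cons i l ih =>
    rw [List.nodup_cons] at hl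
    have h1 := run_fill (d := d) (f := (.reg i : WF R V T)) (r := .wid) (by simp) o
      (Rl := NR) (m := m) (z := setR g z) (hg i (by simp)) hz
    rw [update_setR] at h1
    have h2 := run_rew (d := d) (f := (.reg i : WF R V T)) (l := List.replicate NR.length o)
      (r := []) (m := m) (z := setR (update g i ⟨List.replicate NR.length o, []⟩) z)
      (Function.update_self i _ g)
    rw [update_setR, Function.update_idem] at h2
    have h3 := ih hl.2 (update g i ⟨[], (List.replicate NR.length o).reverse ++ []⟩) (by
      intro j hj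
      have hji : j ≠ i := fun h => hl.1 (h ▸ hj)
      rw [Function.update_of_ne hji]
      exact hg j (List.mem_cons_of_mem _ hj))
    have e1 : (fun j => if j ∈ l then (⟨[], List.replicate NR.length o⟩ : Zip α) else
        update g i ⟨[], (List.replicate NR.length o).reverse ++ []⟩ j) =
        fun j => if j ∈ i :: l then ⟨[], List.replicate NR.length o⟩ else g j := by
      funext j
      by_cases hj : j ∈ l
      · simp [hj]
      · by_cases hji : j = i
        · subst hji
          simp [hj]
        · simp [hj, hji]
    rw [e1] at h3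
    refine (Run.seq h1 (Run.seq h2 h3)).mono ?_
    rw [List.length_cons]
    ring_nf
    omega

theorem run_clrW (m : M) (z : WF R V T → Zip α) (l : List V) (g : V → Zip α)
    (hg : ∀ i ∈ l, ∃ x, g i = ⟨[], x⟩) :
    Run d (clrW l) ⟨m, setR g z⟩ (l.length + 1)
      ⟨m, setR (fun i => if i ∈ l then Zip.nil else g i) z⟩ := by
  induction l generalizing g with
  | nil =>
    have h1 := run_skip (d := d) (⟨m, setR g z⟩ : Store M (WF R V T) α)
    simp only [List.length_nil, Nat.zero_add, List.not_mem_nil, if_false]
    exact h1
  | cons i l ih =>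
    obtain ⟨x, hx⟩ := hg i (by simp)
    have h1 := run_trunc (d := d) (f := (.reg i : WF R V T)) (r := x) (m := m)
      (z := setR g z) hx
    rw [update_setR] at h1
    have h3 := ih (update g i Zip.nil) (by
      intro j hj
      by_cases hji : j = i
      · subst hji
        exact ⟨[], by rw [Function.update_self]; rfl⟩
      · rw [Function.update_of_ne hji]
        exact hg j (List.mem_cons_of_mem _ hj))
    have e1 : (fun j => if j ∈ l then Zip.nil else update g i Zip.nil j) =
        fun j => if j ∈ i :: l then Zip.nil else g j := by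
      funext j
      by_cases hj : j ∈ l
      · simp [hj]
      · by_cases hji : j = i
        · subst hji
          simp [hj]
        · simp [hj, hji]
    rw [e1] at h3
    refine (Run.seq h1 h3).mono ?_
    rw [List.length_cons]
    omega

end

section pass

variable {M R V α : Type} [Finite R] [Finite V] [DecidableEq R] [DecidableEq V] [DecidableEq α]
  {d : α} {A : MTM}

/-- The program of a pass; `sc` is the list of the scratch registers. -/
noncomputable def wpass (E : CallEnv A M (WF R V A.Tape) α d) (one mk : α) (sc : List V)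
    (a : XP R Bool (WI V)) : Prog M (WF R V A.Tape) α :=
  .seq (initL (E.bit false) sc)
    (.seq (XP.passX .inp .out one mk (E.bit false) (wprog E E.unbit)
      ((a.sym E.bit).map WF.rul)) (clrW sc))

/-- The initial store of a pass. -/
structure WInit (E : CallEnv A M (WF R V A.Tape) α d) (one : α) (sc : List V)
    (a : XP R Bool (WI V)) (W L p μ : ℕ) (m : R → ℕ) (u : V → ℕ) (w : List Bool)
    (z : WF R V A.Tape → Zip α) : Prop where
  inp : z .inp = ⟨[], w.map E.bit⟩
  out : z .out = Zip.nil
  rul : ∀ r ∈ a.uses, z (.rul r) = ⟨[], List.replicate (m r) one⟩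
  reg : ∀ i, z (.reg i) = if i ∈ sc then Zip.nil else word E.bit W (u i)
  wid : ∃ NR, z .wid = ⟨[], NR⟩ ∧ NR.length = W
  wl : ∃ LR, z .wl = ⟨[], LR⟩ ∧ LR.length = L
  wp : z .wp = word E.bit W p
  wmu : z .wmu = word E.bit W μ
  call : ∀ c, z (.call c) = Zip.nil

/-- **The `Run` statement of a pass.** The scratch registers (list `sc`) are empty files before
and after the pass; their values at the beginning of the loop program are `0`. -/
theorem run_wpass (hA : Multiplies A) (E : CallEnv A M (WF R V A.Tape) α d)
    (hfile : ∀ c, E.file c = .call c) (one mk : α) (hmk : one ≠ mk) (sc : List V)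
    (hsc : sc.Nodup) (a : XP R Bool (WI V)) (hwf : a.WF) {mem : M}
    (hm : E.put (mem0 A) mem = mem) {W L p μ : ℕ} (hL : L ≤ W) (hW : 1 ≤ W) (hp : p < 2 ^ W)
    (hμ : μ < 2 ^ W) (m : R → ℕ) (hm0 : ∀ r ∈ a.uses, 0 < m r) (u u1 : V → ℕ)
    (w : List Bool) (z : WF R V A.Tape → Zip α) (hz : WInit E one sc a W L p μ m u w z)
    {n : ℕ} {out : List Bool}
    (h : XP.eval m w false (wsem W L p μ) a
      ⟨fun _ => 0, 0, [], fun i => if i ∈ sc then 0 else u i⟩ = ⟨fun _ => 0, n, out, u1⟩) :
    Run d (wpass E one mk sc a) ⟨mem, z⟩
      (XP.bd m (fun _ => wcost A W) a + sc.length * (4 * W + 4) + 4)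
      ⟨mem, update (setR (fun i => if i ∈ sc then Zip.nil else word E.bit W (u1 i)) z) .out
        ⟨[], out.map E.bit⟩⟩ := by
  obtain ⟨NR, hNR, hNRl⟩ := hz.wid
  obtain ⟨LR, hLR, hLRl⟩ := hz.wl
  -- first part
  have h1 := run_initL (d := d) (E.bit false) NR mem z hNR sc hsc (fun i => z (.reg i))
    (by
      intro i hi
      rw [hz.reg, if_pos hi])
  rw [setR_self] at h1
  set g1 : V → Zip α := fun i => if i ∈ sc then ⟨[], List.replicate NR.length (E.bit false)⟩ else
    z (.reg i) with hg1
  have e1 : g1 = fun i => word E.bit W (if i ∈ sc then 0 else u i) := by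
    funext i
    rw [hg1]
    by_cases hi : i ∈ sc
    · simp only [hi, if_true, word]
      rw [H778.bits_zero, List.map_replicate, hNRl]
    · simp only [hi, if_false]
      rw [hz.reg, if_neg hi]
  -- second part
  have himpl : XP.Impl d .inp .out (w.map E.bit) (E.bit false) (wX R V A.Tape)
      (wz E.bit W p μ NR LR) mem ((wsem (V := V) W L p μ).sym E.bit E.unbit)
      (wprog E E.unbit) (fun _ => wcost A W) :=
    impl_wprog hA hfile E.unbit_bit hm hNRl hLRl hL hW hp hμ
  have hev : XP.eval m (w.map E.bit) (E.bit false) ((wsem (V := V) W L p μ).sym E.bit E.unbit)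
      (a.sym E.bit) ⟨fun _ => 0, 0, [], fun i => if i ∈ sc then 0 else u i⟩ =
      ⟨fun _ => 0, n, out.map E.bit, u1⟩ := by
    have := XP.eval_sym E.bit E.unbit_bit m w false (wsem (V := V) W L p μ) a
      ⟨fun _ => 0, 0, [], fun i => if i ∈ sc then 0 else u i⟩
    rw [h] at this
    exact this
  have h2 := XP.run_passX (d := d) (M := M) (WF.rul : R → WF R V A.Tape)
    (fun a b h => by simpa using h) (a.sym E.bit) (XP.wf_sym E.bit a hwf) .inp .out (by simp)
    (wX R V A.Tape) (by rw [mem_wX]; exact id) (by rw [mem_wX]; exact id) (by simp) (by simp)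
    (fun r => by rw [mem_wX]; exact id) one mk (E.bit false) hmk mem (wz E.bit W p μ NR LR)
    ((wsem (V := V) W L p μ).sym E.bit E.unbit) (wprog E E.unbit) (fun _ => wcost A W)
    (w.map E.bit) himpl (setR g1 z) m hz.inp hz.out
    (by
      intro r hr
      rw [XP.uses_sym] at hr
      exact ⟨_, hz.rul r hr, by simp, fun _ => rfl⟩)
    (by
      intro r hr
      rw [XP.uses_sym] at hr
      exact hm0 r hr)
    (x0 := fun i => if i ∈ sc then 0 else u i) (x1 := u1)
    (by
      intro f hf
      rw [mem_wX] at hf
      cases f with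
      | inp => exact absurd hf id
      | out => exact absurd hf id
      | rul r => exact absurd hf id
      | reg i =>
        show g1 i = _
        rw [e1]
        rfl
      | wid => exact hNR
      | wp => exact hz.wp
      | wmu => exact hz.wmu
      | wl => exact hLR
      | call c => exact hz.call c)
    hev
  rw [XP.bd_sym] at h2
  have e2 : (fun f => if f = .out then (⟨[], out.map E.bit⟩ : Zip α) else
      if f ∈ wX R V A.Tape then wz E.bit W p μ NR LR u1 f else setR g1 z f) =
      setR (fun i => word E.bit W (u1 i)) (update z .out ⟨[], out.map E.bit⟩) := by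
    funext f
    cases f with
    | inp =>
      rw [if_neg (by simp), if_neg (by rw [mem_wX]; exact id)]
      exact (Function.update_of_ne (by simp) _ _).symm
    | out =>
      rw [if_pos rfl]
      exact (Function.update_self (WF.out : WF R V A.Tape) _ z).symm
    | rul r =>
      rw [if_neg (by simp), if_neg (by rw [mem_wX]; exact id)]
      exact (Function.update_of_ne (by simp) _ _).symm
    | reg i =>
      rw [if_neg (by simp), if_pos (by rw [mem_wX]; trivial)]
      rfl
    | wid =>
      rw [if_neg (by simp), if_pos (by rw [mem_wX]; trivial)]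
      exact (hNR.symm.trans (Function.update_of_ne (by simp) _ _).symm)
    | wp =>
      rw [if_neg (by simp), if_pos (by rw [mem_wX]; trivial)]
      exact (hz.wp.symm.trans (Function.update_of_ne (by simp) _ _).symm)
    | wmu =>
      rw [if_neg (by simp), if_pos (by rw [mem_wX]; trivial)]
      exact (hz.wmu.symm.trans (Function.update_of_ne (by simp) _ _).symm)
    | wl =>
      rw [if_neg (by simp), if_pos (by rw [mem_wX]; trivial)]
      exact (hLR.symm.trans (Function.update_of_ne (by simp) _ _).symm)
    | call c =>
      rw [if_neg (by simp), if_pos (by rw [mem_wX]; trivial)]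
      exact ((hz.call c).symm.trans (Function.update_of_ne (by simp) _ _).symm)
  rw [e2] at h2
  -- third part
  have h3 := run_clrW (d := d) mem (update z .out ⟨[], out.map E.bit⟩) sc
    (fun i => word E.bit W (u1 i)) (fun i _ => ⟨_, rfl⟩)
  have e3 : setR (fun i => if i ∈ sc then Zip.nil else word E.bit W (u1 i))
      (update z .out ⟨[], out.map E.bit⟩) =
      update (setR (fun i => if i ∈ sc then Zip.nil else word E.bit W (u1 i)) z) .out
        ⟨[], out.map E.bit⟩ := by
    funext f
    by_cases hf : f = .out
    · subst hf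
      rw [Function.update_self]
      exact Function.update_self _ _ _
    · rw [Function.update_of_ne hf]
      cases f with
      | reg i => rfl
      | out => exact absurd rfl hf
      | inp => exact Function.update_of_ne hf _ _
      | rul r => exact Function.update_of_ne hf _ _
      | wid => exact Function.update_of_ne hf _ _
      | wp => exact Function.update_of_ne hf _ _
      | wmu => exact Function.update_of_ne hf _ _
      | wl => exact Function.update_of_ne hf _ _
      | call c => exact Function.update_of_ne hf _ _
  rw [e3] at h3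
  refine (Run.seq h1 (Run.seq h2 h3)).mono ?_
  rw [hNRl]
  ring_nf
  omega

/-- The `Run` statement of a pass that does not change the other registers. -/
theorem run_wpass' (hA : Multiplies A) (E : CallEnv A M (WF R V A.Tape) α d)
    (hfile : ∀ c, E.file c = .call c) (one mk : α) (hmk : one ≠ mk) (sc : List V)
    (hsc : sc.Nodup) (a : XP R Bool (WI V)) (hwf : a.WF) {mem : M}
    (hm : E.put (mem0 A) mem = mem) {W L p μ : ℕ} (hL : L ≤ W) (hW : 1 ≤ W) (hp : p < 2 ^ W)
    (hμ : μ < 2 ^ W) (m : R → ℕ) (hm0 : ∀ r ∈ a.uses, 0 < m r) (u u1 : V → ℕ)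
    (hu1 : ∀ i, i ∉ sc → u1 i = u i)
    (w : List Bool) (z : WF R V A.Tape → Zip α) (hz : WInit E one sc a W L p μ m u w z)
    {n : ℕ} {out : List Bool}
    (h : XP.eval m w false (wsem W L p μ) a
      ⟨fun _ => 0, 0, [], fun i => if i ∈ sc then 0 else u i⟩ = ⟨fun _ => 0, n, out, u1⟩) :
    Run d (wpass E one mk sc a) ⟨mem, z⟩
      (XP.bd m (fun _ => wcost A W) a + sc.length * (4 * W + 4) + 4)
      ⟨mem, update z .out ⟨[], out.map E.bit⟩⟩ := by
  have h1 := run_wpass hA E hfile one mk hmk sc hsc a hwf hm hL hW hp hμ m hm0 u u1 w z hz h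
  have e1 : setR (fun i => if i ∈ sc then Zip.nil else word E.bit W (u1 i)) z = z := by
    have : (fun i => if i ∈ sc then Zip.nil else word E.bit W (u1 i)) = fun i => z (.reg i) := by
      funext i
      rw [hz.reg]
      by_cases hi : i ∈ sc
      · simp [hi]
      · simp [hi, hu1 i hi]
    rw [this, setR_self]
  rwa [e1] at h1

/-- The pass embedded in a larger machine. -/
theorem run_wpassMap {F : Type} [DecidableEq F] (hA : Multiplies A)
    (E : CallEnv A M (WF R V A.Tape) α d)
    (hfile : ∀ c, E.file c = .call c) (one mk : α) (hmk : one ≠ mk) (sc : List V)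
    (hsc : sc.Nodup) (a : XP R Bool (WI V)) (hwf : a.WF) {mem : M}
    (hm : E.put (mem0 A) mem = mem) {W L p μ : ℕ} (hL : L ≤ W) (hW : 1 ≤ W) (hp : p < 2 ^ W)
    (hμ : μ < 2 ^ W) (m : R → ℕ) (hm0 : ∀ r ∈ a.uses, 0 < m r) (u u1 : V → ℕ)
    (hu1 : ∀ i, i ∉ sc → u1 i = u i)
    (w : List Bool) {ι : WF R V A.Tape → F} (hι : Function.Injective ι) (z : F → Zip α)
    (hz : WInit E one sc a W L p μ m u w fun f => z (ι f))
    {n : ℕ} {out : List Bool}
    (h : XP.eval m w false (wsem W L p μ) a
      ⟨fun _ => 0, 0, [], fun i => if i ∈ sc then 0 else u i⟩ = ⟨fun _ => 0, n, out, u1⟩) :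
    Run d ((wpass E one mk sc a).map (Lens.idL M) ι) ⟨mem, z⟩
      (XP.bd m (fun _ => wcost A W) a + sc.length * (4 * W + 4) + 4)
      ⟨mem, update z (ι .out) ⟨[], out.map E.bit⟩⟩ :=
  Prog.Run.map_update hι (run_wpass' hA E hfile one mk hmk sc hsc a hwf hm hL hW hp hμ m hm0 u
    u1 hu1 w _ hz h) (fun _ => rfl)

end pass

end Vale.Agent.P338.R2.H898
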