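import Vale.Agent.P338.R2.H898.Mid
import Vale.Agent.P338.R2.H898.Frame
import Vale.Agent.P338.R2.H806.Pass

/-!
The middle pass as a program on files.
-/

namespace Vale.Agent.P338.R2.H898

open H806 H806.LP
open H525 (Dim midBits slotAt zeros)
open Function (update)

/-- Frame rule for programs that change one file. -/
theorem Prog.Run.map_update {M F F₁ α : Type} [DecidableEq F] [DecidableEq F₁] {ι : F₁ → F}
    {d : α} (hι : Function.Injective ι) {p : Prog M F₁ α} {m m' : M} {z₁ : F₁ → Zip α} {t : ℕ}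
    {f : F₁} {v : Zip α} (h : Prog.Run d p ⟨m, z₁⟩ t ⟨m', update z₁ f v⟩) {z : F → Zip α}
    (hz : ∀ g, z (ι g) = z₁ g) :
    Prog.Run d (p.map (Lens.idL M) ι) ⟨m, z⟩ t ⟨m', update z (ι f) v⟩ := by
  have h1 := h.map (L := Lens.idL M) hι (S := ⟨m, z⟩) (by
    simp only [Store.pull, Lens.idL, Store.mk.injEq, true_and]
    funext g
    exact hz g)
  have h2 : Store.put (Lens.idL M) ι (⟨m, z⟩ : Store M F α) ⟨m', update z₁ f v⟩ =
      ⟨m', update z (ι f) v⟩ := by
    simp only [Store.put, Lens.idL, Store.mk.injEq, true_and]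
    funext g
    by_cases h3 : ∃ g', ι g' = g
    · obtain ⟨g', rfl⟩ := h3
      rw [hι.extend_apply]
      by_cases h4 : g' = f
      · subst h4
        simp
      · rw [Function.update_of_ne h4, Function.update_of_ne (fun h5 => h4 (hι h5)), hz]
    · rw [Function.extend_apply' _ _ _ h3, Function.update_of_ne]
      rintro rfl
      exact h3 ⟨f, rfl⟩
  rw [h2] at h1
  exact h1

namespace Mid

variable {α : Type}

theorem out_map (D : Dim) (w : List Bool) (bit : Bool → α) :
    out D (w.map bit) (bit false) = (midBits D w).map bit := by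
  simp only [out, midBits, oslot, slotA, slotAt, zeros, List.map_flatMap, List.map_append,
    List.map_replicate, List.map_drop, List.map_take]

/-- The files that must contain rulers. -/
def rul : Finset MF := {.rK, .rP, .rG, .rC, .rX, .rT, .rW}

theorem uses_prog (z : α) : (prog z : LP MF α).uses ⊆ rul := by
  have h : (prog z : LP MF α).uses = (prog () : LP MF Unit).uses := rfl
  rw [h]
  decide

theorem wf_prog (z : α) : (prog z : LP MF α).WF := by
  have h : (prog () : LP MF Unit).WF := by decide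
  exact h

theorem tau_P (D : Dim) (hs : D.s ≤ D.h) : D.tau * (2 * D.P) = 4 * D.L := by
  unfold Dim.tau Dim.L Dim.P
  obtain ⟨k, hk⟩ := Nat.exists_eq_add_of_le hs
  rw [hk, pow_add]
  have h1 : 2 * (2 ^ D.s * 2 ^ k) / 2 ^ D.s = 2 * 2 ^ k := by
    rw [show 2 * (2 ^ D.s * 2 ^ k) = 2 ^ D.s * (2 * 2 ^ k) by ring]
    exact Nat.mul_div_cancel_left _ (by positivity)
  rw [h1]
  ring

theorem cost (D : Dim) (hs : D.s ≤ D.h) (hG : 0 < D.G) (hK : 0 < D.K) (z : α) :
    bd (mv D) (prog z : LP MF α) ≤ 20000 * (D.K * (D.P * (D.G * (D.P * D.L)))) := by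
  have hP : 1 ≤ D.P := P_pos D
  have hL : 1 ≤ D.L := by unfold Dim.L; exact Nat.one_le_two_pow
  have hPL : D.P ≤ D.L := by
    unfold Dim.P Dim.L
    exact Nat.pow_le_pow_right (by norm_num) hs
  have hτ := tau_P D hs
  have hτ1 : 1 ≤ D.tau := by
    rcases Nat.eq_zero_or_pos D.tau with h | h
    · rw [h] at hτ
      omega
    · exact h
  have mT : mv D .rT = D.tau := rfl
  have mX : mv D .rX = 2 * D.P := rfl
  have mC : mv D .rC = 2 * D.P := rfl
  have mW : mv D .rW = 64 * D.L := rfl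
  have mG : mv D .rG = D.G := rfl
  have mP : mv D .rP = D.P := rfl
  have mK : mv D .rK = D.K := rfl
  -- one slot
  have a1 : bd (mv D) (loop .rT (seq skip (inc .rW)) : LP MF α) ≤ (4 + 4) * (D.tau * 1) :=
    bd_loop_le le_rfl hτ1 (by simp [bd])
  have a2 : bd (mv D) (forCo .rX (loop .rT (seq skip (inc .rW))) : LP MF α) ≤
      (8 + 9) * (2 * D.P * (D.tau * 1)) :=
    bd_forCo_le (by omega) (by rw [mX]; omega) a1
  have a3 : bd (mv D) (loop .rW copy : LP MF α) ≤ (3 + 4) * (64 * D.L * 1) :=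
    bd_loop_le le_rfl (by rw [mW]; omega) (by simp [bd])
  have a4 : bd (mv D) (loop .rT (emit z) : LP MF α) ≤ (2 + 4) * (D.tau * 1) :=
    bd_loop_le le_rfl hτ1 (by simp [bd])
  have a5 : bd (mv D) (forCo .rX (loop .rT (emit z)) : LP MF α) ≤
      (6 + 9) * (2 * D.P * (D.tau * 1)) :=
    bd_forCo_le (by omega) (by rw [mX]; omega) a4
  have a6 : 2 * D.P * (D.tau * 1) = 4 * D.L := by rw [← hτ]; ring
  rw [a6] at a2 a5
  have a7 : bd (mv D) (forCo .rP (seq (inc .rX) (inc .rX)) : LP MF α) ≤ (6 + 9) * (D.P * 1) :=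
    bd_forCo_le le_rfl hP (by simp [bd])
  have a8 : bd (mv D) (seq (slot z) (forCo .rP (seq (inc .rX) (inc .rX))) : LP MF α) ≤
      600 * D.L := by
    simp only [slot, bd] at a1 a2 a3 a4 a5 a7 ⊢
    omega
  have a9 : bd (mv D) (loop .rC (seq (slot z) (forCo .rP (seq (inc .rX) (inc .rX)))) :
      LP MF α) ≤ (600 + 4) * (2 * D.P * D.L) :=
    bd_loop_le hL (by rw [mC]; omega) a8
  have hCL : 1 ≤ 2 * D.P * D.L := Nat.mul_pos (by omega) hL
  have a10 : bd (mv D) (row z : LP MF α) ≤ (604 + 4) * (D.G * (2 * D.P * D.L)) :=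
    bd_loop_le hCL hG a9
  have hGCL : 1 ≤ D.G * (2 * D.P * D.L) := Nat.mul_pos hG hCL
  have a11 : bd (mv D) (forReg .rP (seq (seq (inc .rX) (inc .rX))
    (seq (inc .rX) (inc .rX))) : LP MF α) ≤ (12 + 6) * (D.P * 1) :=
    bd_forReg_le le_rfl hP (by simp [bd])
  have hP2 : D.P ≤ D.G * (2 * D.P * D.L) := by
    calc D.P ≤ D.P * (2 * D.L * D.G) := Nat.le_mul_of_pos_right _
          (Nat.mul_pos (by omega) hG)
      _ = _ := by ring
  have a12 : bd (mv D) (seq (row z) (seq (forReg .rP (seq (seq (inc .rX) (inc .rX))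
    (seq (inc .rX) (inc .rX)))) (seq (inc .rX) (inc .rX))) : LP MF α) ≤
      632 * (D.G * (2 * D.P * D.L)) := by
    simp only [bd] at a10 a11 ⊢
    omega
  have a13 : bd (mv D) (rows z : LP MF α) ≤ (632 + 4) * (D.P * (D.G * (2 * D.P * D.L))) :=
    bd_loop_le hGCL hP a12
  -- skips and zeros
  have hW1 : 1 ≤ 64 * D.L * 1 := by omega
  have b1 : bd (mv D) (loop .rW skip : LP MF α) ≤ (1 + 4) * (64 * D.L * 1) :=
    bd_loop_le le_rfl (by rw [mW]; omega) (by simp [bd])
  have b2 : bd (mv D) (loop .rC (loop .rW skip) : LP MF α) ≤ (5 + 4) * (2 * D.P * (64 * D.L * 1)) :=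
    bd_loop_le hW1 (by rw [mC]; omega) b1
  have hCW : 1 ≤ 2 * D.P * (64 * D.L * 1) := Nat.mul_pos (by omega) hW1
  have b3 : bd (mv D) (loop .rG (loop .rC (loop .rW skip)) : LP MF α) ≤
      (9 + 4) * (D.G * (2 * D.P * (64 * D.L * 1))) := bd_loop_le hCW hG b2
  have hGCW : 1 ≤ D.G * (2 * D.P * (64 * D.L * 1)) := Nat.mul_pos hG hCW
  have b4 : bd (mv D) (skipPR : LP MF α) ≤
      (13 + 4) * (D.P * (D.G * (2 * D.P * (64 * D.L * 1)))) := bd_loop_le hGCW hP b3
  have hLG : 64 * D.L * 1 ≤ D.G * (2 * D.P * (64 * D.L * 1)) := by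
    calc 64 * D.L * 1 ≤ 64 * D.L * 1 * (D.G * (2 * D.P)) := Nat.le_mul_of_pos_right _
          (Nat.mul_pos hG (by omega))
      _ = _ := by ring
  have b5 : bd (mv D) (seq (loop .rG (loop .rC (loop .rW skip))) (loop .rW skip) : LP MF α) ≤
      18 * (D.G * (2 * D.P * (64 * D.L * 1))) := by
    simp only [bd] at b1 b3 ⊢
    omega
  have b6 : bd (mv D) (skipPR1 : LP MF α) ≤
      (18 + 4) * (D.P * (D.G * (2 * D.P * (64 * D.L * 1)))) := bd_loop_le hGCW hP b5
  have c1 : bd (mv D) (loop .rW (emit z) : LP MF α) ≤ (2 + 4) * (64 * D.L * 1) :=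
    bd_loop_le le_rfl (by rw [mW]; omega) (by simp [bd])
  have c2 : bd (mv D) (loop .rC (loop .rW (emit z)) : LP MF α) ≤
      (6 + 4) * (2 * D.P * (64 * D.L * 1)) :=
    bd_loop_le hW1 (by rw [mC]; omega) c1
  have c3 : bd (mv D) (loop .rG (loop .rC (loop .rW (emit z))) : LP MF α) ≤
      (10 + 4) * (D.G * (2 * D.P * (64 * D.L * 1))) := bd_loop_le hCW hG c2
  have c4 : bd (mv D) (zeroPR z : LP MF α) ≤
      (14 + 4) * (D.P * (D.G * (2 * D.P * (64 * D.L * 1)))) := bd_loop_le hGCW hP c3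
  have c5 : bd (mv D) (seq (loop .rG (loop .rC (loop .rW (emit z)))) (loop .rW (emit z)) :
      LP MF α) ≤ 20 * (D.G * (2 * D.P * (64 * D.L * 1))) := by
    simp only [bd] at c1 c3 ⊢
    omega
  have c6 : bd (mv D) (zeroPR1 z : LP MF α) ≤
      (20 + 4) * (D.P * (D.G * (2 * D.P * (64 * D.L * 1)))) := bd_loop_le hGCW hP c5
  -- everything
  set X := D.P * (D.G * (D.P * D.L)) with hX
  have hX1 : 1 ≤ X := Nat.mul_pos hP (Nat.mul_pos hG (Nat.mul_pos hP hL))
  have e1 : D.P * (D.G * (2 * D.P * D.L)) = 2 * X := by rw [hX]; ring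
  have e2 : D.P * (D.G * (2 * D.P * (64 * D.L * 1))) = 128 * X := by rw [hX]; ring
  rw [e1] at a13
  rw [e2] at b4 b6 c4 c6
  have h1 : bd (mv D) (seq skipPR (seq (rows z) (seq skipPR1
    (seq (zeroPR1 z) (seq (zeroPR z) (zeroPR z))))) : LP MF α) ≤ 15000 * X := by
    simp only [bd] at a13 b4 b6 c4 c6 ⊢
    omega
  have h2 : bd (mv D) (loop .rK (seq skipPR (seq (rows z) (seq skipPR1
    (seq (zeroPR1 z) (seq (zeroPR z) (zeroPR z)))))) : LP MF α) ≤ (15000 + 4) * (D.K * X) :=
    bd_loop_le hX1 hK h1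
  have hLX : D.L ≤ D.K * X := by
    calc D.L ≤ D.L * (D.K * (D.P * (D.G * D.P))) := Nat.le_mul_of_pos_right _
          (Nat.mul_pos hK (Nat.mul_pos hP (Nat.mul_pos hG hP)))
      _ = _ := by rw [hX]; ring
  unfold prog
  rw [bd]
  omega

/-- The `Run` statement of the middle pass. -/
theorem run {M F α : Type} [DecidableEq F] [DecidableEq α] {d : α} (D : Dim) (hs : D.s ≤ D.h)
    (hG : 0 < D.G) (hK : 0 < D.K) {ι : MF → F} (hι : Function.Injective ι) (one mk : α)
    (hmk : one ≠ mk) (bit : Bool → α) (mem : M) (z : F → Zip α) (w : List Bool)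
    (hin : z (ι .inp) = ⟨[], w.map bit⟩) (hout : z (ι .out) = ⟨[], []⟩)
    (hr : ∀ r ∈ rul, z (ι r) = ⟨[], List.replicate (mv D r) one⟩)
    (hl : (1 + D.K * D.S1) * D.W ≤ w.length) :
    Prog.Run d ((passP .inp .out one mk (bit false) (prog (bit false))).map (Lens.idL M) ι)
      ⟨mem, z⟩ (20000 * (D.K * (D.P * (D.G * (D.P * D.L)))) + 2)
      ⟨mem, update z (ι .out) ⟨[], (midBits D w).map bit⟩⟩ := by
  have hL : 1 ≤ D.L := by unfold Dim.L; exact Nat.one_le_two_pow
  have hP : 1 ≤ D.P := P_pos D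
  have hτ := tau_P D hs
  have hrun := run_pass (M := M) (d := d) (prog (bit false)) (wf_prog (bit false)) MF.inp MF.out
    (by decide) (fun h => by have := uses_prog _ h; revert this; decide)
    (fun h => by have := uses_prog _ h; revert this; decide) one mk (bit false) hmk mem
    (fun f => z (ι f)) (w.map bit) (mv D) hin hout
    (by
      intro r hr'
      refine ⟨_, hr r (uses_prog _ hr'), by simp, fun _ => rfl⟩)
    (by
      intro r hr'
      have := uses_prog _ hr'
      simp only [rul, Finset.mem_insert, Finset.mem_singleton] at this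
      rcases this with rfl | rfl | rfl | rfl | rfl | rfl | rfl
      · exact hK
      · exact hP
      · exact hG
      · show 0 < 2 * D.P
        omega
      · show 0 < 2 * D.P
        omega
      · show 0 < D.tau
        rcases Nat.eq_zero_or_pos D.tau with h | h
        · rw [h] at hτ
          omega
        · exact h
      · show 0 < 64 * D.L
        omega)
    (v0 := fun _ => 0) (n := (1 + D.K * D.S1) * D.W) (out := (midBits D w).map bit)
    (fun _ _ => rfl) (by
      intro o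
      rw [eval_prog (by rw [hτ]; unfold Dim.W; omega) _ (fun _ => rfl) rfl
        (by rw [List.length_map]; exact hl), out_map]
      simp)
  exact Prog.Run.map_update hι (hrun.mono (Nat.add_le_add_right (cost D hs hG hK _) 2))
    (fun _ => rfl)

end Mid

end Vale.Agent.P338.R2.H898
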