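import Vale.Agent.P338.R2.H968.PadCall
import Vale.Agent.P338.R2.H525.Fp.Spec

/-!
Multiplication modulo `p` of words of width `W` by three calls of a machine that multiplies.
-/

namespace Vale.Agent.P338.R2.H898

open H968 (forR run_forR copyN run_copyN run_act run_act' seqL run_skip upd_self zipAt CFile
  CallEnv CallMem app_right_cons app_rew app_trunc)
open H968.CallEnv (mulP run_mulP mem0 callC)
open H525 (mulBits padTo zeros)
open H525.Fp (mmN)
open H778 (bits)
open Prog
open Function (update)

variable {M F α : Type} [DecidableEq F] {d : α}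

section basic

/-- Rewinding. -/
theorem run_rew {f : F} {l r : List α} {m : M} {z : F → Zip α} (h : z f = ⟨l, r⟩) :
    Run d (H968.act f .rew : Prog M F α) ⟨m, z⟩ 1 ⟨m, update z f ⟨[], l.reverse ++ r⟩⟩ :=
  run_act' (by rw [h]; rfl)

/-- Erasing. -/
theorem run_trunc {f : F} {r : List α} {m : M} {z : F → Zip α} (h : z f = ⟨[], r⟩) :
    Run d (H968.act f .trunc : Prog M F α) ⟨m, z⟩ 1 ⟨m, update z f Zip.nil⟩ :=
  run_act' (by rw [h]; rfl)

/-- Copy the file `f` to the empty file `g`; the ruler `r` has the same length. -/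
def cpF (e : α) (f g r : F) : Prog M F α :=
  seqL [copyN e f g r, H968.act f .rew, H968.act g .rew]

theorem run_cpF {e : α} {f g r : F} (hfg : f ≠ g) (hfr : f ≠ r) (hgr : g ≠ r)
    {x R : List α} {m : M} {z : F → Zip α} (hlen : x.length = R.length)
    (hf : z f = ⟨[], x⟩) (hg : z g = Zip.nil) (hr : z r = ⟨[], R⟩) :
    Run d (cpF e f g r) ⟨m, z⟩ (R.length * 5 + 5) ⟨m, update z g ⟨[], x⟩⟩ := by
  have h1 := run_copyN (d := d) (e := e) hfg hfr hgr (x := x) (u := []) (y := []) (v := [])
    (R := R) (m := m) (z := z) hlen (by rw [hf, List.append_nil]) (by rw [hg]; rfl) hr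
  have h2 := run_rew (d := d) (f := f) (l := x.reverse ++ []) (r := []) (m := m)
    (z := update (update z f ⟨x.reverse ++ [], []⟩) g ⟨x.reverse ++ [], []⟩)
    (by rw [Function.update_of_ne hfg, Function.update_self])
  have h3 := run_rew (d := d) (f := g) (l := x.reverse ++ []) (r := []) (m := m)
    (z := update (update (update z f ⟨x.reverse ++ [], []⟩) g ⟨x.reverse ++ [], []⟩) f
      ⟨[], (x.reverse ++ []).reverse ++ []⟩)
    (by rw [Function.update_of_ne hfg.symm, Function.update_self])
  have h4 := Run.seq h1 (Run.seq h2 (Run.seq h3 (run_skip _)))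
  have e1 : update (update (update (update z f ⟨x.reverse ++ [], []⟩) g ⟨x.reverse ++ [], []⟩) f
      ⟨[], (x.reverse ++ []).reverse ++ []⟩) g ⟨[], (x.reverse ++ []).reverse ++ []⟩ =
      update z g ⟨[], x⟩ := by
    simp only [List.append_nil, List.reverse_reverse]
    funext k
    by_cases h5 : k = g
    · subst h5
      simp
    · by_cases h6 : k = f
      · subst h6
        simp [h5, hf]
      · simp [h5, h6]
  rw [e1] at h4
  exact h4.mono (by omega)

/-- Skip as many symbols of `f` as the length of the ruler `r`. -/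
theorem run_skipR {f r : F} (hfr : f ≠ r) {a b R : List α} {m : M} {z : F → Zip α}
    (hlen : a.length = R.length) (hf : z f = ⟨[], a ++ b⟩) (hr : z r = ⟨[], R⟩) :
    Run d (forR r (H968.act f .right)) ⟨m, z⟩ (R.length * 3 + 2)
      ⟨m, update z f ⟨a.reverse, b⟩⟩ := by
  have h1 := run_forR (d := d) (r := r) (p := H968.act f .right) (R := R) (m := m)
    (fun i => update z f ⟨(a.take i).reverse, a.drop i ++ b⟩) 1
    (fun i => by rw [Function.update_of_ne hfr.symm, hr])
    (fun i hi => by
      rw [← hlen] at hi
      have e1 : (a.take (i + 1)).reverse = a[i] :: (a.take i).reverse := by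
        rw [List.take_succ_eq_append_getElem hi, List.reverse_append]
        rfl
      have h2 := run_act' (d := d) (f := f) (o := .right)
        (v := ⟨(a.take (i + 1)).reverse, a.drop (i + 1) ++ b⟩) (m := m)
        (z := update (update z f ⟨(a.take i).reverse, a.drop i ++ b⟩) r (zipAt R i))
        (by
          rw [Function.update_of_ne hfr, Function.update_self, List.drop_eq_getElem_cons hi, e1]
          rfl)
      rw [Function.update_comm hfr.symm, Function.update_idem] at h2
      exact h2)
  simp only [List.take_zero, List.reverse_nil, List.drop_zero] at h1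
  rw [upd_self z f _ hf, ← hlen, List.take_length, List.drop_length, List.nil_append, hlen] at h1
  exact h1.mono (by omega)

/-- Move the second half of `f` to the empty file `g`, and erase `f`. -/
def lowF (e : α) (f g r : F) : Prog M F α :=
  seqL [forR r (H968.act f .right), copyN e f g r, H968.act g .rew, H968.act f .rew,
    H968.act f .trunc]

theorem run_lowF {e : α} {f g r : F} (hfg : f ≠ g) (hfr : f ≠ r) (hgr : g ≠ r)
    {a b R : List α} {m : M} {z : F → Zip α} (ha : a.length = R.length) (hb : b.length = R.length)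
    (hf : z f = ⟨[], a ++ b⟩) (hg : z g = Zip.nil) (hr : z r = ⟨[], R⟩) :
    Run d (lowF e f g r) ⟨m, z⟩ (R.length * 8 + 8)
      ⟨m, update (update z g ⟨[], b⟩) f Zip.nil⟩ := by
  have h1 := run_skipR (d := d) hfr (m := m) ha hf hr
  have h2 := run_copyN (d := d) (e := e) hfg hfr hgr (x := b) (u := a.reverse) (y := [])
    (v := []) (R := R) (m := m) (z := update z f ⟨a.reverse, b⟩) hb
    (by rw [Function.update_self, List.append_nil])
    (by rw [Function.update_of_ne hfg.symm, hg]; rfl)
    (by rw [Function.update_of_ne hfr.symm, hr])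
  rw [Function.update_idem] at h2
  set z2 := update (update z f ⟨b.reverse ++ a.reverse, []⟩) g ⟨b.reverse ++ [], []⟩ with hz2
  have h3 := run_rew (d := d) (f := g) (l := b.reverse ++ []) (r := []) (m := m) (z := z2)
    (by rw [hz2, Function.update_self])
  rw [hz2, Function.update_idem] at h3
  have h4 := run_rew (d := d) (f := f) (l := b.reverse ++ a.reverse) (r := []) (m := m)
    (z := update (update z f ⟨b.reverse ++ a.reverse, []⟩) g
      ⟨[], (b.reverse ++ []).reverse ++ []⟩)
    (by rw [Function.update_of_ne hfg, Function.update_self])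
  have h5 := run_trunc (d := d) (f := f) (r := (b.reverse ++ a.reverse).reverse ++ []) (m := m)
    (z := update (update (update z f ⟨b.reverse ++ a.reverse, []⟩) g
      ⟨[], (b.reverse ++ []).reverse ++ []⟩) f ⟨[], (b.reverse ++ a.reverse).reverse ++ []⟩)
    (by rw [Function.update_self])
  have h6 := Run.seq h1 (Run.seq h2 (Run.seq h3 (Run.seq h4 (Run.seq h5 (run_skip _)))))
  have e1 : update (update (update (update z f ⟨b.reverse ++ a.reverse, []⟩) g
      ⟨[], (b.reverse ++ []).reverse ++ []⟩) f ⟨[], (b.reverse ++ a.reverse).reverse ++ []⟩) f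
      Zip.nil = update (update z g ⟨[], b⟩) f Zip.nil := by
    simp only [List.append_nil, List.reverse_reverse]
    funext k
    by_cases hk1 : k = f
    · subst hk1
      simp
    · by_cases hk2 : k = g
      · subst hk2
        simp [hk1]
      · simp [hk1, hk2]
  rw [e1] at h6
  exact h6.mono (by omega)

/-- Replace `g` by the first half of `f`, and erase `f`. -/
def highF (e : α) (f g r : F) : Prog M F α :=
  seqL [H968.act g .trunc, copyN e f g r, H968.act g .rew, H968.act f .rew,
    H968.act f .trunc]

theorem run_highF {e : α} {f g r : F} (hfg : f ≠ g) (hfr : f ≠ r) (hgr : g ≠ r)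
    {a b c R : List α} {m : M} {z : F → Zip α} (ha : a.length = R.length)
    (hf : z f = ⟨[], a ++ b⟩) (hg : z g = ⟨[], c⟩) (hr : z r = ⟨[], R⟩) :
    Run d (highF e f g r) ⟨m, z⟩ (R.length * 5 + 7)
      ⟨m, update (update z g ⟨[], a⟩) f Zip.nil⟩ := by
  have h1 := run_trunc (d := d) (m := m) hg
  have h2 := run_copyN (d := d) (e := e) hfg hfr hgr (x := a) (u := []) (y := b)
    (v := []) (R := R) (m := m) (z := update z g Zip.nil) ha
    (by rw [Function.update_of_ne hfg, hf])
    (by rw [Function.update_self]; rfl)
    (by rw [Function.update_of_ne hgr.symm, hr])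
  set z2 := update (update (update z g Zip.nil) f ⟨a.reverse ++ [], b⟩) g
    ⟨a.reverse ++ [], []⟩ with hz2
  have h3 := run_rew (d := d) (f := g) (l := a.reverse ++ []) (r := []) (m := m) (z := z2)
    (by rw [hz2, Function.update_self])
  rw [hz2, Function.update_idem] at h3
  set z3 := update (update (update z g Zip.nil) f ⟨a.reverse ++ [], b⟩) g
    ⟨[], (a.reverse ++ []).reverse ++ []⟩ with hz3
  have h4 := run_rew (d := d) (f := f) (l := a.reverse ++ []) (r := b) (m := m) (z := z3)
    (by rw [hz3, Function.update_of_ne hfg, Function.update_self])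
  have h5 := run_trunc (d := d) (f := f) (r := (a.reverse ++ []).reverse ++ b) (m := m)
    (z := update z3 f ⟨[], (a.reverse ++ []).reverse ++ b⟩)
    (by rw [Function.update_self])
  have h6 := Run.seq h1 (Run.seq h2 (Run.seq h3 (Run.seq h4 (Run.seq h5 (run_skip _)))))
  have e1 : update (update z3 f ⟨[], (a.reverse ++ []).reverse ++ b⟩) f Zip.nil =
      update (update z g ⟨[], a⟩) f Zip.nil := by
    rw [hz3]
    simp only [List.append_nil, List.reverse_reverse]
    funext k
    by_cases hk1 : k = f
    · subst hk1
      simp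
    · by_cases hk2 : k = g
      · subst hk2
        simp [hk1]
      · simp [hk1, hk2]
  rw [e1] at h6
  exact h6.mono (by omega)

end basic

section mul

variable {A : MTM} (E : CallEnv A M F α d)

theorem mulBits_bits (W a b : ℕ) (ha : a < 2 ^ W) (hb : b < 2 ^ W) :
    mulBits W (bits W a) (bits W b) = bits W (a * b / 2 ^ W) ++ bits W (a * b) := by
  have h1 : ∀ a, padTo W (bits W a) = bits W a := by
    intro a
    simp [padTo, zeros]
  unfold mulBits
  rw [h1, h1, H778.val_bits_of_lt ha, H778.val_bits_of_lt hb, Nat.two_mul, H778.bits_add]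

/-- Product of the operands, on the file `res`. -/
noncomputable def prodP (nr : F) : Prog M F α :=
  seqL [mulP E nr, H968.act (E.file (.inr .clk)) .rew, H968.act (E.file (.inr .clk)) .trunc]

/-- The conditions on the files of a call: everything is empty. -/
structure Quiet (z : F → Zip α) : Prop where
  tp : ∀ i, z (E.file (.inl i)) = Zip.nil
  cf : ∀ j, z (E.file (.inr j)) = Zip.nil

variable {E}

theorem run_prodP (hA : Multiplies A) {nr : F} (hnr : ∀ i, E.file i ≠ nr) {NR : List α}
    (hN : 1 ≤ NR.length) {a b : ℕ} (ha : a < 2 ^ NR.length) (hb : b < 2 ^ NR.length) (m : M)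
    (hm : E.put (mem0 A) m = m) (z : F → Zip α) (hz : Quiet E z) (hNR : z nr = ⟨[], NR⟩) :
    Run d (prodP E nr) ⟨m, update (update z (E.file (.inr .opX))
        ⟨[], (bits NR.length a).map E.bit⟩) (E.file (.inr .opY))
        ⟨[], (bits NR.length b).map E.bit⟩⟩
      ((callC A + 34) * (mulTime A NR.length + NR.length))
      ⟨m, update z (E.file (.inr .res))
        ⟨[], (bits NR.length (a * b / 2 ^ NR.length) ++ bits NR.length (a * b)).map E.bit⟩⟩ := by
  have hinj : ∀ {i j : A.Tape ⊕ CFile}, i ≠ j → E.file i ≠ E.file j := fun h h' =>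
    h (E.file_inj h')
  have n1 : E.file (.inr .opX) ≠ E.file (.inr .opY) := hinj (by simp)
  have n2 : E.file (.inr .opX) ≠ E.file (.inr .res) := hinj (by simp)
  have n3 : E.file (.inr .opX) ≠ E.file (.inr .clk) := hinj (by simp)
  have n4 : E.file (.inr .opY) ≠ E.file (.inr .res) := hinj (by simp)
  have n5 : E.file (.inr .opY) ≠ E.file (.inr .clk) := hinj (by simp)
  have n6 : E.file (.inr .res) ≠ E.file (.inr .clk) := hinj (by simp)
  obtain ⟨T, hT, h1⟩ := run_mulP (d := d) E hA hnr hN (x := bits NR.length a)
    (y := bits NR.length b) (by simp) (by simp) (u := []) m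
    (update (update z (E.file (.inr .opX))
        ⟨[], (bits NR.length a).map E.bit⟩) (E.file (.inr .opY))
        ⟨[], (bits NR.length b).map E.bit⟩)
    (fun i => by
      rw [Function.update_of_ne (hinj (by simp)), Function.update_of_ne (hinj (by simp)), hz.tp])
    (by rw [Function.update_of_ne n1, Function.update_self])
    (by rw [Function.update_self])
    (by
      rw [Function.update_of_ne n5.symm, Function.update_of_ne n3.symm, hz.cf]
      rfl)
    (by
      rw [Function.update_of_ne n4.symm, Function.update_of_ne n2.symm, hz.cf])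
    (by rw [Function.update_of_ne (Ne.symm (hnr _)), Function.update_of_ne (Ne.symm (hnr _)),
      hNR])
  rw [hm, mulBits_bits _ _ _ ha hb] at h1
  set Y : Zip α := ⟨[], (bits NR.length (a * b / 2 ^ NR.length) ++
    bits NR.length (a * b)).map E.bit⟩ with hY
  have h2 : ∀ v : Zip α, update (update (update (update (update (update z (E.file (.inr .opX))
        ⟨[], (bits NR.length a).map E.bit⟩) (E.file (.inr .opY))
        ⟨[], (bits NR.length b).map E.bit⟩) (E.file (.inr .opX)) Zip.nil)
        (E.file (.inr .opY)) Zip.nil) (E.file (.inr .res)) Y) (E.file (.inr .clk)) v =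
        update (update z (E.file (.inr .res)) Y) (E.file (.inr .clk)) v := by
    intro v
    have q1 := hz.cf .opX
    have q2 := hz.cf .opY
    funext k
    by_cases k1 : k = E.file (.inr .clk)
    · subst k1
      rw [Function.update_self, Function.update_self]
    · rw [Function.update_of_ne k1, Function.update_of_ne k1]
      by_cases k2 : k = E.file (.inr .res)
      · subst k2
        rw [Function.update_self, Function.update_self]
      · rw [Function.update_of_ne k2, Function.update_of_ne k2]
        by_cases k3 : k = E.file (.inr .opY)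
        · subst k3
          rw [Function.update_self, q2]
        · rw [Function.update_of_ne k3]
          by_cases k4 : k = E.file (.inr .opX)
          · subst k4
            rw [Function.update_self, q1]
          · rw [Function.update_of_ne k4, Function.update_of_ne k3, Function.update_of_ne k4]
  rw [h2] at h1
  have h3 := run_rew (d := d) (f := E.file (.inr .clk)) (l := List.replicate T E.mark ++ [])
    (r := []) (m := m) (z := update (update z (E.file (.inr .res)) Y) (E.file (.inr .clk))
      ⟨List.replicate T E.mark ++ [], []⟩) (by rw [Function.update_self])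
  rw [Function.update_idem] at h3
  have h4 := run_trunc (d := d) (f := E.file (.inr .clk))
    (r := (List.replicate T E.mark ++ []).reverse ++ []) (m := m)
    (z := update (update z (E.file (.inr .res)) Y) (E.file (.inr .clk))
      ⟨[], (List.replicate T E.mark ++ []).reverse ++ []⟩) (by rw [Function.update_self])
  rw [Function.update_idem] at h4
  have h5 : update (update z (E.file (.inr .res)) Y) (E.file (.inr .clk)) Zip.nil =
      update z (E.file (.inr .res)) Y :=
    upd_self _ _ _ (by rw [Function.update_of_ne n6.symm, hz.cf])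
  rw [h5] at h4
  refine (Run.seq h1 (Run.seq h3 (Run.seq h4 (run_skip _)))).mono ?_
  have h6 : (callC A + 30) * (T + NR.length) ≤
      (callC A + 30) * (mulTime A NR.length + NR.length) :=
    Nat.mul_le_mul_left _ (by omega)
  have h7 : (callC A + 34) * (mulTime A NR.length + NR.length) =
      (callC A + 30) * (mulTime A NR.length + NR.length) +
        4 * (mulTime A NR.length + NR.length) := by ring
  omega

variable (E)

/-- Replace `opX` by the lower half of the product of `opX` and `f`. -/
noncomputable def lowStep (nr f : F) : Prog M F α :=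
  seqL [cpF (E.bit false) f (E.file (.inr .opY)) nr, prodP E nr,
    lowF (E.bit false) (E.file (.inr .res)) (E.file (.inr .opX)) nr]

/-- Replace `g` by the upper half of the product of `opX` and `f`. -/
noncomputable def highStep (nr f g : F) : Prog M F α :=
  seqL [cpF (E.bit false) f (E.file (.inr .opY)) nr, prodP E nr,
    highF (E.bit false) (E.file (.inr .res)) g nr]

/-- Modular multiplication: `x` times `y`, result on `g`; the files `fp`, `fmu` contain `p` and
`μ`. -/
noncomputable def mmP (nr fp fmu x y g : F) : Prog M F α :=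
  seqL [cpF (E.bit false) x (E.file (.inr .opX)) nr, lowStep E nr y, lowStep E nr fmu,
    highStep E nr fp g]

variable {E}

theorem run_lowStep (hA : Multiplies A) {nr f : F} (hnr : ∀ i, E.file i ≠ nr)
    (hf : ∀ i, E.file i ≠ f) (hfn : f ≠ nr) {NR : List α}
    (hN : 1 ≤ NR.length) {a b : ℕ} (ha : a < 2 ^ NR.length) (hb : b < 2 ^ NR.length) (m : M)
    (hm : E.put (mem0 A) m = m) (z : F → Zip α) (hz : Quiet E z) (hNR : z nr = ⟨[], NR⟩)
    (hzf : z f = ⟨[], (bits NR.length b).map E.bit⟩) :
    Run d (lowStep E nr f) ⟨m, update z (E.file (.inr .opX))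
        ⟨[], (bits NR.length a).map E.bit⟩⟩
      ((callC A + 64) * (mulTime A NR.length + NR.length))
      ⟨m, update z (E.file (.inr .opX)) ⟨[], (bits NR.length (a * b)).map E.bit⟩⟩ := by
  have hinj : ∀ {i j : A.Tape ⊕ CFile}, i ≠ j → E.file i ≠ E.file j := fun h h' =>
    h (E.file_inj h')
  have n1 : E.file (.inr .opX) ≠ E.file (.inr .opY) := hinj (by simp)
  have n2 : E.file (.inr .opX) ≠ E.file (.inr .res) := hinj (by simp)
  have h1 := run_cpF (d := d) (e := E.bit false) (f := f) (g := E.file (.inr .opY)) (r := nr)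
    (Ne.symm (hf _)) hfn (hnr _) (x := (bits NR.length b).map E.bit) (R := NR) (m := m)
    (z := update z (E.file (.inr .opX)) ⟨[], (bits NR.length a).map E.bit⟩) (by simp)
    (by rw [Function.update_of_ne (Ne.symm (hf _)), hzf])
    (by rw [Function.update_of_ne n1.symm, hz.cf])
    (by rw [Function.update_of_ne (Ne.symm (hnr _)), hNR])
  have h2 := run_prodP (d := d) hA hnr hN ha hb m hm z hz hNR
  have h3 := run_lowF (d := d) (e := E.bit false) (f := E.file (.inr .res))
    (g := E.file (.inr .opX)) (r := nr) n2.symm (hnr _) (hnr _)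
    (a := (bits NR.length (a * b / 2 ^ NR.length)).map E.bit)
    (b := (bits NR.length (a * b)).map E.bit) (R := NR) (m := m)
    (z := update z (E.file (.inr .res))
        ⟨[], (bits NR.length (a * b / 2 ^ NR.length) ++ bits NR.length (a * b)).map E.bit⟩)
    (by simp) (by simp) (by rw [Function.update_self, List.map_append])
    (by rw [Function.update_of_ne n2, hz.cf])
    (by rw [Function.update_of_ne (Ne.symm (hnr _)), hNR])
  have e1 : update (update (update z (E.file (.inr .res))
        ⟨[], (bits NR.length (a * b / 2 ^ NR.length) ++ bits NR.length (a * b)).map E.bit⟩)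
        (E.file (.inr .opX)) ⟨[], (bits NR.length (a * b)).map E.bit⟩)
        (E.file (.inr .res)) Zip.nil =
        update z (E.file (.inr .opX)) ⟨[], (bits NR.length (a * b)).map E.bit⟩ := by
    rw [Function.update_comm n2, Function.update_idem]
    rw [upd_self z _ _ (hz.cf _)]
  rw [e1] at h3
  refine (Run.seq h1 (Run.seq h2 (Run.seq h3 (run_skip _)))).mono ?_
  have h7 : (callC A + 64) * (mulTime A NR.length + NR.length) =
      (callC A + 34) * (mulTime A NR.length + NR.length) +
        30 * (mulTime A NR.length + NR.length) := by ring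
  omega

theorem run_highStep (hA : Multiplies A) {nr f g : F} (hnr : ∀ i, E.file i ≠ nr)
    (hf : ∀ i, E.file i ≠ f) (hfn : f ≠ nr) (hg : ∀ i, E.file i ≠ g) (hgn : g ≠ nr)
    {NR : List α}
    (hN : 1 ≤ NR.length) {a b : ℕ} (ha : a < 2 ^ NR.length) (hb : b < 2 ^ NR.length) (m : M)
    (hm : E.put (mem0 A) m = m) (z : F → Zip α) (hz : Quiet E z) (hNR : z nr = ⟨[], NR⟩)
    (hzf : z f = ⟨[], (bits NR.length b).map E.bit⟩) {c : List α} (hzg : z g = ⟨[], c⟩) :
    Run d (highStep E nr f g) ⟨m, update z (E.file (.inr .opX))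
        ⟨[], (bits NR.length a).map E.bit⟩⟩
      ((callC A + 64) * (mulTime A NR.length + NR.length))
      ⟨m, update z g ⟨[], (bits NR.length (a * b / 2 ^ NR.length)).map E.bit⟩⟩ := by
  have hinj : ∀ {i j : A.Tape ⊕ CFile}, i ≠ j → E.file i ≠ E.file j := fun h h' =>
    h (E.file_inj h')
  have n1 : E.file (.inr .opX) ≠ E.file (.inr .opY) := hinj (by simp)
  have n2 : E.file (.inr .opX) ≠ E.file (.inr .res) := hinj (by simp)
  have h1 := run_cpF (d := d) (e := E.bit false) (f := f) (g := E.file (.inr .opY)) (r := nr)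
    (Ne.symm (hf _)) hfn (hnr _) (x := (bits NR.length b).map E.bit) (R := NR) (m := m)
    (z := update z (E.file (.inr .opX)) ⟨[], (bits NR.length a).map E.bit⟩) (by simp)
    (by rw [Function.update_of_ne (Ne.symm (hf _)), hzf])
    (by rw [Function.update_of_ne n1.symm, hz.cf])
    (by rw [Function.update_of_ne (Ne.symm (hnr _)), hNR])
  have h2 := run_prodP (d := d) hA hnr hN ha hb m hm z hz hNR
  have h3 := run_highF (d := d) (e := E.bit false) (f := E.file (.inr .res))
    (g := g) (r := nr) (hg _) (hnr _) hgn
    (a := (bits NR.length (a * b / 2 ^ NR.length)).map E.bit)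
    (b := (bits NR.length (a * b)).map E.bit) (c := c) (R := NR) (m := m)
    (z := update z (E.file (.inr .res))
        ⟨[], (bits NR.length (a * b / 2 ^ NR.length) ++ bits NR.length (a * b)).map E.bit⟩)
    (by simp) (by rw [Function.update_self, List.map_append])
    (by rw [Function.update_of_ne (Ne.symm (hg _)), hzg])
    (by rw [Function.update_of_ne (Ne.symm (hnr _)), hNR])
  have e1 : update (update (update z (E.file (.inr .res))
        ⟨[], (bits NR.length (a * b / 2 ^ NR.length) ++ bits NR.length (a * b)).map E.bit⟩)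
        g ⟨[], (bits NR.length (a * b / 2 ^ NR.length)).map E.bit⟩)
        (E.file (.inr .res)) Zip.nil =
        update z g ⟨[], (bits NR.length (a * b / 2 ^ NR.length)).map E.bit⟩ := by
    rw [Function.update_comm (Ne.symm (hg _)), Function.update_idem]
    rw [upd_self z _ _ (hz.cf _)]
  rw [e1] at h3
  refine (Run.seq h1 (Run.seq h2 (Run.seq h3 (run_skip _)))).mono ?_
  have h7 : (callC A + 64) * (mulTime A NR.length + NR.length) =
      (callC A + 34) * (mulTime A NR.length + NR.length) +
        30 * (mulTime A NR.length + NR.length) := by ring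
  omega

/-- **Modular multiplication.** -/
theorem run_mmP (hA : Multiplies A) {nr fp fmu x y g : F} (hnr : ∀ i, E.file i ≠ nr)
    (hp : ∀ i, E.file i ≠ fp) (hpn : fp ≠ nr) (hmu : ∀ i, E.file i ≠ fmu) (hmun : fmu ≠ nr)
    (hx : ∀ i, E.file i ≠ x) (hxn : x ≠ nr) (hy : ∀ i, E.file i ≠ y) (hyn : y ≠ nr)
    (hg : ∀ i, E.file i ≠ g) (hgn : g ≠ nr) {NR : List α} {W : ℕ} (hW : NR.length = W)
    (hN : 1 ≤ W) {a b p μ : ℕ} (ha : a < 2 ^ W) (hb : b < 2 ^ W) (hpl : p < 2 ^ W)
    (hμl : μ < 2 ^ W) (m : M)
    (hm : E.put (mem0 A) m = m) (z : F → Zip α) (hz : Quiet E z) (hNR : z nr = ⟨[], NR⟩)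
    (hzx : z x = ⟨[], (bits W a).map E.bit⟩) (hzy : z y = ⟨[], (bits W b).map E.bit⟩)
    (hzp : z fp = ⟨[], (bits W p).map E.bit⟩) (hzmu : z fmu = ⟨[], (bits W μ).map E.bit⟩)
    {c : List α} (hzg : z g = ⟨[], c⟩) :
    Run d (mmP E nr fp fmu x y g) ⟨m, z⟩
      ((3 * callC A + 210) * (mulTime A W + W))
      ⟨m, update z g ⟨[], (bits W (mmN W p μ a b)).map E.bit⟩⟩ := by
  subst hW
  have h1 := run_cpF (d := d) (e := E.bit false) (f := x) (g := E.file (.inr .opX)) (r := nr)
    (Ne.symm (hx _)) hxn (hnr _) (x := (bits NR.length a).map E.bit) (R := NR) (m := m)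
    (z := z) (by simp) hzx (hz.cf _) hNR
  have h2 := run_lowStep (d := d) hA hnr hy hyn hN ha hb m hm z hz hNR hzy
  have e1 : bits NR.length (a * b) = bits NR.length (a * b % 2 ^ NR.length) :=
    (H778.bits_mod _ _).symm
  rw [e1] at h2
  have h3 := run_lowStep (d := d) hA hnr hmu hmun hN
    (Nat.mod_lt (a * b) (show 0 < 2 ^ NR.length by positivity)) hμl m hm z hz hNR hzmu
  have e2 : bits NR.length (a * b % 2 ^ NR.length * μ) =
      bits NR.length (μ * (a * b % 2 ^ NR.length) % 2 ^ NR.length) := by
    rw [H778.bits_mod, Nat.mul_comm]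
  rw [e2] at h3
  have h4 := run_highStep (d := d) hA hnr hp hpn hg hgn hN
    (Nat.mod_lt (μ * (a * b % 2 ^ NR.length)) (show 0 < 2 ^ NR.length by positivity)) hpl m hm z
    hz hNR hzp hzg
  have e3 : μ * (a * b % 2 ^ NR.length) % 2 ^ NR.length * p / 2 ^ NR.length =
      mmN NR.length p μ a b := by
    unfold mmN
    rw [Nat.mul_comm p]
  rw [e3] at h4
  refine (Run.seq h1 (Run.seq h2 (Run.seq h3 (Run.seq h4 (run_skip _))))).mono ?_
  have h7 : (3 * callC A + 210) * (mulTime A NR.length + NR.length) =
      3 * ((callC A + 64) * (mulTime A NR.length + NR.length)) +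
        18 * (mulTime A NR.length + NR.length) := by ring
  omega

end mul

end Vale.Agent.P338.R2.H898
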