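import Vale.Agent.P338.R2.H898.XWord
import Vale.Agent.P338.R2.H898.ModMul
import Vale.Agent.P338.R2.H898.MidRun

/-!
Implementation of the instructions on word registers, and the `Run` statement of a pass.
-/

namespace Vale.Agent.P338.R2.H898

open H968 (forR run_forR copyN run_copyN run_act run_act' seqL run_skip upd_self zipAt CFile
  CallEnv CallMem)
open H968.CallEnv (mem0 callC)
open H806 (atp right_atp rew_atp atp_peek atp_peek_isSome atp_succ_of_le)
open H806.LP (skipP)
open H525.Fp (mmN)
open H778 (bits)
open Prog
open Function (update)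

/-- The files of a pass with word registers. -/
inductive WF (R V T : Type)
  | inp
  | out
  | rul (r : R)
  | reg (i : V)
  | wid
  | wp
  | wmu
  | wl
  | call (c : T ⊕ CFile)

noncomputable instance {R V T : Type} : DecidableEq (WF R V T) := Classical.decEq _

/-- Is this file part of the extra state? -/
def WF.isX {R V T : Type} : WF R V T → Prop
  | .inp => False
  | .out => False
  | .rul _ => False
  | .reg _ => True
  | .wid => True
  | .wp => True
  | .wmu => True
  | .wl => True
  | .call _ => True

instance {R V T : Type} [Finite R] [Finite V] [Finite T] : Finite (WF R V T) := by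
  let f : WF R V T → Option (Option (R ⊕ V ⊕ (T ⊕ CFile) ⊕ Fin 4)) := fun
    | .inp => none
    | .out => some none
    | .rul r => some (some (.inl r))
    | .reg i => some (some (.inr (.inl i)))
    | .call c => some (some (.inr (.inr (.inl c))))
    | .wid => some (some (.inr (.inr (.inr 0))))
    | .wp => some (some (.inr (.inr (.inr 1))))
    | .wmu => some (some (.inr (.inr (.inr 2))))
    | .wl => some (some (.inr (.inr (.inr 3))))
  have hC : Finite CFile := by
    let g : CFile → Fin 4 := fun
      | .opX => 0
      | .opY => 1
      | .clk => 2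
      | .res => 3
    refine Finite.of_injective g ?_
    intro a b h
    cases a <;> cases b <;> simp_all [g]
  refine Finite.of_injective f ?_
  intro a b h
  cases a <;> cases b <;> simp_all [f]

section

variable {R V T : Type} [Finite R] [Finite V] [Finite T]

/-- The files of the extra state. -/
noncomputable def wX (R V T : Type) [Finite R] [Finite V] [Finite T] : Finset (WF R V T) :=
  (Set.toFinite {f : WF R V T | f.isX}).toFinset

theorem mem_wX (f : WF R V T) : f ∈ wX R V T ↔ f.isX := by simp [wX]

end

section

variable {R V T α : Type}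

/-- The contents of a register. -/
def word (bit : Bool → α) (W n : ℕ) : Zip α := ⟨[], (bits W n).map bit⟩

/-- The files of the extra state, for the values `u` of the registers. -/
def wz (bit : Bool → α) (W p μ : ℕ) (NR LR : List α) (u : V → ℕ) : WF R V T → Zip α
  | .reg i => word bit W (u i)
  | .wid => ⟨[], NR⟩
  | .wp => word bit W p
  | .wmu => word bit W μ
  | .wl => ⟨[], LR⟩
  | .inp => Zip.nil
  | .out => Zip.nil
  | .rul _ => Zip.nil
  | .call _ => Zip.nil

end

section put

variable {R V T α : Type} [Finite R] [Finite V] [Finite T] [DecidableEq V]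
  {bit : Bool → α} {W p μ : ℕ} {NR LR w : List α} {q : ℕ} {o : List α} {u : V → ℕ}
  {g : WF R V T → Zip α}

/-- The store during a pass. -/
noncomputable def wst (bit : Bool → α) (W p μ : ℕ) (NR LR w : List α) (q : ℕ) (o : List α)
    (u : V → ℕ) (g : WF R V T → Zip α) : WF R V T → Zip α :=
  putX .inp .out w (wX R V T) (wz bit W p μ NR LR) q o u g

omit [DecidableEq V] in
theorem wst_inp : wst bit W p μ NR LR w q o u g .inp = atp w q := by simp [wst, putX]

omit [DecidableEq V] in
theorem wst_out : wst bit W p μ NR LR w q o u g .out = ⟨o.reverse, []⟩ := by simp [wst, putX]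

omit [DecidableEq V] in
theorem wst_reg (i : V) : wst bit W p μ NR LR w q o u g (.reg i) = word bit W (u i) := by
  simp [wst, putX, mem_wX, WF.isX, wz]

omit [DecidableEq V] in
theorem wst_wid : wst bit W p μ NR LR w q o u g .wid = ⟨[], NR⟩ := by
  simp [wst, putX, mem_wX, WF.isX, wz]

omit [DecidableEq V] in
theorem wst_wl : wst bit W p μ NR LR w q o u g .wl = ⟨[], LR⟩ := by
  simp [wst, putX, mem_wX, WF.isX, wz]

omit [DecidableEq V] in
theorem wst_wp : wst bit W p μ NR LR w q o u g .wp = word bit W p := by
  simp [wst, putX, mem_wX, WF.isX, wz]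

omit [DecidableEq V] in
theorem wst_wmu : wst bit W p μ NR LR w q o u g .wmu = word bit W μ := by
  simp [wst, putX, mem_wX, WF.isX, wz]

omit [DecidableEq V] in
theorem wst_call (c : T ⊕ CFile) : wst bit W p μ NR LR w q o u g (.call c) = Zip.nil := by
  simp [wst, putX, mem_wX, WF.isX, wz]

theorem update_wst_reg (i : V) (n : ℕ) : update (wst bit W p μ NR LR w q o u g) (.reg i)
    (word bit W n) = wst bit W p μ NR LR w q o (update u i n) g := by
  funext f
  by_cases h : f = .reg i
  · subst h
    rw [Function.update_self, wst_reg, Function.update_self]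
  · rw [Function.update_of_ne h]
    cases f with
    | reg j =>
      have h' : j ≠ i := fun h1 => h (by rw [h1])
      rw [wst_reg, wst_reg, Function.update_of_ne h']
    | inp => rw [wst_inp, wst_inp]
    | out => rw [wst_out, wst_out]
    | wid => rw [wst_wid, wst_wid]
    | wp => rw [wst_wp, wst_wp]
    | wmu => rw [wst_wmu, wst_wmu]
    | wl => rw [wst_wl, wst_wl]
    | call c => rw [wst_call, wst_call]
    | rul r => simp [wst, putX, mem_wX, WF.isX]

omit [DecidableEq V] in
theorem update_wst_inp (n : ℕ) : update (wst bit W p μ NR LR w q o u g) .inp (atp w n) =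
    wst bit W p μ NR LR w n o u g := by
  funext f
  by_cases h : f = .inp
  · subst h
    rw [Function.update_self, wst_inp]
  · rw [Function.update_of_ne h]
    simp [wst, putX, h]

omit [DecidableEq V] in
theorem update_wst_out (o' : List α) : update (wst bit W p μ NR LR w q o u g) .out
    ⟨o'.reverse, []⟩ = wst bit W p μ NR LR w q o' u g := by
  funext f
  by_cases h : f = .out
  · subst h
    rw [Function.update_self, wst_out]
  · rw [Function.update_of_ne h]
    simp [wst, putX, h]

end put

section instr

instance finiteTape (A : MTM) : Finite A.Tape := A.finTape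

variable {M R V α : Type} [Finite R] [Finite V] [DecidableEq V] {d : α} {A : MTM}

/-- Copy one symbol of the input to a register. -/
def rd1 {T : Type} (bit : Bool → α) (unbit : α → Bool) (i : V) : Prog M (WF R V T) α :=
  .seq (.prim fun m x => (m, some (.reg i, .write (bit (unbit ((x .inp).getD (bit false)))))))
    (.seq (H968.act (.reg i) .right) (skipP .inp))

/-- The programs of the instructions. -/
noncomputable def wprog (E : CallEnv A M (WF R V A.Tape) α d) (unbit : α → Bool) :
    WI V → Prog M (WF R V A.Tape) α
  | .rd i => seqL [H968.act (.reg i) .trunc, forR .wid (rd1 E.bit unbit i),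
      H968.act (.reg i) .rew]
  | .wr i => seqL [copyN (E.bit false) (.reg i) .out .wid, H968.act (.reg i) .rew]
  | .wrl i => seqL [forR .wid (H968.act (.reg i) .right), forR .wl (H968.act (.reg i) .left),
      copyN (E.bit false) (.reg i) .out .wl, H968.act (.reg i) .rew]
  | .mul i j k => mmP E .wid .wp .wmu (.reg j) (.reg k) (.reg i)
  | .cp i j => if i = j then H968.skip else
      seqL [H968.act (.reg i) .trunc, cpF (E.bit false) (.reg j) (.reg i) .wid]
  | .one i => seqL [H968.act (.reg i) .trunc,
      forR .wid (.seq (H968.act (.reg i) (.write (E.bit false))) (H968.act (.reg i) .right)),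
      H968.act (.reg i) .left, H968.act (.reg i) (.write (E.bit true)), H968.act (.reg i) .rew]

/-- Bound of the cost of an instruction. -/
noncomputable def wcost (A : MTM) (W : ℕ) : ℕ := (3 * callC A + 230) * (mulTime A W + W)

theorem le_wcost (A : MTM) (W : ℕ) (hW : 1 ≤ W) : 12 * W + 12 ≤ wcost A W := by
  unfold wcost
  have h1 : 230 * W ≤ (3 * callC A + 230) * (mulTime A W + W) :=
    Nat.mul_le_mul (by omega) (by omega)
  omega

theorem bits_one (W : ℕ) (hW : 1 ≤ W) : bits W 1 = List.replicate (W - 1) false ++ [true] := by
  obtain ⟨k, rfl⟩ : ∃ k, W = k + 1 := ⟨W - 1, by omega⟩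
  rw [bits]
  have h1 : (1 : ℕ) / 2 = 0 := rfl
  rw [h1, H778.bits_zero]
  rfl

/-- Writing a constant word. -/
theorem run_fill {F : Type} [DecidableEq F] {f r : F} (hfr : f ≠ r) (a : α) {Rl : List α} {m : M}
    {z : F → Zip α} (hf : z f = Zip.nil) (hr : z r = ⟨[], Rl⟩) :
    Run d (forR r (.seq (H968.act f (.write a)) (H968.act f .right))) ⟨m, z⟩
      (Rl.length * 4 + 2) ⟨m, update z f ⟨List.replicate Rl.length a, []⟩⟩ := by
  have h1 := run_forR (d := d) (r := r)
    (p := .seq (H968.act f (.write a)) (H968.act f .right)) (R := Rl) (m := m)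
    (fun i => update z f ⟨List.replicate i a, []⟩) 2
    (fun i => by rw [Function.update_of_ne hfr.symm, hr])
    (fun i hi => by
      have h2 := run_act' (d := d) (f := f) (o := .write a)
        (v := ⟨List.replicate i a, [a]⟩) (m := m)
        (z := update (update z f ⟨List.replicate i a, []⟩) r (zipAt Rl i))
        (by
          rw [Function.update_of_ne hfr, Function.update_self]
          rfl)
      have h3 := run_act' (d := d) (f := f) (o := .right)
        (v := ⟨List.replicate (i + 1) a, []⟩) (m := m)
        (z := update (update (update z f ⟨List.replicate i a, []⟩) r (zipAt Rl i)) f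
          ⟨List.replicate i a, [a]⟩)
        (by
          rw [Function.update_self]
          rfl)
      have e1 : update (update (update (update z f ⟨List.replicate i a, []⟩) r (zipAt Rl i)) f
          ⟨List.replicate i a, [a]⟩) f ⟨List.replicate (i + 1) a, []⟩ =
          update (update z f ⟨List.replicate (i + 1) a, []⟩) r (zipAt Rl i) := by
        rw [Function.update_idem, Function.update_comm hfr.symm, Function.update_idem]
      rw [e1] at h3
      exact Run.seq h2 h3)
  simp only [List.replicate_zero] at h1
  rw [upd_self z f _ (show z f = ⟨[], []⟩ from hf)] at h1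
  exact h1.mono (by omega)

/-- Moving to the end of a word. -/
theorem run_toEnd {F : Type} [DecidableEq F] {f r : F} (hfr : f ≠ r) {x Rl : List α} {m : M}
    {z : F → Zip α} (hl : x.length = Rl.length) (hf : z f = ⟨[], x⟩) (hr : z r = ⟨[], Rl⟩) :
    Run d (forR r (H968.act f .right)) ⟨m, z⟩ (Rl.length * 3 + 2)
      ⟨m, update z f ⟨x.reverse, []⟩⟩ :=
  run_skipR hfr (b := []) hl (by rw [hf, List.append_nil]) hr

theorem take_back (b : List α) (i : ℕ) (hi : i < b.length) : b.take (b.length - i) =
    b.take (b.length - (i + 1)) ++ [b[b.length - (i + 1)]'(by omega)] := by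
  have h1 : b.length - i = b.length - (i + 1) + 1 := by omega
  rw [h1, List.take_succ_eq_append_getElem (by omega)]

/-- Moving to the left. -/
theorem run_back {F : Type} [DecidableEq F] {f r : F} (hfr : f ≠ r) {a b Rl : List α} {m : M}
    {z : F → Zip α} (hl : b.length = Rl.length) (hf : z f = ⟨(a ++ b).reverse, []⟩)
    (hr : z r = ⟨[], Rl⟩) :
    Run d (forR r (H968.act f .left)) ⟨m, z⟩ (Rl.length * 3 + 2)
      ⟨m, update z f ⟨a.reverse, b⟩⟩ := by
  have h1 := run_forR (d := d) (r := r) (p := H968.act f .left) (R := Rl) (m := m)
    (fun i => update z f ⟨(a ++ b.take (b.length - i)).reverse, b.drop (b.length - i)⟩) 1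
    (fun i => by rw [Function.update_of_ne hfr.symm, hr])
    (fun i hi => by
      rw [← hl] at hi
      have h2 := run_act' (d := d) (f := f) (o := .left)
        (v := ⟨(a ++ b.take (b.length - (i + 1))).reverse, b.drop (b.length - (i + 1))⟩) (m := m)
        (z := update (update z f ⟨(a ++ b.take (b.length - i)).reverse,
          b.drop (b.length - i)⟩) r (zipAt Rl i))
        (by
          rw [Function.update_of_ne hfr, Function.update_self, take_back b i hi, ← List.append_assoc,
            List.reverse_append]
          have h3 : b.drop (b.length - (i + 1)) =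
              b[b.length - (i + 1)]'(by omega) :: b.drop (b.length - i) := by
            rw [List.drop_eq_getElem_cons (by omega)]
            congr 2
            omega
          rw [h3]
          rfl)
      rw [Function.update_comm hfr.symm, Function.update_idem] at h2
      exact h2)
  simp only [Nat.sub_zero, List.take_length, List.drop_length] at h1
  rw [upd_self z f _ hf, ← hl, Nat.sub_self, List.take_zero, List.append_nil, List.drop_zero,
    hl] at h1
  exact h1.mono (by omega)

variable {E : CallEnv A M (WF R V A.Tape) α d} {unbit : α → Bool}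
  {W L p μ : ℕ} {NR LR w : List α} {q : ℕ} {o : List α} {u : V → ℕ}
  {g : WF R V A.Tape → Zip α} {m : M}

theorem mmN_mod (W p μ a b : ℕ) : mmN W p μ (a % 2 ^ W) (b % 2 ^ W) = mmN W p μ a b := by
  unfold mmN
  rw [← Nat.mul_mod]

theorem word_mod (bit : Bool → α) (W n : ℕ) : word bit W (n % 2 ^ W) = word bit W n := by
  unfold word
  rw [H778.bits_mod]

theorem run_rd (hu : ∀ b, unbit (E.bit b) = b) (hNR : NR.length = W) (hW : 1 ≤ W) (i : V) :
    Run d (wprog E unbit (.rd i)) ⟨m, wst E.bit W p μ NR LR w q o u g⟩ (wcost A W)
      ⟨m, wst E.bit W p μ NR LR w (q + W) o (update u i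
        (H778.val ((List.range W).map fun t => unbit (w.getD (q + t) (E.bit false))))) g⟩ := by
  have hfr : (.reg i : WF R V A.Tape) ≠ .wid := by simp
  have hfi : (.reg i : WF R V A.Tape) ≠ .inp := by simp
  set z := wst E.bit W p μ NR LR w q o u g with hz
  set c : ℕ → α := fun t => E.bit (unbit (w.getD (q + t) (E.bit false))) with hc
  have h0 := run_trunc (d := d) (m := m) (z := z) (f := .reg i) (wst_reg i)
  -- the state after `t` symbols
  have hskip : ∀ (t : ℕ) (z' : WF R V A.Tape → Zip α), z' .inp = atp w (q + t) →
      Run d (skipP .inp : Prog M (WF R V A.Tape) α) ⟨m, z'⟩ 1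
        ⟨m, update z' .inp (atp w (q + (t + 1)))⟩ := by
    intro t z' hz'
    apply Run.prim'
    have h1 : (Store.reads ⟨m, z'⟩ .inp : Option α) = (atp w (q + t)).peek := by
      simp only [Store.reads]
      rw [hz']
    rw [h1, atp_peek_isSome]
    by_cases h : q + t < w.length
    · simp only [h, decide_true, if_true, appAct]
      rw [hz', right_atp d w _ h]
      rfl
    · simp only [h, decide_false, appAct]
      have h2 : atp w (q + (t + 1)) = atp w (q + t) := atp_succ_of_le w (q + t) (by omega)
      rw [h2]
      simp only [Bool.false_eq_true, if_false, Store.mk.injEq, true_and]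
      rw [← hz', Function.update_eq_self]
  have h1 := run_forR (d := d) (r := (.wid : WF R V A.Tape)) (p := rd1 E.bit unbit i) (R := NR)
    (m := m)
    (fun t => update (update z .inp (atp w (q + t))) (.reg i)
      ⟨((List.range t).map c).reverse, []⟩) 3
    (fun t => by
      rw [Function.update_of_ne hfr.symm, Function.update_of_ne (by simp), hz, wst_wid])
    (fun t ht => by
      have e1 : ((List.range (t + 1)).map c).reverse = c t :: ((List.range t).map c).reverse := by
        rw [List.range_succ, List.map_append, List.reverse_append]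
        rfl
      have k1 : Run d (.prim fun m x => (m, some (.reg i, .write (E.bit (unbit ((x .inp).getD
          (E.bit false)))))) : Prog M (WF R V A.Tape) α)
          ⟨m, update (update (update z .inp (atp w (q + t))) (.reg i)
            ⟨((List.range t).map c).reverse, []⟩) .wid (zipAt NR t)⟩ 1
          ⟨m, update (update (update (update z .inp (atp w (q + t))) (.reg i)
            ⟨((List.range t).map c).reverse, []⟩) .wid (zipAt NR t)) (.reg i)
            ⟨((List.range t).map c).reverse, [c t]⟩⟩ := by
        apply Run.prim'
        simp only [Store.reads, appAct]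
        congr 2
        rw [Function.update_of_ne (show (.inp : WF R V A.Tape) ≠ .wid by simp),
          Function.update_of_ne hfi.symm, Function.update_self,
          Function.update_of_ne hfr, Function.update_self, atp_peek]
        rfl
      have k2 := run_act' (d := d) (f := (.reg i : WF R V A.Tape)) (o := .right)
        (v := ⟨((List.range (t + 1)).map c).reverse, []⟩) (m := m)
        (z := update (update (update (update z .inp (atp w (q + t))) (.reg i)
            ⟨((List.range t).map c).reverse, []⟩) .wid (zipAt NR t)) (.reg i)
            ⟨((List.range t).map c).reverse, [c t]⟩)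
        (by
          rw [Function.update_self, e1]
          rfl)
      have k3 := hskip t (update (update (update (update (update z .inp (atp w (q + t))) (.reg i)
            ⟨((List.range t).map c).reverse, []⟩) .wid (zipAt NR t)) (.reg i)
            ⟨((List.range t).map c).reverse, [c t]⟩) (.reg i)
            ⟨((List.range (t + 1)).map c).reverse, []⟩)
        (by
          rw [Function.update_of_ne hfi.symm, Function.update_of_ne hfi.symm,
            Function.update_of_ne (show (.inp : WF R V A.Tape) ≠ .wid by simp),
            Function.update_of_ne hfi.symm, Function.update_self])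
      have k4 := Run.seq k1 (Run.seq k2 k3)
      have e2 : update (update (update (update (update (update z .inp (atp w (q + t))) (.reg i)
            ⟨((List.range t).map c).reverse, []⟩) .wid (zipAt NR t)) (.reg i)
            ⟨((List.range t).map c).reverse, [c t]⟩) (.reg i)
            ⟨((List.range (t + 1)).map c).reverse, []⟩) .inp (atp w (q + (t + 1))) =
          update (update (update z .inp (atp w (q + (t + 1)))) (.reg i)
            ⟨((List.range (t + 1)).map c).reverse, []⟩) .wid (zipAt NR t) := by
        funext f
        by_cases f1 : f = .inp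
        · subst f1
          simp
        · by_cases f2 : f = .reg i
          · subst f2
            simp
          · by_cases f3 : f = .wid
            · subst f3
              simp
            · simp [f1, f2, f3]
      rw [e2] at k4
      exact k4)
  rw [hNR] at h1
  have e3 : update (update z .inp (atp w (q + 0))) (.reg i)
      ⟨((List.range 0).map c).reverse, []⟩ = update z (.reg i) Zip.nil := by
    rw [hz, Nat.add_zero, update_wst_inp]
    rfl
  rw [e3] at h1
  have h2 := run_rew (d := d) (f := (.reg i : WF R V A.Tape))
    (l := ((List.range W).map c).reverse) (r := []) (m := m)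
    (z := update (update z .inp (atp w (q + W))) (.reg i) ⟨((List.range W).map c).reverse, []⟩)
    (by rw [Function.update_self])
  have e4 : (⟨[], ((List.range W).map c).reverse.reverse ++ []⟩ : Zip α) =
      word E.bit W (H778.val ((List.range W).map fun t => unbit (w.getD (q + t) (E.bit false)))) := by
    unfold word
    have h3 := H778.bits_val ((List.range W).map fun t => unbit (w.getD (q + t) (E.bit false)))
    rw [List.length_map, List.length_range] at h3
    rw [h3]
    simp [hc]
  rw [e4, Function.update_idem, hz, update_wst_inp, update_wst_reg] at h2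
  have e5 : update (update z .inp (atp w (q + W))) (.reg i)
      ⟨((List.range W).map c).reverse, []⟩ = update (wst E.bit W p μ NR LR w (q + W) o u g)
      (.reg i) ⟨((List.range W).map c).reverse, []⟩ := by
    rw [hz, update_wst_inp]
  rw [e5] at h1
  have h3 := Run.seq h0 (Run.seq h1 (Run.seq h2 (run_skip _)))
  have := le_wcost A W hW
  exact h3.mono (by omega)

theorem run_wr (hNR : NR.length = W) (hW : 1 ≤ W) (i : V) :
    Run d (wprog E unbit (.wr i)) ⟨m, wst E.bit W p μ NR LR w q o u g⟩ (wcost A W)
      ⟨m, wst E.bit W p μ NR LR w q (o ++ (bits W (u i)).map E.bit) u g⟩ := by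
  have hfo : (.reg i : WF R V A.Tape) ≠ .out := by simp
  set z := wst E.bit W p μ NR LR w q o u g with hz
  have h1 := run_copyN (d := d) (e := E.bit false) (f := (.reg i : WF R V A.Tape)) (g := .out)
    (r := .wid) hfo (by simp) (by simp) (x := (bits W (u i)).map E.bit) (u := []) (y := [])
    (v := o.reverse) (R := NR) (m := m) (z := z) (by simp [hNR])
    (by rw [hz, wst_reg, List.append_nil]; rfl) (by rw [hz, wst_out]) (by rw [hz, wst_wid])
  rw [List.append_nil] at h1
  have h2 := run_rew (d := d) (f := (.reg i : WF R V A.Tape))
    (l := ((bits W (u i)).map E.bit).reverse) (r := []) (m := m)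
    (z := update (update z (.reg i) ⟨((bits W (u i)).map E.bit).reverse, []⟩) .out
      ⟨((bits W (u i)).map E.bit).reverse ++ o.reverse, []⟩)
    (by rw [Function.update_of_ne hfo, Function.update_self])
  have e1 : update (update (update z (.reg i) ⟨((bits W (u i)).map E.bit).reverse, []⟩) .out
      ⟨((bits W (u i)).map E.bit).reverse ++ o.reverse, []⟩) (.reg i)
      ⟨[], ((bits W (u i)).map E.bit).reverse.reverse ++ []⟩ =
      wst E.bit W p μ NR LR w q (o ++ (bits W (u i)).map E.bit) u g := by
    rw [← List.reverse_append, Function.update_comm hfo, hz]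
    rw [Function.update_idem, List.reverse_reverse, List.append_nil]
    have h3 := update_wst_reg (bit := E.bit) (W := W) (p := p) (μ := μ) (NR := NR) (LR := LR)
      (w := w) (q := q) (o := o ++ (bits W (u i)).map E.bit) (u := u) (g := g) i (u i)
    rw [Function.update_eq_self] at h3
    have h4 : (⟨[], (bits W (u i)).map E.bit⟩ : Zip α) = word E.bit W (u i) := rfl
    rw [h4, update_wst_out, h3]
  rw [e1] at h2
  have h3 := Run.seq h1 (Run.seq h2 (run_skip _))
  have := le_wcost A W hW
  rw [hNR] at h3
  exact h3.mono (by omega)

theorem run_wrl (hNR : NR.length = W) (hLR : LR.length = L) (hL : L ≤ W) (hW : 1 ≤ W) (i : V) :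
    Run d (wprog E unbit (.wrl i)) ⟨m, wst E.bit W p μ NR LR w q o u g⟩ (wcost A W)
      ⟨m, wst E.bit W p μ NR LR w q (o ++ ((bits W (u i)).drop (W - L)).map E.bit) u g⟩ := by
  have hfo : (.reg i : WF R V A.Tape) ≠ .out := by simp
  have hfw : (.reg i : WF R V A.Tape) ≠ .wid := by simp
  have hfl : (.reg i : WF R V A.Tape) ≠ .wl := by simp
  set z := wst E.bit W p μ NR LR w q o u g with hz
  set a := ((bits W (u i)).take (W - L)).map E.bit with ha
  set b := ((bits W (u i)).drop (W - L)).map E.bit with hb
  have hab : (bits W (u i)).map E.bit = a ++ b := by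
    rw [ha, hb, ← List.map_append, List.take_append_drop]
  have hbl : b.length = L := by
    rw [hb, List.length_map, List.length_drop, H778.length_bits]
    omega
  have h1 := run_toEnd (d := d) (f := (.reg i : WF R V A.Tape)) (r := .wid) hfw
    (x := (bits W (u i)).map E.bit) (Rl := NR) (m := m) (z := z) (by simp [hNR])
    (by rw [hz, wst_reg]; rfl) (by rw [hz, wst_wid])
  have h2 := run_back (d := d) (f := (.reg i : WF R V A.Tape)) (r := .wl) hfl
    (a := a) (b := b) (Rl := LR) (m := m)
    (z := update z (.reg i) ⟨((bits W (u i)).map E.bit).reverse, []⟩) (by rw [hbl, hLR])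
    (by rw [Function.update_self, hab])
    (by rw [Function.update_of_ne hfl.symm, hz, wst_wl])
  rw [Function.update_idem] at h2
  have h3 := run_copyN (d := d) (e := E.bit false) (f := (.reg i : WF R V A.Tape)) (g := .out)
    (r := .wl) hfo hfl (by simp) (x := b) (u := a.reverse) (y := [])
    (v := o.reverse) (R := LR) (m := m) (z := update z (.reg i) ⟨a.reverse, b⟩)
    (by rw [hbl, hLR])
    (by rw [Function.update_self, List.append_nil])
    (by rw [Function.update_of_ne hfo.symm, hz, wst_out])
    (by rw [Function.update_of_ne hfl.symm, hz, wst_wl])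
  rw [Function.update_idem] at h3
  have h4 := run_rew (d := d) (f := (.reg i : WF R V A.Tape))
    (l := b.reverse ++ a.reverse) (r := []) (m := m)
    (z := update (update z (.reg i) ⟨b.reverse ++ a.reverse, []⟩) .out
      ⟨b.reverse ++ o.reverse, []⟩)
    (by rw [Function.update_of_ne hfo, Function.update_self])
  have e1 : update (update (update z (.reg i) ⟨b.reverse ++ a.reverse, []⟩) .out
      ⟨b.reverse ++ o.reverse, []⟩) (.reg i)
      ⟨[], (b.reverse ++ a.reverse).reverse ++ []⟩ =
      wst E.bit W p μ NR LR w q (o ++ b) u g := by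
    rw [← List.reverse_append, ← List.reverse_append, Function.update_comm hfo, hz]
    rw [Function.update_idem, List.reverse_reverse, List.append_nil, ← hab]
    have h3 := update_wst_reg (bit := E.bit) (W := W) (p := p) (μ := μ) (NR := NR) (LR := LR)
      (w := w) (q := q) (o := o ++ b) (u := u) (g := g) i (u i)
    rw [Function.update_eq_self] at h3
    have h4 : (⟨[], (bits W (u i)).map E.bit⟩ : Zip α) = word E.bit W (u i) := rfl
    rw [h4, update_wst_out, h3]
  rw [e1] at h4
  have h5 := Run.seq h1 (Run.seq h2 (Run.seq h3 (Run.seq h4 (run_skip _))))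
  have := le_wcost A W hW
  rw [hNR, hLR] at h5
  exact h5.mono (by omega)

theorem runX_mul (hA : Multiplies A) (hfile : ∀ c, E.file c = .call c)
    (hm : E.put (mem0 A) m = m) (hNR : NR.length = W) (hW : 1 ≤ W) (hp : p < 2 ^ W)
    (hμ : μ < 2 ^ W) (i j k : V) :
    Run d (wprog E unbit (.mul i j k)) ⟨m, wst E.bit W p μ NR LR w q o u g⟩ (wcost A W)
      ⟨m, wst E.bit W p μ NR LR w q o (update u i (mmN W p μ (u j) (u k))) g⟩ := by
  set z := wst E.bit W p μ NR LR w q o u g with hz
  have hq : Quiet E z := by
    constructor
    · intro t
      rw [hfile, hz, wst_call]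
    · intro t
      rw [hfile, hz, wst_call]
  have h1 := run_mmP (d := d) (E := E) hA (nr := .wid) (fp := .wp) (fmu := .wmu) (x := .reg j)
    (y := .reg k) (g := .reg i) (fun c => by rw [hfile]; simp) (fun c => by rw [hfile]; simp)
    (by simp) (fun c => by rw [hfile]; simp) (by simp) (fun c => by rw [hfile]; simp) (by simp)
    (fun c => by rw [hfile]; simp) (by simp) (fun c => by rw [hfile]; simp) (by simp) (NR := NR)
    hNR hW (a := u j % 2 ^ W) (b := u k % 2 ^ W) (Nat.mod_lt _ (by positivity))
    (Nat.mod_lt _ (by positivity)) hp hμ m hm z hq (by rw [hz, wst_wid])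
    (by rw [hz, wst_reg, H778.bits_mod]; rfl) (by rw [hz, wst_reg, H778.bits_mod]; rfl)
    (by rw [hz, wst_wp]; rfl) (by rw [hz, wst_wmu]; rfl) (c := (bits W (u i)).map E.bit)
    (by rw [hz, wst_reg]; rfl)
  rw [mmN_mod] at h1
  have h2 : (⟨[], (bits W (mmN W p μ (u j) (u k))).map E.bit⟩ : Zip α) =
      word E.bit W (mmN W p μ (u j) (u k)) := rfl
  rw [h2, hz, update_wst_reg] at h1
  refine h1.mono ?_
  unfold wcost
  exact Nat.mul_le_mul_right _ (by omega)

theorem runX_cp (hNR : NR.length = W) (hW : 1 ≤ W) (i j : V) :
    Run d (wprog E unbit (.cp i j)) ⟨m, wst E.bit W p μ NR LR w q o u g⟩ (wcost A W)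
      ⟨m, wst E.bit W p μ NR LR w q o (update u i (u j)) g⟩ := by
  have hc := le_wcost A W hW
  by_cases hij : i = j
  · subst hij
    simp only [wprog, if_true]
    rw [Function.update_eq_self]
    exact (run_skip _).mono (by omega)
  · simp only [wprog, hij, if_false]
    have hij' : (.reg i : WF R V A.Tape) ≠ .reg j := by simpa using hij
    set z := wst E.bit W p μ NR LR w q o u g with hz
    have h0 := run_trunc (d := d) (m := m) (z := z) (f := .reg i) (wst_reg i)
    have h1 := run_cpF (d := d) (e := E.bit false) (f := (.reg j : WF R V A.Tape))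
      (g := .reg i) (r := .wid) hij'.symm (by simp) (by simp) (x := (bits W (u j)).map E.bit)
      (R := NR) (m := m) (z := update z (.reg i) Zip.nil) (by simp [hNR])
      (by rw [Function.update_of_ne hij'.symm, hz, wst_reg]; rfl)
      (by rw [Function.update_self])
      (by rw [Function.update_of_ne (by simp), hz, wst_wid])
    have h2 : (⟨[], (bits W (u j)).map E.bit⟩ : Zip α) = word E.bit W (u j) := rfl
    rw [Function.update_idem, h2, hz, update_wst_reg] at h1
    have h3 := Run.seq h0 (Run.seq h1 (run_skip _))
    rw [hNR] at h3
    exact h3.mono (by omega)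

theorem run_one (hNR : NR.length = W) (hW : 1 ≤ W) (i : V) :
    Run d (wprog E unbit (.one i)) ⟨m, wst E.bit W p μ NR LR w q o u g⟩ (wcost A W)
      ⟨m, wst E.bit W p μ NR LR w q o (update u i 1) g⟩ := by
  have hc := le_wcost A W hW
  have hfw : (.reg i : WF R V A.Tape) ≠ .wid := by simp
  obtain ⟨k, hk⟩ : ∃ k, W = k + 1 := ⟨W - 1, by omega⟩
  set z := wst E.bit W p μ NR LR w q o u g with hz
  have h0 := run_trunc (d := d) (m := m) (z := z) (f := .reg i) (wst_reg i)
  have h1 := run_fill (d := d) (f := (.reg i : WF R V A.Tape)) (r := .wid) hfw (E.bit false)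
    (Rl := NR) (m := m) (z := update z (.reg i) Zip.nil) (by rw [Function.update_self])
    (by rw [Function.update_of_ne hfw.symm, hz, wst_wid])
  rw [Function.update_idem, hNR] at h1
  have h2 := run_act' (d := d) (f := (.reg i : WF R V A.Tape)) (o := .left)
    (v := ⟨List.replicate k (E.bit false), [E.bit false]⟩) (m := m)
    (z := update z (.reg i) ⟨List.replicate W (E.bit false), []⟩)
    (by
      rw [Function.update_self, hk]
      rfl)
  rw [Function.update_idem] at h2
  have h3 := run_act' (d := d) (f := (.reg i : WF R V A.Tape)) (o := .write (E.bit true))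
    (v := ⟨List.replicate k (E.bit false), [E.bit true]⟩) (m := m)
    (z := update z (.reg i) ⟨List.replicate k (E.bit false), [E.bit false]⟩)
    (by
      rw [Function.update_self]
      rfl)
  rw [Function.update_idem] at h3
  have h4 := run_rew (d := d) (f := (.reg i : WF R V A.Tape))
    (l := List.replicate k (E.bit false)) (r := [E.bit true]) (m := m)
    (z := update z (.reg i) ⟨List.replicate k (E.bit false), [E.bit true]⟩)
    (by rw [Function.update_self])
  have e1 : (⟨[], (List.replicate k (E.bit false)).reverse ++ [E.bit true]⟩ : Zip α) =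
      word E.bit W 1 := by
    unfold word
    rw [bits_one W hW, hk]
    simp
  rw [Function.update_idem, e1, hz, update_wst_reg] at h4
  have h5 := Run.seq h0 (Run.seq h1 (Run.seq h2 (Run.seq h3 (Run.seq h4 (run_skip _)))))
  exact h5.mono (by omega)

/-- The programs implement the instructions. -/
theorem impl_wprog (hA : Multiplies A) (hfile : ∀ c, E.file c = .call c)
    (hu : ∀ b, unbit (E.bit b) = b)
    (hm : E.put (mem0 A) m = m) (hNR : NR.length = W) (hLR : LR.length = L) (hL : L ≤ W)
    (hW : 1 ≤ W) (hp : p < 2 ^ W) (hμ : μ < 2 ^ W) :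
    XP.Impl d .inp .out w (E.bit false) (wX R V A.Tape) (wz E.bit W p μ NR LR) m
      ((wsem (V := V) W L p μ).sym E.bit unbit) (wprog E unbit) (fun _ => wcost A W) := by
  intro j g q o u
  have e0 : ∀ (o : List α), o ++ ([] : List Bool).map E.bit = o := by simp
  cases j with
  | rd i =>
    have := run_rd (E := E) (unbit := unbit) (p := p) (μ := μ) (LR := LR) (w := w) (q := q)
      (o := o) (u := u) (g := g) (m := m) hu hNR hW i
    simp only [XSem.sym, wsem, WI.adv, WI.out, WI.nxt, List.map_nil, List.append_nil]
    exact this
  | wr i =>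
    have := run_wr (E := E) (unbit := unbit) (p := p) (μ := μ) (LR := LR) (w := w) (q := q)
      (o := o) (u := u) (g := g) (m := m) hNR hW i
    simp only [XSem.sym, wsem, WI.adv, WI.out, WI.nxt, Nat.add_zero]
    exact this
  | wrl i =>
    have := run_wrl (E := E) (unbit := unbit) (p := p) (μ := μ) (LR := LR) (w := w) (q := q)
      (o := o) (u := u) (g := g) (m := m) hNR hLR hL hW i
    simp only [XSem.sym, wsem, WI.adv, WI.out, WI.nxt, Nat.add_zero]
    exact this
  | mul i j k =>
    have := runX_mul (E := E) (unbit := unbit) (p := p) (μ := μ) (LR := LR) (w := w) (q := q)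
      (o := o) (u := u) (g := g) (m := m) hA hfile hm hNR hW hp hμ i j k
    simp only [XSem.sym, wsem, WI.adv, WI.out, WI.nxt, List.map_nil, List.append_nil,
      Nat.add_zero]
    exact this
  | cp i j =>
    have := runX_cp (E := E) (unbit := unbit) (p := p) (μ := μ) (LR := LR) (w := w) (q := q)
      (o := o) (u := u) (g := g) (m := m) hNR hW i j
    simp only [XSem.sym, wsem, WI.adv, WI.out, WI.nxt, List.map_nil, List.append_nil,
      Nat.add_zero]
    exact this
  | one i =>
    have := run_one (E := E) (unbit := unbit) (p := p) (μ := μ) (LR := LR) (w := w) (q := q)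
      (o := o) (u := u) (g := g) (m := m) hNR hW i
    simp only [XSem.sym, wsem, WI.adv, WI.out, WI.nxt, List.map_nil, List.append_nil,
      Nat.add_zero]
    exact this

end instr

end Vale.Agent.P338.R2.H898
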