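import Vale.Agent.P338.R2.H898.Zip

/-!
Translation of programs on files to raw programs.
-/

namespace Vale.Agent.P338.R2.H898

/-- Physical symbols. -/
inductive PSym (α : Type)
  | blank
  | letter (a : Letter)
  | lend
  | eof
  | sym (a : α)

/-- Physical tapes. -/
inductive PTape (F : Type)
  | inp
  | out
  | file (f : F)

/-- Pending actions. -/
inductive Pend (F : Type)
  | none
  | eof (f : F) (back : Bool)
  | chk (f : F)
  | rewd (f : F)

instance : Finite Letter := by
  let f : Letter → Fin 3 := fun
    | .zero => 0
    | .one => 1
    | .hash => 2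
  refine Finite.of_injective f ?_
  intro a b h
  cases a <;> cases b <;> simp_all [f]

instance {α : Type} [Finite α] : Finite (PSym α) := by
  let f : PSym α → Option (Option (Option (Letter ⊕ α))) := fun
    | .blank => none
    | .lend => some none
    | .eof => some (some none)
    | .letter a => some (some (some (Sum.inl a)))
    | .sym a => some (some (some (Sum.inr a)))
  refine Finite.of_injective f ?_
  intro a b h
  cases a <;> cases b <;> simp_all [f]

instance {F : Type} [Finite F] : Finite (PTape F) := by
  let f : PTape F → Option (Option F) := fun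
    | .inp => none
    | .out => some none
    | .file f => some (some f)
  refine Finite.of_injective f ?_
  intro a b h
  cases a <;> cases b <;> simp_all [f]

instance {F : Type} [Finite F] : Finite (Pend F) := by
  let f : Pend F → Option ((F × Bool) ⊕ (F ⊕ F)) := fun
    | .none => none
    | .eof f b => some (Sum.inl (f, b))
    | .chk f => some (Sum.inr (Sum.inl f))
    | .rewd f => some (Sum.inr (Sum.inr f))
  refine Finite.of_injective f ?_
  intro a b h
  cases a <;> cases b <;> simp_all [f]

noncomputable instance {F : Type} : DecidableEq (PTape F) := Classical.decEq _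

/-- The file symbol of a physical symbol. -/
def PSym.dec {α : Type} : PSym α → Option α
  | .sym a => some a
  | _ => Option.none

/-- Is this the left end marker? -/
def PSym.isLend {α : Type} : PSym α → Bool
  | .lend => true
  | _ => false

namespace Comp

variable {M F α : Type} [DecidableEq F]

/-- The action concerning only the tape `k`. -/
noncomputable def on {M' S : Type} (m : M') (r : PTape F → S) (k : PTape F) (x : S × Move) :
    M' × (PTape F → S × Move) :=
  (m, fun i => if i = k then x else (r i, .stay))

omit [DecidableEq F] in
theorem appAct_on {M' S : Type} (s : RStore M' (PTape F) S) (m : M') (k : PTape F)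
    (x : S × Move) :
    RProg.appAct s (on m s.reads k x) = ⟨m, Function.update s.t k ((s.t k).app x)⟩ := by
  unfold RProg.appAct on
  simp only [RStore.mk.injEq, true_and]
  funext i
  by_cases h : i = k
  · subst h
    simp
  · simp only [h, if_false, Function.update_of_ne h]
    simp [RT.app, RT.read, Move.app, RStore.reads]

/-- First physical step of an operation. -/
noncomputable def act1 (d : α) (m : M) (r : PTape F → PSym α) :
    Option (F × Op α) → (M × Pend F) × (PTape F → PSym α × Move)
  | none => RProg.idle (m, .none) r
  | some (f, .right) =>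
      match r (.file f) with
      | .sym a => on (m, .none) r (.file f) (.sym a, .right)
      | _ => on (m, .eof f false) r (.file f) (.sym d, .right)
  | some (f, .left) => on (m, .chk f) r (.file f) (r (.file f), .left)
  | some (f, .write a) =>
      match r (.file f) with
      | .sym _ => on (m, .none) r (.file f) (.sym a, .stay)
      | _ => on (m, .eof f true) r (.file f) (.sym a, .right)
  | some (f, .trunc) => on (m, .none) r (.file f) (.eof, .stay)
  | some (f, .rew) => on (m, .rewd f) r (.file f) (r (.file f), .left)

/-- Last physical step of an operation. -/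
noncomputable def act2 (m : M) (r : PTape F → PSym α) :
    Pend F → (M × Pend F) × (PTape F → PSym α × Move)
  | .none => RProg.idle (m, .none) r
  | .eof f false => on (m, .none) r (.file f) (.eof, .stay)
  | .eof f true => on (m, .none) r (.file f) (.eof, .left)
  | .chk f => on (m, .none) r (.file f)
      (r (.file f), if (r (.file f)).isLend then .right else .stay)
  | .rewd f => on (m, .none) r (.file f) (r (.file f), .right)

/-- The condition of the rewinding loop. -/
def rewC (p : Pend F) (r : PTape F → PSym α) : Bool :=
  match p with
  | .rewd f => !(r (.file f)).isLend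
  | _ => false

/-- The step of the rewinding loop. -/
noncomputable def rewA (m : M) (p : Pend F) (r : PTape F → PSym α) :
    (M × Pend F) × (PTape F → PSym α × Move) :=
  match p with
  | .rewd f => on (m, p) r (.file f) (r (.file f), .left)
  | _ => RProg.idle (m, p) r

/-- The reads of the files. -/
def dec (r : PTape F → PSym α) : F → Option α := fun f => (r (.file f)).dec

/-- The translation. -/
noncomputable def tr (d : α) : Prog M F α → RProg (M × Pend F) (PTape F) (PSym α)
  | .prim g =>
      .seq (.prim fun m r => act1 d (g m.1 (dec r)).1 r (g m.1 (dec r)).2)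
        (.seq (.loop (fun m r => rewC m.2 r) (.prim fun m r => rewA m.1 m.2 r))
          (.prim fun m r => act2 m.1 r m.2))
  | .seq p q => .seq (tr d p) (tr d q)
  | .ite c p q => .ite (fun m r => c m.1 (dec r)) (tr d p) (tr d q)
  | .loop c p => .loop (fun m r => c m.1 (dec r)) (tr d p)

/-- The raw tape `t` represents the file `z`. -/
structure Rep (z : Zip α) (t : RT (PSym α)) : Prop where
  head : t.h = z.l.length + 1
  zero : t.c 0 = .lend
  sym : ∀ i a, z.full[i]? = some a → t.c (i + 1) = .sym a
  eof : t.c (z.full.length + 1) = .eof

theorem Rep.read_dec {z : Zip α} {t : RT (PSym α)} (h : Rep z t) : t.read.dec = z.peek := by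
  rcases z with ⟨l, r⟩
  cases r with
  | nil =>
    have h1 := h.eof
    have h2 := h.head
    simp only [Zip.full, List.append_nil, List.length_reverse] at h1 h2
    simp only [RT.read, h2, h1, Zip.peek, List.head?_nil, PSym.dec]
  | cons a r =>
    have h2 := h.head
    have h3 := h.sym l.length a (by simp [Zip.full])
    simp only [RT.read, h2, h3, Zip.peek, List.head?_cons, PSym.dec]

theorem Rep.read_nil {l : List α} {t : RT (PSym α)} (h : Rep ⟨l, []⟩ t) : t.read = .eof := by
  have h1 := h.eof
  have h2 := h.head
  simp only [Zip.full, List.append_nil, List.length_reverse] at h1 h2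
  simp only [RT.read, h2, h1]

theorem Rep.read_cons {l r : List α} {a : α} {t : RT (PSym α)} (h : Rep ⟨l, a :: r⟩ t) :
    t.read = .sym a := by
  have h2 := h.head
  have h3 := h.sym l.length a (by simp [Zip.full])
  simp only [RT.read, h2, h3]

/-- The effect of a completed operation on a raw tape, and its cost. -/
theorem rep_right_cons {l r : List α} {a : α} {t : RT (PSym α)} (h : Rep ⟨l, a :: r⟩ t) :
    Rep ⟨a :: l, r⟩ (t.app (.sym a, .right)) := by
  have hread := h.read_cons
  have hc : Function.update t.c t.h (PSym.sym a) = t.c := by
    rw [← hread]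
    exact Function.update_eq_self _ _
  have hfull : (⟨a :: l, r⟩ : Zip α).full = (⟨l, a :: r⟩ : Zip α).full := by simp [Zip.full]
  refine ⟨?_, ?_, ?_, ?_⟩
  · simp only [RT.app, Move.app, h.head, List.length_cons]
  · simp only [RT.app, hc, h.zero]
  · simp only [RT.app, hc, hfull]
    exact h.sym
  · simp only [RT.app, hc, hfull]
    exact h.eof

theorem rep_write_cons {l r : List α} {a b : α} {t : RT (PSym α)} (h : Rep ⟨l, a :: r⟩ t) :
    Rep ⟨l, b :: r⟩ (t.app (.sym b, .stay)) := by
  have hh := h.head
  simp only at hh
  refine ⟨?_, ?_, ?_, ?_⟩
  · simp only [RT.app, Move.app, h.head]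
  · simp only [RT.app, hh]
    rw [Function.update_of_ne (by omega)]
    exact h.zero
  · intro i x hi
    simp only [RT.app, hh]
    by_cases hil : i = l.length
    · subst hil
      rw [Function.update_self]
      simp [Zip.full] at hi
      rw [hi]
    · rw [Function.update_of_ne (by omega)]
      apply h.sym
      simp only [Zip.full] at hi ⊢
      by_cases hlt : i < l.length
      · rw [List.getElem?_append_left (by simpa using hlt)] at hi ⊢
        exact hi
      · rw [List.getElem?_append_right (by simp; omega)] at hi ⊢
        simp only [List.length_reverse] at hi ⊢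
        obtain ⟨j, hj⟩ : ∃ j, i - l.length = j + 1 := ⟨i - l.length - 1, by omega⟩
        rw [hj, List.getElem?_cons_succ] at hi ⊢
        exact hi
  · simp only [RT.app, hh]
    have hlen : (⟨l, b :: r⟩ : Zip α).full.length = (⟨l, a :: r⟩ : Zip α).full.length := by
      simp [Zip.full]
    rw [hlen, Function.update_of_ne]
    · exact h.eof
    · simp [Zip.full]

/-- Writing a symbol at the end: after the first step the head is on the cell where the end marker
has to be written. -/
theorem rep_put {l : List α} {b : α} {t : RT (PSym α)} (h : Rep ⟨l, []⟩ t) (mv : Move) :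
    let t' := (t.app (.sym b, .right)).app (.eof, mv)
    t'.h = mv.app (l.length + 2) ∧ t'.c 0 = .lend ∧
      (∀ i a, (l.reverse ++ [b])[i]? = some a → t'.c (i + 1) = .sym a) ∧
      t'.c (l.length + 2) = .eof := by
  have hh := h.head
  simp only at hh
  intro t'
  refine ⟨?_, ?_, ?_, ?_⟩
  · simp only [t', RT.app, Move.app, hh]
  · simp only [t', RT.app, Move.app, hh]
    rw [Function.update_of_ne (by omega), Function.update_of_ne (by omega)]
    exact h.zero
  · intro i a hi
    simp only [t', RT.app, Move.app, hh]
    have hlen : i < l.length + 1 := by
      by_contra hcon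
      rw [List.getElem?_eq_none (by simp; omega)] at hi
      simp at hi
    rw [Function.update_of_ne (by omega)]
    by_cases hil : i = l.length
    · subst hil
      rw [Function.update_self]
      simp at hi
      rw [hi]
    · rw [Function.update_of_ne (by omega)]
      apply h.sym
      simp only [Zip.full, List.append_nil]
      rw [List.getElem?_append_left (by simp; omega)] at hi
      exact hi
  · simp only [t', RT.app, Move.app, hh]
    rw [Function.update_self]

theorem rep_right_nil {l : List α} {b : α} {t : RT (PSym α)} (h : Rep ⟨l, []⟩ t) :
    Rep ⟨b :: l, []⟩ ((t.app (.sym b, .right)).app (.eof, .stay)) := by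
  obtain ⟨h1, h2, h3, h4⟩ := rep_put (b := b) h .stay
  refine ⟨?_, h2, ?_, ?_⟩
  · rw [h1]
    simp [Move.app]
  · intro i a hi
    apply h3
    simpa [Zip.full] using hi
  · simpa [Zip.full] using h4

theorem rep_write_nil {l : List α} {b : α} {t : RT (PSym α)} (h : Rep ⟨l, []⟩ t) :
    Rep ⟨l, [b]⟩ ((t.app (.sym b, .right)).app (.eof, .left)) := by
  obtain ⟨h1, h2, h3, h4⟩ := rep_put (b := b) h .left
  refine ⟨?_, h2, ?_, ?_⟩
  · rw [h1]
    simp [Move.app]
  · intro i a hi
    apply h3
    simpa [Zip.full] using hi
  · simpa [Zip.full] using h4

theorem rep_trunc {z : Zip α} {t : RT (PSym α)} (h : Rep z t) :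
    Rep ⟨z.l, []⟩ (t.app (.eof, .stay)) := by
  have hh := h.head
  refine ⟨?_, ?_, ?_, ?_⟩
  · simp only [RT.app, Move.app, hh]
  · simp only [RT.app, hh]
    rw [Function.update_of_ne (by omega)]
    exact h.zero
  · intro i a hi
    simp only [RT.app, hh]
    simp only [Zip.full, List.append_nil] at hi
    have hlen : i < z.l.length := by
      by_contra hcon
      rw [List.getElem?_eq_none (by simp; omega)] at hi
      simp at hi
    rw [Function.update_of_ne (by omega)]
    apply h.sym
    simp only [Zip.full]
    rw [List.getElem?_append_left (by simp; omega)]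
    exact hi
  · simp only [RT.app, hh, Zip.full, List.append_nil, List.length_reverse]
    rw [Function.update_self]

/-- The raw tape represents `z` except for the head, which is at position `p`. -/
theorem Rep.sameC {z z' : Zip α} {t : RT (PSym α)} (h : Rep z t) (hf : z'.full = z.full) :
    Rep z' ⟨t.c, z'.l.length + 1⟩ :=
  ⟨rfl, h.zero, by rw [hf]; exact h.sym, by rw [hf]; exact h.eof⟩

theorem app_read {S : Type} (t : RT S) (mv : Move) : t.app (t.read, mv) = ⟨t.c, mv.app t.h⟩ := by
  simp [RT.app, RT.read]

end Comp

end Vale.Agent.P338.R2.H898
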