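import Vale.Agent.P338.R2.H898.Sim

/-!
The Turing machine of a program on files.
-/

namespace Vale.Agent.P338.R2.H898

namespace Comp

variable {M F α : Type}

/-- Action: write the left end markers. -/
def a1 (r : PTape F → PSym α) : PTape F → PSym α × Move
  | .inp => (r .inp, .stay)
  | .out => (r .out, .stay)
  | .file _ => (.lend, .right)

/-- Action: write the end of file markers. -/
def a2 (r : PTape F → PSym α) : PTape F → PSym α × Move
  | .inp => (r .inp, .stay)
  | .out => (r .out, .stay)
  | .file _ => (.eof, .stay)

/-- Is this symbol a letter? -/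
def isLetter : PSym α → Bool
  | .letter _ => true
  | _ => false

/-- Is this symbol a file symbol? -/
def isSym : PSym α → Bool
  | .sym _ => true
  | _ => false

/-- The file symbol encoding a letter. -/
def encP (enc : Letter → α) : PSym α → PSym α
  | .letter a => .sym (enc a)
  | x => x

/-- The letter encoded by a file symbol. -/
def decP (dl : α → Letter) : PSym α → PSym α
  | .sym a => .letter (dl a)
  | x => x

variable [DecidableEq F]

/-- Action: copy a letter to the file `fin`. -/
def a3 (enc : Letter → α) (fin : F) (r : PTape F → PSym α) : PTape F → PSym α × Move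
  | .inp => (r .inp, .right)
  | .out => (r .out, .stay)
  | .file f => if f = fin then (encP enc (r .inp), .right) else (r (.file f), .stay)

/-- Action: write the end marker on the file `fin`. -/
def a4 (fin : F) (r : PTape F → PSym α) : PTape F → PSym α × Move
  | .inp => (r .inp, .stay)
  | .out => (r .out, .stay)
  | .file f => if f = fin then (.eof, .stay) else (r (.file f), .stay)

/-- Action: copy a symbol of the file `fout` to the output tape. -/
def a5 (dl : α → Letter) (fout : F) (r : PTape F → PSym α) : PTape F → PSym α × Move
  | .inp => (r .inp, .stay)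
  | .out => (decP dl (r (.file fout)), .right)
  | .file f => if f = fout then (r (.file f), .right) else (r (.file f), .stay)

/-- Copy the input to the file `fin`. -/
def copyIn (enc : Letter → α) (fin : F) : RProg (M × Pend F) (PTape F) (PSym α) :=
  .loop (fun _ r => isLetter (r .inp)) (.prim fun m r => (m, a3 enc fin r))

/-- Copy the file `fout` to the output tape. -/
def copyOut (dl : α → Letter) (fout : F) : RProg (M × Pend F) (PTape F) (PSym α) :=
  .loop (fun _ r => isSym (r (.file fout))) (.prim fun m r => (m, a5 dl fout r))

/-- The complete program. -/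
noncomputable def fullProg (d : α) (enc : Letter → α) (dl : α → Letter) (fin fout : F)
    (p : Prog M F α) : RProg (M × Pend F) (PTape F) (PSym α) :=
  .seq (.prim fun m r => (m, a1 r)) (.seq (.prim fun m r => (m, a2 r))
    (.seq (copyIn enc fin) (.seq (.prim fun m r => (m, a4 fin r))
      (.seq (tr d (.seq p (.prim fun m _ => (m, some (fout, .rew))))) (copyOut dl fout)))))

/-- The raw machine of a program on files. -/
noncomputable def rmachine (hM : Finite M) (hF : Finite F) (hα : Finite α) (d : α)
    (enc : Letter → α) (dl : α → Letter) (m0 : M) (fin fout : F) (p : Prog M F α) : RMachine where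
  M := M × Pend F
  K := PTape F
  S := PSym α
  finM := inferInstance
  finK := inferInstance
  finS := inferInstance
  blank := .blank
  letter := .letter
  letter_inj := by
    intro a b h
    simpa using h
  letter_ne_blank := by simp
  inp := .inp
  out := .out
  m0 := (m0, .none)
  prog := fullProg d enc dl fin fout p

/-- The file tapes during the copying of the input: `i` letters have been copied. -/
noncomputable def inFile (enc : Letter → α) (w : List Letter) (i : ℕ) : RT (PSym α) :=
  ⟨fun p => if p = 0 then .lend else if p - 1 < i then
    (((w[p - 1]?).map enc).map PSym.sym).getD .blank else if p = 1 then .eof else .blank, i + 1⟩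

/-- The tapes during the copying of the input. -/
noncomputable def inTape (enc : Letter → α) (fin : F) (w : List Letter) (i : ℕ) :
    PTape F → RT (PSym α)
  | .inp => ⟨fun p => ((w[p]?).map PSym.letter).getD .blank, i⟩
  | .out => ⟨fun _ => .blank, 0⟩
  | .file f => if f = fin then inFile enc w i else inFile enc w 0

theorem appAct_a3 (m : M × Pend F) (enc : Letter → α) (fin : F) (w : List Letter) (i : ℕ)
    (hi : i < w.length) :
    RProg.appAct ⟨m, inTape enc fin w i⟩
      (m, a3 enc fin (RStore.reads ⟨m, inTape enc fin w i⟩)) =
      (⟨m, inTape enc fin w (i + 1)⟩ : RStore (M × Pend F) (PTape F) (PSym α)) := by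
  unfold RProg.appAct
  simp only [RStore.mk.injEq, true_and]
  funext k
  match k with
  | .inp => simp [inTape, a3, RStore.reads, RT.read, RT.app, Move.app]
  | .out => simp [inTape, a3, RStore.reads, RT.read, RT.app, Move.app]
  | .file f =>
    by_cases hf : f = fin
    · subst hf
      simp only [inTape, a3, RStore.reads, RT.read, RT.app, Move.app, if_true, inFile,
        RT.mk.injEq, and_true]
      funext p
      by_cases hp : p = i + 1
      · subst hp
        simp [hi, encP]
      · rw [Function.update_of_ne hp]
        by_cases hp0 : p = 0
        · simp [hp0]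
        · simp only [hp0, if_false]
          by_cases hpi : p - 1 < i
          · simp [hpi, show p - 1 < i + 1 by omega]
          · have h1 : ¬ (p - 1 < i + 1) := by omega
            simp [hpi, h1]
    · simp [hf, inTape, a3, RStore.reads, RT.read, RT.app, Move.app]

theorem exec_copyIn (m : M × Pend F) (enc : Letter → α) (fin : F) (w : List Letter) (n i : ℕ)
    (h : i + n = w.length) :
    RProg.Exec (copyIn enc fin) ⟨m, inTape enc fin w i⟩ (2 * n + 1)
      ⟨m, inTape enc fin w w.length⟩ := by
  induction n generalizing i with
  | zero =>
    have : i = w.length := by omega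
    subst this
    apply RProg.Exec.loopF
    simp [RStore.reads, inTape, RT.read, isLetter]
  | succ n ih =>
    have hi : i < w.length := by omega
    have hc : isLetter ((RStore.reads (⟨m, inTape enc fin w i⟩ :
        RStore (M × Pend F) (PTape F) (PSym α))) .inp) = true := by
      simp [RStore.reads, inTape, RT.read, isLetter, hi]
    have e1 := RProg.Exec.prim (fun (m : M × Pend F) (r : PTape F → PSym α) => (m, a3 enc fin r))
      ⟨m, inTape enc fin w i⟩
    rw [appAct_a3 m enc fin w i hi] at e1
    have e2 := ih (i + 1) (by omega)
    have : 2 * (n + 1) + 1 = 1 + 1 + (2 * n + 1) := by ring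
    rw [this]
    exact RProg.Exec.loopT hc e1 e2

/-- The tapes after writing the left end markers. -/
noncomputable def iniTape (w : List Letter) : PTape F → RT (PSym α)
  | .inp => ⟨fun p => ((w[p]?).map PSym.letter).getD .blank, 0⟩
  | .out => ⟨fun _ => .blank, 0⟩
  | .file _ => ⟨fun p => if p = 0 then .lend else .blank, 1⟩

/-- The initial tapes. -/
noncomputable def blankTape (w : List Letter) : PTape F → RT (PSym α)
  | .inp => ⟨fun p => ((w[p]?).map PSym.letter).getD .blank, 0⟩
  | .out => ⟨fun _ => .blank, 0⟩
  | .file _ => ⟨fun _ => .blank, 0⟩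

theorem initStore_eq (hM : Finite M) (hF : Finite F) (hα : Finite α) (d : α)
    (enc : Letter → α) (dl : α → Letter) (m0 : M) (fin fout : F) (p : Prog M F α)
    (w : List Letter) :
    (rmachine hM hF hα d enc dl m0 fin fout p).initStore w =
      ⟨(m0, .none), blankTape w⟩ := by
  unfold RMachine.initStore
  simp only [rmachine, RStore.mk.injEq, true_and]
  funext k
  match k with
  | .inp => simp [blankTape]
  | .out => simp [blankTape]
  | .file f => simp [blankTape]

theorem appAct_a1' (m : M × Pend F) (w : List Letter) :
    RProg.appAct ⟨m, blankTape w⟩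
      (m, a1 (RStore.reads (⟨m, blankTape w⟩ : RStore (M × Pend F) (PTape F) (PSym α)))) =
      (⟨m, iniTape w⟩ : RStore (M × Pend F) (PTape F) (PSym α)) := by
  unfold RProg.appAct
  simp only [RStore.mk.injEq, true_and]
  funext k
  match k with
  | .inp => simp [blankTape, iniTape, a1, RStore.reads, RT.read, RT.app, Move.app]
  | .out => simp [blankTape, iniTape, a1, RStore.reads, RT.read, RT.app, Move.app]
  | .file f =>
    simp only [blankTape, iniTape, a1, RT.app, Move.app, Nat.zero_add, RT.mk.injEq, and_true]
    funext q
    by_cases h0 : q = 0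
    · subst h0
      simp
    · simp [h0]

theorem appAct_a2' (m : M × Pend F) (enc : Letter → α) (fin : F) (w : List Letter) :
    RProg.appAct ⟨m, iniTape w⟩
      (m, a2 (RStore.reads (⟨m, iniTape w⟩ : RStore (M × Pend F) (PTape F) (PSym α)))) =
      (⟨m, inTape enc fin w 0⟩ : RStore (M × Pend F) (PTape F) (PSym α)) := by
  unfold RProg.appAct
  simp only [RStore.mk.injEq, true_and]
  funext k
  match k with
  | .inp => simp [iniTape, inTape, a2, RStore.reads, RT.read, RT.app, Move.app]
  | .out => simp [iniTape, inTape, a2, RStore.reads, RT.read, RT.app, Move.app]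
  | .file f =>
    simp only [iniTape, inTape, a2, RT.app, Move.app, ite_self, inFile, RT.mk.injEq,
      Nat.zero_add, and_true]
    funext q
    by_cases h0 : q = 0
    · subst h0
      simp
    · by_cases h1 : q = 1
      · subst h1
        simp
      · simp [h0, h1]

theorem srep_after (m0 : M) (enc : Letter → α) (fin : F) (w : List Letter) :
    SRep (⟨m0, fun f => if f = fin then ⟨(w.map enc).reverse, []⟩ else ⟨[], []⟩⟩ : Store M F α)
      (RProg.appAct ⟨(m0, .none), inTape enc fin w w.length⟩
        ((m0, .none), a4 fin (RStore.reads (⟨(m0, .none), inTape enc fin w w.length⟩ :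
          RStore (M × Pend F) (PTape F) (PSym α))))) := by
  refine ⟨rfl, fun f => ?_⟩
  by_cases hf : f = fin
  · subst hf
    refine ⟨?_, ?_, ?_, ?_⟩
    · simp [RProg.appAct, inTape, a4, RT.app, Move.app, inFile]
    · simp [RProg.appAct, inTape, a4, RT.app, inFile]
    · intro i a hi
      simp only [if_true, Zip.full, List.reverse_reverse, List.append_nil, List.getElem?_map] at hi
      have hlt : i < w.length := by
        by_contra hcon
        rw [List.getElem?_eq_none (by omega)] at hi
        simp at hi
      simp only [RProg.appAct, inTape, a4, RT.app, inFile, if_true]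
      rw [Function.update_of_ne (by omega)]
      simp [hlt] at hi
      simp [hlt, hi]
    · simp [RProg.appAct, inTape, a4, RT.app, inFile, Zip.full]
  · refine ⟨?_, ?_, ?_, ?_⟩
    · simp [RProg.appAct, inTape, a4, RT.app, Move.app, inFile, hf]
    · simp [RProg.appAct, inTape, a4, RT.app, inFile, hf, RStore.reads, RT.read]
    · intro i a hi
      simp [hf, Zip.full] at hi
    · simp [RProg.appAct, inTape, a4, RT.app, inFile, hf, Zip.full, RStore.reads, RT.read]

/-- Copying the output. -/
theorem exec_copyOut (dl : α → Letter) (fout : F) (m : M × Pend F) (v : List α) (n i : ℕ)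
    (h : i + n = v.length) (t : PTape F → RT (PSym α))
    (hf : ∀ j a, v[j]? = some a → (t (.file fout)).c (j + 1) = .sym a)
    (he : (t (.file fout)).c (v.length + 1) = .eof) (hh : (t (.file fout)).h = i + 1)
    (ho : (t .out).c = fun p => if p < i then (((v[p]?).map dl).map PSym.letter).getD .blank
      else .blank) (hoh : (t .out).h = i) :
    ∃ s', RProg.Exec (copyOut dl fout) ⟨m, t⟩ (2 * n + 1) s' ∧
      (s'.t .out).c = fun p => (((v[p]?).map dl).map PSym.letter).getD .blank := by
  induction n generalizing i t with
  | zero =>
    have hiv : i = v.length := by omega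
    refine ⟨⟨m, t⟩, ?_, ?_⟩
    · apply RProg.Exec.loopF
      simp [RStore.reads, RT.read, isSym, hh, hiv, he]
    · simp only
      rw [ho]
      funext p
      by_cases hp : p < i
      · simp [hp]
      · have : v[p]? = none := List.getElem?_eq_none (by omega)
        simp [hp, this]
  | succ n ih =>
    have hi : i < v.length := by omega
    have hread : (t (.file fout)).read = .sym v[i] := by
      simp only [RT.read, hh]
      exact hf i v[i] (List.getElem?_eq_getElem hi)
    have e1 := RProg.Exec.prim (fun (m : M × Pend F) (r : PTape F → PSym α) => (m, a5 dl fout r))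
      ⟨m, t⟩
    have hc : isSym ((RStore.reads (⟨m, t⟩ :
        RStore (M × Pend F) (PTape F) (PSym α))) (.file fout)) = true := by
      change isSym (t (.file fout)).read = true
      rw [hread]
      rfl
    obtain ⟨s', h1, h2⟩ := ih (i + 1) (by omega)
      (RProg.appAct ⟨m, t⟩ (m, a5 dl fout (RStore.reads (⟨m, t⟩ :
        RStore (M × Pend F) (PTape F) (PSym α))))).t
      (by
        intro j a hj
        simp only [RProg.appAct, a5, if_true]
        change Function.update (t (.file fout)).c (t (.file fout)).h (t (.file fout)).read
          (j + 1) = _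
        have : Function.update (t (.file fout)).c (t (.file fout)).h (t (.file fout)).read =
          (t (.file fout)).c := Function.update_eq_self _ _
        rw [this]
        exact hf j a hj)
      (by
        simp only [RProg.appAct, a5, if_true]
        change Function.update (t (.file fout)).c (t (.file fout)).h (t (.file fout)).read
          (v.length + 1) = _
        have : Function.update (t (.file fout)).c (t (.file fout)).h (t (.file fout)).read =
          (t (.file fout)).c := Function.update_eq_self _ _
        rw [this]
        exact he)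
      (by simp [RProg.appAct, a5, RT.app, Move.app, hh])
      (by
        simp only [RProg.appAct, a5, RT.app]
        change Function.update (t .out).c (t .out).h (decP dl (t (.file fout)).read) = _
        rw [hread, ho, hoh]
        funext p
        by_cases hp : p = i
        · subst hp
          simp [decP, hi]
        · rw [Function.update_of_ne hp]
          by_cases hpi : p < i
          · simp [hpi, show p < i + 1 by omega]
          · have h1 : ¬ (p < i + 1) := by omega
            simp [hpi, h1])
      (by simp [RProg.appAct, a5, RT.app, Move.app, hoh])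
    refine ⟨s', ?_, h2⟩
    have : 2 * (n + 1) + 1 = 1 + 1 + (2 * n + 1) := by ring
    rw [this]
    exact RProg.Exec.loopT hc e1 h1

/-- **The Turing machine of a program on files.** -/
theorem machine [hM : Finite M] [Fintype F] [hα : Finite α] (d : α) (enc : Letter → α)
    (dl : α → Letter) (hdl : ∀ a, dl (enc a) = a) (m0 : M) (fin fout : F) (p : Prog M F α) :
    ∃ B : MTM, ∀ (w v : List Letter) (c : ℕ) (s' : Store M F α),
      Prog.Run d p ⟨m0, fun f => if f = fin then ⟨(w.map enc).reverse, []⟩ else ⟨[], []⟩⟩ c s' →
      (s'.z fout).full = v.map enc →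
      B.Computes w v ∧ B.time w ≤ 8 * c + 4 * w.length + 2 * v.length + 13 := by
  refine ⟨(rmachine hM inferInstance hα d enc dl m0 fin fout p).toMTM, ?_⟩
  intro w v c s' hrun hv
  obtain ⟨c', hc', he⟩ := hrun
  -- the main part, followed by rewinding
  have he2 : Prog.Exec d (.seq p (.prim fun m _ => (m, some (fout, .rew))))
      ⟨m0, fun f => if f = fin then ⟨(w.map enc).reverse, []⟩ else ⟨[], []⟩⟩ (c' + 1)
      (Prog.appAct d s' (s'.m, some (fout, .rew))) :=
    Prog.Exec.seq he (Prog.Exec.prim (fun (m : M) (_ : F → Option α) =>
      (m, some (fout, (Op.rew : Op α)))) s')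
  obtain ⟨t', rs', h1, h2, h3, h4, h5⟩ := sim he2 _ (srep_after m0 enc fin w)
  -- potential of the initial store
  have hpot : pot (⟨m0, fun f => if f = fin then ⟨(w.map enc).reverse, []⟩ else ⟨[], []⟩⟩ :
      Store M F α) = w.length := by
    unfold pot
    simp only
    rw [Finset.sum_eq_single fin]
    · simp
    · intro b _ hb
      simp [hb]
    · simp
  -- the output file
  have hfull : ((Prog.appAct d s' (s'.m, some (fout, .rew))).z fout) = ⟨[], v.map enc⟩ := by
    simp only [Prog.appAct, Function.update_self]
    rw [← hv]
    rcases s'.z fout with ⟨l, r⟩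
    rfl
  have hrep := h2.z fout
  rw [hfull] at hrep
  have hout : rs'.t .out = ⟨fun _ => .blank, 0⟩ := by
    rw [h4]
    simp only [RProg.appAct, a4]
    change (⟨fun _ => PSym.blank, 0⟩ : RT (PSym α)).app
      ((⟨fun _ => PSym.blank, 0⟩ : RT (PSym α)).read, .stay) = _
    rw [app_read]
    rfl
  obtain ⟨s3, k1, k2⟩ := exec_copyOut dl fout rs'.m (v.map enc) (v.map enc).length 0 (by simp)
    rs'.t
    (by
      intro j a hj
      exact hrep.sym j a (by simpa [Zip.full] using hj))
    (by simpa [Zip.full] using hrep.eof)
    (by simpa using hrep.head)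
    (by rw [hout]; simp)
    (by rw [hout])
  -- the whole execution
  have e0 := initStore_eq hM (inferInstance : Finite F) hα d enc dl m0 fin fout p w
  have ex1 : RProg.Exec (.prim fun (m : M × Pend F) (r : PTape F → PSym α) => (m, a1 r))
      ((rmachine hM inferInstance hα d enc dl m0 fin fout p).initStore w) 1
      ⟨(m0, .none), iniTape w⟩ := by
    rw [e0]
    have := RProg.Exec.prim (fun (m : M × Pend F) (r : PTape F → PSym α) => (m, a1 r))
      ⟨(m0, .none), blankTape w⟩
    simp only at this
    rwa [appAct_a1'] at this
  have ex2 : RProg.Exec (.prim fun (m : M × Pend F) (r : PTape F → PSym α) => (m, a2 r))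
      ⟨(m0, .none), iniTape w⟩ 1 ⟨(m0, .none), inTape enc fin w 0⟩ := by
    have := RProg.Exec.prim (fun (m : M × Pend F) (r : PTape F → PSym α) => (m, a2 r))
      ⟨(m0, .none), iniTape w⟩
    simp only at this
    rwa [appAct_a2' _ enc fin w] at this
  have ex3 := exec_copyIn (m0, (Pend.none : Pend F)) enc fin w w.length 0 (by simp)
  have ex4 := RProg.Exec.prim (fun (m : M × Pend F) (r : PTape F → PSym α) => (m, a4 fin r))
    ⟨(m0, .none), inTape enc fin w w.length⟩
  have ex := RProg.Exec.seq ex1 (RProg.Exec.seq ex2 (RProg.Exec.seq ex3
    (RProg.Exec.seq ex4 (RProg.Exec.seq h1 k1))))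
  have hfin := (rmachine hM inferInstance hα d enc dl m0 fin fout p).computes_of_exec (v := v) ex
    (by
      intro q
      change (s3.t .out).c q = ((v[q]?).map PSym.letter).getD .blank
      rw [k2]
      simp only [List.getElem?_map, Option.map_map]
      congr 2
      funext a
      simp [hdl])
  refine ⟨hfin.1, ?_⟩
  rw [hfin.2, List.length_map]
  rw [hpot] at h5
  have h6 : (0 : ℕ) ≤ pot (Prog.appAct d s' (s'.m, some (fout, .rew))) := Nat.zero_le _
  omega

end Comp

end Vale.Agent.P338.R2.H898
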