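import Vale.Agent.P338.R2.H898.Model

/-!
The analytic consequences of the reduction.
-/

open Filter Asymptotics

namespace Vale.Agent.P338.R2.H898

/-- The inequality of the reduction, with an additional term. -/
def IneqL (C₀ : ℕ) (A : MTM) : Prop :=
  ∀ ρ < C₀, ∃ B : MTM, Transposes B ∧ ∃ C : ℝ, ∀ r s : ℕ, 2 ≤ r → 2 ≤ s → r ≤ 4 * s → s ≤ 4 * r →
    ∀ j : ℕ, (transTime B r s : ℝ) ≤ C * ((j + 1) * mulTime A (C₀ * mu r s + ρ) +
      (r * s * Real.log (r * s)) / 2 ^ j + r * s * Real.log (Real.log (r * s) + 2))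

theorem Transposes.squares {B : MTM} (h : Transposes B) : TransposesSquares B :=
  fun m hm M => h m m hm hm M

/-- Every positive integer is the size parameter of a near-square matrix. -/
theorem exists_mu {μ : ℕ} (hμ : 1 ≤ μ) : ∃ r s : ℕ, mu r s = μ ∧ r ≤ 4 * s ∧ s ≤ 4 * r ∧
    μ < 4 * (r * s) ∧ μ < 4 * r ^ 2 ∧ μ < 4 * s ^ 2 ∧ 1 ≤ r ∧ 1 ≤ s := by
  set t := Nat.log 4 μ with ht
  have h1 : 4 ^ t ≤ μ := Nat.pow_log_le_self 4 (by omega)
  have h2 : μ < 4 ^ (t + 1) := Nat.lt_pow_succ_log_self (by norm_num) μ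
  have h4 : 4 ^ t = 2 ^ t * 2 ^ t := by
    rw [show (4 : ℕ) = 2 * 2 by norm_num, mul_pow]
  have hpos : 0 < 2 ^ t := by positivity
  set s := μ / 2 ^ t with hs
  set e := μ % 2 ^ t with he
  have hdm : 2 ^ t * s + e = μ := Nat.div_add_mod μ (2 ^ t)
  have he_lt : e < 2 ^ t := Nat.mod_lt _ hpos
  have hs1 : 2 ^ t ≤ s := by
    rw [hs, Nat.le_div_iff_mul_le hpos, ← h4]
    exact h1
  have hs2 : s < 4 * 2 ^ t := by
    rw [hs, Nat.div_lt_iff_lt_mul hpos]
    calc μ < 4 ^ (t + 1) := h2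
      _ = 4 * 2 ^ t * 2 ^ t := by rw [pow_succ, h4]; ring
  have hlog : Nat.log 2 (2 ^ t + e) = t := by
    rw [Nat.log_eq_iff (Or.inr ⟨by norm_num, by omega⟩)]
    constructor
    · omega
    · rw [pow_succ]
      omega
  refine ⟨2 ^ t + e, s, ?_, by omega, by omega, ?_, ?_, ?_, by omega, by omega⟩
  · unfold mu
    rw [hlog]
    omega
  · calc μ < 4 ^ (t + 1) := h2
      _ = 4 * (2 ^ t * 2 ^ t) := by rw [pow_succ, h4]; ring
      _ ≤ 4 * ((2 ^ t + e) * s) := by gcongr; omega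
  · calc μ < 4 ^ (t + 1) := h2
      _ = 4 * (2 ^ t) ^ 2 := by rw [pow_succ, h4]; ring
      _ ≤ 4 * (2 ^ t + e) ^ 2 := by gcongr; omega
  · calc μ < 4 ^ (t + 1) := h2
      _ = 4 * (2 ^ t) ^ 2 := by rw [pow_succ, h4]; ring
      _ ≤ 4 * s ^ 2 := by gcongr

theorem exists_uniform (m : ℕ) (P : ℕ → ℝ → ℕ → Prop)
    (hP : ∀ i c c' N N', 0 < c' → c' ≤ c → N ≤ N' → P i c N → P i c' N')
    (h : ∀ i < m, ∃ c : ℝ, 0 < c ∧ ∃ N, P i c N) :
    ∃ c : ℝ, 0 < c ∧ ∃ N, ∀ i < m, P i c N := by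
  induction m with
  | zero => exact ⟨1, one_pos, 0, fun i hi => absurd hi (by omega)⟩
  | succ m ih =>
    obtain ⟨c, hc, N, h1⟩ := ih (fun i hi => h i (by omega))
    obtain ⟨c', hc', N', h2⟩ := h m (by omega)
    refine ⟨min c c', lt_min hc hc', max N N', fun i hi => ?_⟩
    rcases Nat.lt_succ_iff_lt_or_eq.1 hi with h3 | h3
    · exact hP i _ _ _ _ (lt_min hc hc') (min_le_left _ _) (le_max_left _ _) (h1 i h3)
    · subst h3
      exact hP i _ _ _ _ (lt_min hc hc') (min_le_right _ _) (le_max_right _ _) h2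

/-- `log (log x + 2) ≤ ε log x` for large `x`. -/
theorem eventually_loglog (ε : ℝ) (hε : 0 < ε) :
    ∃ X : ℝ, ∀ x : ℝ, X ≤ x → Real.log (Real.log x + 2) ≤ ε * Real.log x := by
  have h1 : (fun y : ℝ => Real.log y) =o[atTop] (fun y : ℝ => y) := Real.isLittleO_log_id_atTop
  have h2 : ∀ᶠ y : ℝ in atTop, Real.log y ≤ (ε / 2) * y := by
    have := h1.def (show (0 : ℝ) < ε / 2 by positivity)
    filter_upwards [this, eventually_ge_atTop 1] with y hy hy1
    rw [Real.norm_eq_abs, Real.norm_eq_abs, abs_of_nonneg (Real.log_nonneg hy1),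
      abs_of_nonneg (by linarith)] at hy
    exact hy
  have h3 : Tendsto (fun x : ℝ => Real.log x + 2) atTop atTop :=
    Tendsto.atTop_add Real.tendsto_log_atTop tendsto_const_nhds
  have h4 : ∀ᶠ x : ℝ in atTop, Real.log (Real.log x + 2) ≤ ε * Real.log x := by
    filter_upwards [h3.eventually h2, Real.tendsto_log_atTop.eventually_ge_atTop 2] with x hx hx2
    have : (ε / 2) * (Real.log x + 2) ≤ ε * Real.log x := by nlinarith
    linarith
  obtain ⟨X, hX⟩ := eventually_atTop.1 h4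
  exact ⟨X, hX⟩

/-- The main step: absorb the error terms. -/
theorem absorb {C c : ℝ} (hc : 0 < c) : ∃ (j : ℕ) (X : ℝ), 1 ≤ X ∧ ∀ (a T y : ℝ), X ≤ a →
    0 ≤ T → c * (a * Real.log a) ≤ y →
    y ≤ C * ((j + 1) * T + (a * Real.log a) / 2 ^ j + a * Real.log (Real.log a + 2)) →
    c / 2 * (a * Real.log a) ≤ (|C| + 1) * (j + 1) * T := by
  obtain ⟨j, hj⟩ : ∃ j : ℕ, (|C| + 1) / 2 ^ j ≤ c / 4 := by
    obtain ⟨j, hj⟩ := pow_unbounded_of_one_lt ((|C| + 1) / (c / 4)) (one_lt_two)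
    refine ⟨j, ?_⟩
    rw [div_le_iff₀ (by positivity)]
    rw [div_lt_iff₀ (by positivity)] at hj
    linarith
  obtain ⟨X, hX⟩ := eventually_loglog (c / (4 * (|C| + 1))) (by positivity)
  refine ⟨j, max X 1, le_max_right _ _, fun a T y ha hT hy1 hy2 => ?_⟩
  have ha1 : 1 ≤ a := (le_max_right _ _).trans ha
  have hlog : 0 ≤ Real.log a := Real.log_nonneg ha1
  have h1 := hX a ((le_max_left _ _).trans ha)
  have h1' : (|C| + 1) * Real.log (Real.log a + 2) ≤ c / 4 * Real.log a := by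
    have := mul_le_mul_of_nonneg_left h1 (show (0 : ℝ) ≤ |C| + 1 by positivity)
    have h2 : (|C| + 1) * (c / (4 * (|C| + 1)) * Real.log a) = c / 4 * Real.log a := by
      field_simp
    linarith
  have hll : 0 ≤ Real.log (Real.log a + 2) := Real.log_nonneg (by linarith)
  have hnn : 0 ≤ (j + 1) * T + (a * Real.log a) / 2 ^ j + a * Real.log (Real.log a + 2) := by
    positivity
  have h3 : y ≤ (|C| + 1) * ((j + 1) * T + (a * Real.log a) / 2 ^ j +
      a * Real.log (Real.log a + 2)) := by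
    refine hy2.trans (mul_le_mul_of_nonneg_right ?_ hnn)
    have := le_abs_self C
    linarith
  have h4 : (|C| + 1) * ((a * Real.log a) / 2 ^ j) ≤ c / 4 * (a * Real.log a) := by
    have : (|C| + 1) * ((a * Real.log a) / 2 ^ j) = (|C| + 1) / 2 ^ j * (a * Real.log a) := by
      ring
    rw [this]
    exact mul_le_mul_of_nonneg_right hj (by positivity)
  have h5 : (|C| + 1) * (a * Real.log (Real.log a + 2)) ≤ c / 4 * (a * Real.log a) := by
    have := mul_le_mul_of_nonneg_left h1' (show (0 : ℝ) ≤ a by linarith)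
    nlinarith
  nlinarith

theorem mulHard_of_rectHard {C₀ : ℕ} (hC₀ : 1 ≤ C₀) {A : MTM} (hI : IneqL C₀ A)
    (hR : RectHard) : MulHard A := by
  have key : ∀ ρ < C₀, ∃ c : ℝ, 0 < c ∧ ∃ N : ℕ, ∀ n : ℕ, N ≤ n → n % C₀ = ρ →
      c * (n * Real.log n) ≤ mulTime A n := by
    intro ρ hρ
    obtain ⟨B, hB, C, hBC⟩ := hI ρ hρ
    obtain ⟨c, hc, N₁, hN₁⟩ := hR B hB
    obtain ⟨j, X, hX1, hX⟩ := absorb (C := C) hc
    -- a threshold
    set N₂ : ℕ := max (N₁ + 2) (⌈X⌉₊ + 1) with hN₂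
    refine ⟨c / 2 / ((|C| + 1) * (j + 1)) / (8 * C₀) / 2, by positivity,
      C₀ * (4 * N₂ ^ 2) + C₀ + (8 * C₀) ^ 2 + 4, fun n hn hmod => ?_⟩
    -- the size parameter
    set μ := n / C₀ with hμ
    have hnμ : C₀ * μ + ρ = n := by
      rw [← hmod]
      exact Nat.div_add_mod n C₀
    have hC₀' : 0 < C₀ := by omega
    have hμ1 : 4 * N₂ ^ 2 < μ + 1 := by
      have : C₀ * (4 * N₂ ^ 2) < C₀ * (μ + 1) := by
        calc C₀ * (4 * N₂ ^ 2) ≤ n := by omega
          _ = C₀ * μ + ρ := hnμ.symm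
          _ < C₀ * μ + C₀ := by omega
          _ = C₀ * (μ + 1) := by ring
      exact lt_of_mul_lt_mul_left this (Nat.zero_le _)
    have hN₂pos : 2 ≤ N₂ := by
      have : N₁ + 2 ≤ N₂ := le_max_left _ _
      omega
    have hμpos : 1 ≤ μ := by nlinarith
    obtain ⟨r, s, hrs, h1, h2, h3, h4, h5, h6, h7⟩ := exists_mu hμpos
    have hr : N₂ ≤ r := by
      by_contra hcon
      push Not at hcon
      have : r ^ 2 < N₂ ^ 2 := Nat.pow_lt_pow_left hcon (by norm_num)
      omega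
    have hs : N₂ ≤ s := by
      by_contra hcon
      push Not at hcon
      have : s ^ 2 < N₂ ^ 2 := Nat.pow_lt_pow_left hcon (by norm_num)
      omega
    have hN₁2 : N₁ + 2 ≤ N₂ := le_max_left _ _
    have hX2 : ⌈X⌉₊ + 1 ≤ N₂ := le_max_right _ _
    have g1 := hN₁ r s (by omega) (by omega) h1 h2
    have g2 := hBC r s (by omega) (by omega) h1 h2 j
    rw [hrs, hnμ] at g2
    have ha : X ≤ (r : ℝ) * s := by
      have e1 : X ≤ ⌈X⌉₊ := Nat.le_ceil X
      have e2 : (⌈X⌉₊ : ℝ) ≤ r := by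
        exact_mod_cast (by omega : ⌈X⌉₊ ≤ r)
      have e3 : (1 : ℝ) ≤ s := by exact_mod_cast h7
      have e4 : (0 : ℝ) ≤ r := Nat.cast_nonneg r
      nlinarith
    have g3 := hX ((r : ℝ) * s) (mulTime A n) (transTime B r s) ha (Nat.cast_nonneg _) g1 g2
    -- comparison of `r s` with `n`
    have hrsn : (n : ℝ) ≤ 8 * C₀ * (r * s) := by
      have : n ≤ 8 * C₀ * (r * s) := by
        calc n = C₀ * μ + ρ := hnμ.symm
          _ ≤ C₀ * μ + C₀ := by omega
          _ = C₀ * (μ + 1) := by ring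
          _ ≤ C₀ * (8 * (r * s)) := by gcongr; omega
          _ = 8 * C₀ * (r * s) := by ring
      exact_mod_cast this
    have hn1 : ((8 * C₀ : ℕ) : ℝ) ^ 2 ≤ n := by
      exact_mod_cast (by omega : (8 * C₀) ^ 2 ≤ n)
    have hC₀R : (1 : ℝ) ≤ C₀ := by exact_mod_cast hC₀
    have hnpos : (0 : ℝ) < n := by
      have : 0 < n := by omega
      exact_mod_cast this
    have hrspos : (0 : ℝ) < (r : ℝ) * s := by
      have : 0 < r * s := Nat.mul_pos (by omega) (by omega)
      exact_mod_cast this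
    have hlog : Real.log n / 2 ≤ Real.log (r * s) := by
      -- `n ≤ (r s)²`
      have e1 : (n : ℝ) ≤ ((r : ℝ) * s) ^ 2 := by
        have e2 : (n : ℝ) ^ 2 ≤ (8 * C₀ * (r * s)) ^ 2 := by
          apply pow_le_pow_left₀ hnpos.le hrsn
        have e3 : (8 * (C₀ : ℝ) * (r * s)) ^ 2 = (8 * C₀) ^ 2 * (r * s) ^ 2 := by ring
        have e4 : (8 * (C₀ : ℝ)) ^ 2 * ((r : ℝ) * s) ^ 2 ≤ n * (r * s) ^ 2 := by
          apply mul_le_mul_of_nonneg_right _ (by positivity)
          have := hn1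
          push_cast at this
          exact this
        have e5 : (n : ℝ) * n ≤ n * ((r : ℝ) * s) ^ 2 := by nlinarith
        exact le_of_mul_le_mul_left e5 hnpos
      have e2 := Real.log_le_log hnpos e1
      rw [Real.log_pow] at e2
      push_cast at e2
      linarith
    have hlogn : 0 ≤ Real.log n := Real.log_nonneg (by
      have : 1 ≤ n := by omega
      exact_mod_cast this)
    have hfin : (n : ℝ) * Real.log n ≤ 8 * C₀ * 2 * ((r * s) * Real.log (r * s)) := by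
      calc (n : ℝ) * Real.log n ≤ (8 * C₀ * (r * s)) * (2 * Real.log (r * s)) := by
            apply mul_le_mul hrsn (by linarith) hlogn (by positivity)
        _ = _ := by ring
    have hK : 0 < (|C| + 1) * (j + 1) := by positivity
    have g4 : c / 2 / ((|C| + 1) * (j + 1)) * ((r * s) * Real.log (r * s)) ≤ mulTime A n := by
      rw [div_mul_eq_mul_div, div_le_iff₀ hK]
      linarith
    calc c / 2 / ((|C| + 1) * (j + 1)) / (8 * C₀) / 2 * (n * Real.log n)
        ≤ c / 2 / ((|C| + 1) * (j + 1)) / (8 * C₀) / 2 *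
          (8 * C₀ * 2 * ((r * s) * Real.log (r * s))) := by
          apply mul_le_mul_of_nonneg_left hfin (by positivity)
      _ = c / 2 / ((|C| + 1) * (j + 1)) * ((r * s) * Real.log (r * s)) := by
          field_simp
      _ ≤ mulTime A n := g4
  obtain ⟨c, hc, N, h⟩ := exists_uniform C₀ (fun ρ c N => ∀ n : ℕ, N ≤ n → n % C₀ = ρ →
      c * (n * Real.log n) ≤ mulTime A n) (by
      intro i c c' N N' hc' hcc hNN h n hn hmod
      have h1 := h n (hNN.trans hn) hmod
      have h2 : 0 ≤ (n : ℝ) * Real.log n := by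
        rcases Nat.eq_zero_or_pos n with h0 | h0
        · simp [h0]
        · have : (1 : ℝ) ≤ n := by exact_mod_cast h0
          have := Real.log_nonneg this
          positivity
      exact (mul_le_mul_of_nonneg_right hcc h2).trans h1) key
  refine ⟨c, hc, N + 2, by omega, fun n hn => h (n % C₀) (Nat.mod_lt _ (by omega)) n (by omega) rfl⟩

end Vale.Agent.P338.R2.H898
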