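import Vale.Agent.P338.R2.H898.Round

/-!
One round: assembly.
-/

namespace Vale.Agent.P338.R2.H898

open H784 H806 H806.LP
open H525 (Dim midBits packBits genBits1 genBits2 postBits inputBits roundBits mulBits dimOf
  wordOf dBits)
open H968 (CFile CallEnv)
open H968.CallEnv (mem0 callC mulP)
open Function (update)

/-- The files of a call. -/
def fmap (T : Type) : T ⊕ CFile → T ⊕ RF
  | .inl i => .inl i
  | .inr .opX => .inr .opX
  | .inr .opY => .inr .opY
  | .inr .clk => .inr .clk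
  | .inr .res => .inr .res

theorem fmap_inj {T : Type} : Function.Injective (fmap T) := by
  intro a b hab
  rcases a with a | (_ | _ | _ | _) <;> rcases b with b | (_ | _ | _ | _) <;>
    first | rfl | (simp [fmap] at hab) | skip
  exact congrArg _ hab

section

variable {A : MTM} {M α : Type} [DecidableEq A.Tape] [DecidableEq α] {d u mk : α} {m : M}
  {l h n : ℕ}

theorem length_mulBits (n : ℕ) (x y : List Bool) : (mulBits n x y).length = 2 * n := by
  simp [mulBits]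

/-- A multiplication. -/
theorem run_mul (hA : Multiplies A) (E : CallEnv A M (A.Tape ⊕ RF) α d)
    (hE : ∀ i, E.file i = fmap A.Tape i) (hmark : E.mark = u) (hm : E.put (mem0 A) m = m)
    {v : RR → ℕ} (hn : 1 ≤ v .nr) {dat : Zip α} {c : ℕ} {x y : List Bool}
    (hx : x.length ≤ v .nr) (hy : y.length ≤ v .nr) :
    ∃ T ≤ mulTime A (v .nr), Prog.Run d (E.mulP (R .nr))
      (st u m v dat ⟨List.replicate c u, []⟩ ⟨[], x.map E.bit⟩ ⟨[], y.map E.bit⟩ ⟨[], []⟩)
      ((callC A + 30) * (T + v .nr))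
      (st u m v dat ⟨List.replicate (T + c) u, []⟩ ⟨[], []⟩ ⟨[], []⟩
        ⟨[], (mulBits (v .nr) x y).map E.bit⟩) := by
  have hX : E.file (.inr .opX) = .inr .opX := hE _
  have hY : E.file (.inr .opY) = .inr .opY := hE _
  have hC : E.file (.inr .clk) = .inr .clk := hE _
  have hR : E.file (.inr .res) = .inr .res := hE _
  have hlen : (List.replicate (v .nr) u).length = v .nr := by simp
  obtain ⟨T, hT, hrun⟩ := E.run_mulP (x := x) (y := y) (u := List.replicate c u)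
    (NR := List.replicate (v .nr) u) (nr := R .nr) hA
    (by
      intro i
      rw [hE]
      rcases i with i | (_ | _ | _ | _) <;> simp [fmap])
    (by rw [hlen]; exact hn) (by rw [hlen]; exact hx) (by rw [hlen]; exact hy) m
    (st u m v dat ⟨List.replicate c u, []⟩ ⟨[], x.map E.bit⟩ ⟨[], y.map E.bit⟩ ⟨[], []⟩).z
    (by
      intro i
      rw [hE]
      rfl)
    (by rw [hX]; rfl) (by rw [hY]; rfl) (by rw [hC]; rfl) (by rw [hR]; rfl) rfl
  rw [hlen] at hT hrun
  refine ⟨T, hT, ?_⟩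
  rw [hX, hY, hC, hR, hm, hmark, List.replicate_append_replicate] at hrun
  have e1 := upd_opX (T := A.Tape) (u := u) (m := m) (v := v) (dat := dat)
    (clk := ⟨List.replicate c u, []⟩) (opX := ⟨[], x.map E.bit⟩) (opY := ⟨[], y.map E.bit⟩)
    (res := ⟨[], []⟩) (x := Zip.nil)
  rw [e1, upd_opY, upd_res, upd_clk] at hrun
  exact hrun

/-- The program of one round. -/
noncomputable def roundP (E : CallEnv A M (A.Tape ⊕ RF) α d) (u mk : α) :
    Prog M (A.Tape ⊕ RF) α :=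
  .seq (clr (R .h2)) (.seq (prepAll A.Tape u) (.seq (packP A.Tape u mk E.bit)
    (.seq (gen1P A.Tape u mk E.bit) (.seq (E.mulP (R .nr)) (.seq (midP A.Tape u mk E.bit)
    (.seq (clr (.inr .res)) (.seq (gen2P A.Tape u mk E.bit) (.seq (E.mulP (R .nr))
    (.seq (clr (.inr .dat)) (.seq (postP A.Tape u mk E.bit) (.seq (clr (.inr .res))
    (wipeR A.Tape))))))))))))

/-- Sizes. -/
theorem dm_bounds (h4 : 4 ≤ h) (hl : h ≤ l) :
    (dm l h).K * (dm l h).S2 * (dm l h).W ≤ 576 * 4 ^ l ∧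
    2 * (dm l h).P * (dm l h).R * (dm l h).W ≤ 576 * 4 ^ l := by
  have h1 := H525.dim_bound (dm l h) (by have := dm_G (l := l) h4; omega)
  have h2 := H525.dim_bound' (dm l h) dm_K
  rw [dm_size hl] at h1 h2
  exact ⟨h1, h2⟩

theorem S1_le (D : Dim) : D.S1 ≤ D.S2 := by
  unfold Dim.S1 Dim.S2
  omega

theorem S2_pos (D : Dim) : 1 ≤ D.S2 := by
  unfold Dim.S2
  have := Mid.P_pos D
  have h2 : 1 ≤ D.P * (D.R + 1) := Nat.mul_pos this (by omega)
  omega

/-- **One round.** -/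
theorem run_round (hA : Multiplies A) (E : CallEnv A M (A.Tape ⊕ RF) α d)
    (hE : ∀ i, E.file i = fmap A.Tape i) (hmark : E.mark = u) (hm : E.put (mem0 A) m = m)
    (hmk : u ≠ mk) (h4 : 4 ≤ h) (hl : h ≤ l) (hn : 576 * 4 ^ l ≤ n) (X : ℕ → ℕ → Bool)
    (zz : Zip α) :
    ∃ T ≤ 2 * mulTime A n, Prog.Run d (roundP E u mk)
      ⟨m, update (st u m (v0 l h n) ⟨[], (dBits l h X).map E.bit⟩ ⟨[], []⟩ ⟨[], []⟩ ⟨[], []⟩
        ⟨[], []⟩).z (R .h2) zz⟩
      ((2 * callC A + 35000) * (T + n))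
      (st u m (v1 l h n) ⟨[], (dBits l ((h + 1) / 2) X).map E.bit⟩ ⟨List.replicate T u, []⟩
        ⟨[], []⟩ ⟨[], []⟩ ⟨[], []⟩) := by
  have hG : 0 < (dm l h).G := by
    have := dm_G (l := l) h4
    omega
  have hlen : ∀ k x g y, (wordOf l h (h / 2) X k x g y).length = (dm l h).L :=
    H525.length_wordOf l h (h / 2) X
  obtain ⟨b1, b2⟩ := dm_bounds h4 hl
  have hn1 : (dm l h).K * (dm l h).S2 * (dm l h).W ≤ n := b1.trans hn
  have hn2 : 2 * (dm l h).P * (dm l h).R * (dm l h).W ≤ n := b2.trans hn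
  have hn3 : (dm l h).K * (dm l h).S1 * (dm l h).W ≤ n :=
    le_trans (Nat.mul_le_mul_right _ (Nat.mul_le_mul_left _ (S1_le _))) hn1
  have hWn : (dm l h).W ≤ n := by
    refine le_trans ?_ hn1
    calc (dm l h).W = 1 * 1 * (dm l h).W := by ring
      _ ≤ _ := Nat.mul_le_mul_right _ (Nat.mul_le_mul dm_K (S2_pos _))
  have hnpos : 1 ≤ n := by
    have : 1 ≤ 4 ^ l := Nat.one_le_pow _ _ (by norm_num)
    omega
  -- lengths of the operands
  have l1 : (packBits (dm l h) (wordOf l h (h / 2) X)).length ≤ n := by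
    rw [H525.packBits_eq _ _ hlen, H778.length_slots, mul_comm]
    exact hn3
  have l2 : (genBits1 (dm l h)).length ≤ n := by
    rw [H525.genBits1_eq _ (dm_s l h) hG, H778.length_slots, mul_comm]
    exact hn2
  have l4 : (genBits2 (dm l h)).length ≤ n := by
    rw [H525.genBits2_eq _ (dm_s l h) hG, H778.length_slots, mul_comm]
    exact hn2
  set x1 := packBits (dm l h) (wordOf l h (h / 2) X) with hx1
  set y1 := genBits1 (dm l h) with hy1
  set w1 := mulBits n x1 y1 with hw1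
  set x2 := midBits (dm l h) w1 with hx2
  set y2 := genBits2 (dm l h) with hy2
  set w2 := mulBits n x2 y2 with hw2
  have l3 : x2.length ≤ n := by
    rw [hx2, hw1, hx1, hy1, H525.midBits_eq _ _ (dm_s l h) hG hlen n hn3 hn2,
      H778.length_slots, mul_comm]
    exact hn1
  have hround : postBits (dm l h) w2 = dBits l ((h + 1) / 2) X := by
    have := H525.round_dBits l h (h / 2) n (by omega) (by omega) hl hn X
    rw [half_sub] at this
    exact this
  -- the steps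
  have s0 : Prog.Run d (clr (R .h2))
      ⟨m, update (st u m (v0 l h n) ⟨[], (dBits l h X).map E.bit⟩ ⟨[], []⟩ ⟨[], []⟩ ⟨[], []⟩
        ⟨[], []⟩).z (R .h2) zz⟩ 2
      (st (T := A.Tape) u m (v0 l h n) ⟨[], (dBits l h X).map E.bit⟩ ⟨[], []⟩ ⟨[], []⟩ ⟨[], []⟩
        ⟨[], []⟩) := by
    have := run_clr (d := d) (R .h2) m (update (st (T := A.Tape) u m (v0 l h n)
      ⟨[], (dBits l h X).map E.bit⟩ ⟨[], []⟩ ⟨[], []⟩ ⟨[], []⟩ ⟨[], []⟩).z (R .h2) zz)
    rw [Function.update_idem] at this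
    have e := upd_R (T := A.Tape) (u := u) (m := m) (v := v0 l h n)
      (dat := ⟨[], (dBits l h X).map E.bit⟩) (clk := ⟨[], []⟩) (opX := ⟨[], []⟩)
      (opY := ⟨[], []⟩) (res := ⟨[], []⟩) .h2 0
    rw [List.replicate_zero] at e
    rw [e] at this
    have e3 : update (v0 l h n) .h2 0 = v0 l h n := by
      funext x
      cases x <;> simp [v0, Function.update]
    rw [e3] at this
    exact this
  have s1 := run_prepAll (T := A.Tape) (d := d) (u := u) (m := m) (n := n)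
    (dat := ⟨[], (dBits l h X).map E.bit⟩) (clk := ⟨[], []⟩) (opX := ⟨[], []⟩)
    (opY := ⟨[], []⟩) (res := ⟨[], []⟩) hl
  have s2 := run_packP (T := A.Tape) (d := d) (u := u) (mk := mk) (m := m) (n := n)
    (clk := ⟨[], []⟩) (opY := ⟨[], []⟩) (res := ⟨[], []⟩) hmk h4 hl E.bit X
  have s3 := run_gen1P (T := A.Tape) (d := d) (u := u) (mk := mk) (m := m) (n := n)
    (clk := ⟨[], []⟩) (opX := ⟨[], x1.map E.bit⟩) (res := ⟨[], []⟩) hmk h4 hl E.bit
    ((dBits l h X).map E.bit)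
  obtain ⟨T1, hT1, s4⟩ := run_mul (d := d) (m := m) (u := u) hA E hE hmark hm (v := vr l h n)
    hnpos (dat := ⟨[], (dBits l h X).map E.bit⟩) (c := 0) (x := x1) (y := y1) l1 l2
  have s5 := run_midP (T := A.Tape) (d := d) (u := u) (mk := mk) (m := m) (n := n)
    (dat := ⟨[], (dBits l h X).map E.bit⟩) (clk := ⟨List.replicate (T1 + 0) u, []⟩)
    (opY := ⟨[], []⟩) hmk h4 hl E.bit w1 (by
      rw [hw1, length_mulBits, Nat.add_mul, Nat.one_mul]
      omega)
  have s6 := run_clr_res (T := A.Tape) (d := d) (u := u) (m := m) (v := vr l h n)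
    (dat := ⟨[], (dBits l h X).map E.bit⟩) (clk := ⟨List.replicate (T1 + 0) u, []⟩)
    (opX := ⟨[], x2.map E.bit⟩) (opY := ⟨[], []⟩) (res := ⟨[], w1.map E.bit⟩)
  have s7 := run_gen2P (T := A.Tape) (d := d) (u := u) (mk := mk) (m := m) (n := n)
    (clk := ⟨List.replicate (T1 + 0) u, []⟩) (opX := ⟨[], x2.map E.bit⟩) (res := ⟨[], []⟩)
    hmk h4 hl E.bit ((dBits l h X).map E.bit)
  obtain ⟨T2, hT2, s8⟩ := run_mul (d := d) (m := m) (u := u) hA E hE hmark hm (v := vr l h n)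
    hnpos (dat := ⟨[], (dBits l h X).map E.bit⟩) (c := T1 + 0) (x := x2) (y := y2) l3 l4
  have s9 := run_clr_dat (T := A.Tape) (d := d) (u := u) (m := m) (v := vr l h n)
    (dat := ⟨[], (dBits l h X).map E.bit⟩) (clk := ⟨List.replicate (T2 + (T1 + 0)) u, []⟩)
    (opX := ⟨[], []⟩) (opY := ⟨[], []⟩) (res := ⟨[], w2.map E.bit⟩)
  have s10 := run_postP (T := A.Tape) (d := d) (u := u) (mk := mk) (m := m) (n := n)
    (clk := ⟨List.replicate (T2 + (T1 + 0)) u, []⟩) (opX := ⟨[], []⟩) (opY := ⟨[], []⟩)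
    hmk h4 hl E.bit w2 (by
      rw [hw2, length_mulBits]
      omega)
  rw [hround] at s10
  have s11 := run_clr_res (T := A.Tape) (d := d) (u := u) (m := m) (v := vr l h n)
    (dat := ⟨[], (dBits l ((h + 1) / 2) X).map E.bit⟩)
    (clk := ⟨List.replicate (T2 + (T1 + 0)) u, []⟩)
    (opX := ⟨[], []⟩) (opY := ⟨[], []⟩) (res := ⟨[], w2.map E.bit⟩)
  have s12 := run_wipeR (T := A.Tape) (d := d) (u := u) (m := m)
    (dat := ⟨[], (dBits l ((h + 1) / 2) X).map E.bit⟩)
    (clk := ⟨List.replicate (T2 + (T1 + 0)) u, []⟩)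
    (opX := ⟨[], []⟩) (opY := ⟨[], []⟩) (res := ⟨[], []⟩) l h n
  have hT1' : T1 ≤ mulTime A n := hT1
  have hT2' : T2 ≤ mulTime A n := hT2
  refine ⟨T2 + (T1 + 0), by omega, ?_⟩
  refine (s0.seq (s1.seq (s2.seq (s3.seq (s4.seq (s5.seq (s6.seq (s7.seq (s8.seq (s9.seq
    (s10.seq (s11.seq s12)))))))))))).mono ?_
  show 2 + (3000 * 4 ^ l + (2000 * 4 ^ l + 2 + (2800 * 4 ^ l + 2 +
    ((callC A + 30) * (T1 + n) + (20000 * 4 ^ l + 2 + (2 + (3200 * 4 ^ l + 2 +
    ((callC A + 30) * (T2 + n) + (2 + (3400 * 4 ^ l + (2 + 35))))))))))) ≤ _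
  have h5 : (callC A + 30) * (T1 + n) + (callC A + 30) * (T2 + n) =
    callC A * (T2 + (T1 + 0)) + 2 * callC A * n + 30 * (T2 + T1) + 60 * n := by ring
  have h6 : (2 * callC A + 35000) * (T2 + (T1 + 0) + n) =
    2 * (callC A * (T2 + (T1 + 0))) + 2 * callC A * n + 35000 * (T2 + T1) + 35000 * n := by ring
  have h7 : 0 ≤ callC A * (T2 + (T1 + 0)) := Nat.zero_le _
  omega

end

end Vale.Agent.P338.R2.H898
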