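import Vale.Agent.P338.R2.H806.Loop

/-!
Rules for the evaluation of loop programs.
-/

namespace Vale.Agent.P338.R2.H898

open H806 H806.LP

variable {F α : Type} [DecidableEq F] {m : F → ℕ} {w : List α} {e : α}

theorem PS.set_set (s : PS F α) (r : F) (i j : ℕ) : (s.set r i).set r j = s.set r j := by
  simp [PS.set]

theorem PS.set_v_self (s : PS F α) (r : F) (i : ℕ) : (s.set r i).v r = i := by simp [PS.set]

theorem PS.set_v_ne (s : PS F α) {r r' : F} (h : r' ≠ r) (i : ℕ) : (s.set r i).v r' = s.v r' := by
  simp [PS.set, h]

theorem PS.set_eq (s : PS F α) (r : F) : s.set r (s.v r) = s := by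
  simp [PS.set]

theorem PS.set_comm (s : PS F α) {r r' : F} (h : r ≠ r') (i j : ℕ) :
    (s.set r i).set r' j = (s.set r' j).set r i := by
  simp only [PS.set, PS.mk.injEq, and_self, and_true]
  exact Function.update_comm h _ _ _

/-- Rule for loops. -/
theorem eval_loop {r : F} {a : LP F α} {s : PS F α} (J : ℕ → PS F α) (h0 : J 0 = s)
    (hv : ∀ i, (J i).v r = 0)
    (step : ∀ i < m r, eval m w e a ((J i).set r i) = (J (i + 1)).set r i) :
    eval m w e (loop r a) s = J (m r) := by
  have hs : s.v r = 0 := h0 ▸ hv 0
  have key : ∀ i ≤ m r, (fun s => (eval m w e a s).set r ((eval m w e a s).v r + 1))^[i] s =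
      (J i).set r i := by
    intro i
    induction i with
    | zero =>
      intro _
      simp only [Function.iterate_zero, id_eq]
      rw [← h0]
      have := PS.set_eq (J 0) r
      rw [hv 0] at this
      exact this.symm
    | succ i ih =>
      intro hi
      rw [Function.iterate_succ_apply', ih (by omega), step i (by omega), PS.set_v_self,
        PS.set_set]
  rw [eval]
  rw [hs, Nat.sub_zero, key _ le_rfl, PS.set_set]
  have := PS.set_eq (J (m r)) r
  rw [hv] at this
  exact this

/-- Rule for `forReg`. -/
theorem eval_forReg {r : F} {a : LP F α} {s : PS F α} (J : ℕ → PS F α) (h0 : J 0 = s)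
    (step : ∀ i < s.v r, eval m w e a (J i) = J (i + 1)) :
    eval m w e (forReg r a) s = J (s.v r) := by
  have key : ∀ i ≤ s.v r, (eval m w e a)^[i] s = J i := by
    intro i
    induction i with
    | zero =>
      intro _
      exact h0.symm
    | succ i ih =>
      intro hi
      rw [Function.iterate_succ_apply', ih (by omega), step i (by omega)]
  rw [eval]
  exact key _ le_rfl

/-- Rule for `forCo`. -/
theorem eval_forCo {r : F} {a : LP F α} {s : PS F α} (J : ℕ → PS F α) (h0 : J 0 = s)
    (step : ∀ i < m r - s.v r, eval m w e a (J i) = J (i + 1)) :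
    eval m w e (forCo r a) s = J (m r - s.v r) := by
  have key : ∀ i ≤ m r - s.v r, (eval m w e a)^[i] s = J i := by
    intro i
    induction i with
    | zero =>
      intro _
      exact h0.symm
    | succ i ih =>
      intro hi
      rw [Function.iterate_succ_apply', ih (by omega), step i (by omega)]
  rw [eval]
  exact key _ le_rfl

/-- A program that reads `c` symbols, writes `l` and changes no register, provided that the
registers of `Z` are `0`. -/
def Act (m : F → ℕ) (w : List α) (e : α) (a : LP F α) (Z : Finset F) (c : ℕ) (l : List α) : Prop :=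
  ∀ s : PS F α, (∀ r ∈ Z, s.v r = 0) → eval m w e a s = ⟨s.v, s.p + c, s.o ++ l⟩

theorem Act.skip : Act m w e (skip : LP F α) ∅ 1 [] := by
  intro s _
  simp [eval]

theorem Act.emit (x : α) : Act m w e (emit x : LP F α) ∅ 0 [x] := by
  intro s _
  simp [eval]

theorem Act.seq {a b : LP F α} {Z Z' : Finset F} {c c' : ℕ} {l l' : List α}
    (h : Act m w e a Z c l) (h' : Act m w e b Z' c' l') :
    Act m w e (LP.seq a b) (Z ∪ Z') (c + c') (l ++ l') := by
  intro s hs
  rw [eval, h s (fun r hr => hs r (Finset.mem_union_left _ hr)),
    h' ⟨s.v, s.p + c, s.o ++ l⟩ (fun r hr => hs r (Finset.mem_union_right _ hr))]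
  simp [Nat.add_assoc]

theorem Act.loop {r : F} {a : LP F α} {Z : Finset F} {c : ℕ} {l : List α} (hr : r ∉ Z)
    (h : Act m w e a Z c l) :
    Act m w e (LP.loop r a) (insert r Z) (m r * c) ((List.range (m r)).flatMap fun _ => l) := by
  intro s hs
  have h0 : s.v r = 0 := hs r (Finset.mem_insert_self _ _)
  have := eval_loop (m := m) (w := w) (e := e) (r := r) (a := a) (s := s)
    (fun i => ⟨s.v, s.p + i * c, s.o ++ (List.range i).flatMap fun _ => l⟩) (by simp)
    (fun _ => h0) (by
      intro i hi
      rw [h]
      · simp only [PS.set, PS.mk.injEq, true_and]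
        constructor
        · ring
        · rw [List.range_succ, List.flatMap_append]
          simp
      · intro r' hr'
        have hne : r' ≠ r := fun h => hr (h ▸ hr')
        simp only [PS.set, Function.update_of_ne hne]
        exact hs r' (Finset.mem_insert_of_mem hr'))
  exact this

theorem Act.weaken {a : LP F α} {Z Z' : Finset F} {c c' : ℕ} {l l' : List α}
    (h : Act m w e a Z c l) (hZ : Z ⊆ Z') (hc : c = c') (hl : l = l') : Act m w e a Z' c' l' := by
  subst hc hl
  exact fun s hs => h s (fun r hr => hs r (hZ hr))

theorem flatMap_nil (n : ℕ) : ((List.range n).flatMap fun _ => ([] : List α)) = [] := by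
  simp

theorem flatMap_replicate (n k : ℕ) (x : α) :
    ((List.range n).flatMap fun _ => List.replicate k x) = List.replicate (n * k) x := by
  induction n with
  | zero => simp
  | succ n ih =>
    rw [List.range_succ, List.flatMap_append, ih]
    simp only [List.flatMap_cons, List.flatMap_nil, List.append_nil]
    rw [← List.replicate_add]
    congr 1
    ring

theorem flatMap_singleton (n : ℕ) (x : α) :
    ((List.range n).flatMap fun _ => [x]) = List.replicate n x := by
  have := flatMap_replicate n 1 x
  simpa using this

/-- Skipping. -/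
theorem Act.loopSkip {r : F} {a : LP F α} {Z : Finset F} {c : ℕ} (hr : r ∉ Z)
    (h : Act m w e a Z c []) : Act m w e (LP.loop r a) (insert r Z) (m r * c) [] :=
  (Act.loop hr h).weaken subset_rfl rfl (flatMap_nil _)

/-- Emitting copies of one symbol. -/
theorem Act.loopEmit {r : F} {a : LP F α} {Z : Finset F} {k : ℕ} {x : α} (hr : r ∉ Z)
    (h : Act m w e a Z 0 (List.replicate k x)) :
    Act m w e (LP.loop r a) (insert r Z) 0 (List.replicate (m r * k) x) :=
  (Act.loop hr h).weaken subset_rfl (Nat.mul_zero _) (flatMap_replicate _ _ _)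

theorem map_getD_range (w : List α) (e : α) (p n : ℕ) (h : p + n ≤ w.length) :
    ((List.range n).map fun i => w.getD (p + i) e) = (w.drop p).take n := by
  apply List.ext_getElem
  · simp
    omega
  · intro i h1 h2
    simp only [List.getElem_map, List.getElem_range, List.getElem_take, List.getElem_drop]
    simp only [List.length_map, List.length_range] at h1
    rw [List.getD_eq_getElem?_getD, List.getElem?_eq_getElem (by omega)]
    rfl

/-- Copying, from a given value of the register on. -/
theorem eval_loop_copy {r : F} (s : PS F α) (h : s.p + (m r - s.v r) ≤ w.length) :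
    eval m w e (loop r copy) s =
      ⟨Function.update s.v r 0, s.p + (m r - s.v r),
        s.o ++ (w.drop s.p).take (m r - s.v r)⟩ := by
  have key : ∀ i, (fun s => (eval m w e copy s).set r ((eval m w e copy s).v r + 1))^[i] s =
      ⟨Function.update s.v r (s.v r + i), s.p + i,
        s.o ++ (List.range i).map fun i => w.getD (s.p + i) e⟩ := by
    intro i
    induction i with
    | zero => simp
    | succ i ih =>
      rw [Function.iterate_succ_apply', ih]
      simp only [eval, PS.set, Function.update_idem, Function.update_self, PS.mk.injEq]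
      refine ⟨rfl, rfl, ?_⟩
      rw [List.range_succ, List.map_append]
      simp
  rw [eval, key, ← map_getD_range w e s.p _ h]
  simp [PS.set]

/-- Skipping the rest of a ruler. -/
theorem eval_loop_skip {r : F} (s : PS F α) :
    eval m w e (loop r skip) s =
      ⟨Function.update s.v r 0, s.p + (m r - s.v r), s.o⟩ := by
  have key : ∀ i, (fun s => (eval m w e skip s).set r ((eval m w e skip s).v r + 1))^[i] s =
      ⟨Function.update s.v r (s.v r + i), s.p + i, s.o⟩ := by
    intro i
    induction i with
    | zero => simp
    | succ i ih =>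
      rw [Function.iterate_succ_apply', ih]
      simp only [eval, PS.set, Function.update_idem, Function.update_self, PS.mk.injEq, and_true]
      exact ⟨rfl, rfl⟩
  rw [eval, key]
  simp [PS.set]

theorem eval_seq (a b : LP F α) (s : PS F α) :
    eval m w e (LP.seq a b) s = eval m w e b (eval m w e a s) := rfl

theorem eval_inc (r : F) (s : PS F α) : eval m w e (inc r) s = s.set r ((s.v r + 1) % m r) := rfl

/-- Adding multiples of another register, in units of `2`. -/
theorem eval_forReg_inc2 {r X : F} (h : r ≠ X) (s : PS F α) (hX : s.v X < m X) :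
    eval m w e (forReg r (LP.seq (inc X) (inc X))) s =
      s.set X ((s.v X + 2 * s.v r) % m X) := by
  have := eval_forReg (m := m) (w := w) (e := e) (r := r) (a := LP.seq (inc X) (inc X)) (s := s)
    (fun i => s.set X ((s.v X + 2 * i) % m X)) (by
      simp only [Nat.mul_zero, Nat.add_zero, Nat.mod_eq_of_lt hX]
      exact PS.set_eq s X) (by
      intro i _
      simp only [eval_seq, eval_inc, PS.set_v_self, PS.set_set]
      congr 1
      rw [Nat.mod_add_mod, Nat.add_assoc, Nat.mod_add_mod]
      congr 1)
  exact this

/-- Adding multiples of another register. -/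
theorem eval_forReg_add {r X : F} {a : LP F α} (c : ℕ)
    (ha : ∀ s : PS F α, eval m w e a s = s.set X ((s.v X + c) % m X)) (s : PS F α)
    (hX : s.v X < m X) :
    eval m w e (forReg r a) s = s.set X ((s.v X + c * s.v r) % m X) := by
  have := eval_forReg (m := m) (w := w) (e := e) (r := r) (a := a) (s := s)
    (fun i => s.set X ((s.v X + c * i) % m X)) (by
      simp only [Nat.mul_zero, Nat.add_zero, Nat.mod_eq_of_lt hX]
      exact PS.set_eq s X) (by
      intro i _
      rw [ha]
      simp only [PS.set_v_self, PS.set_set]
      congr 1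
      rw [Nat.mod_add_mod]
      congr 1
      ring)
  exact this

theorem eval_inc2 (X : F) (s : PS F α) :
    eval m w e (LP.seq (inc X) (inc X)) s = s.set X ((s.v X + 2) % m X) := by
  simp only [eval_seq, eval_inc, PS.set_v_self, PS.set_set]
  congr 1
  rw [Nat.mod_add_mod]

theorem eval_inc4 (X : F) (s : PS F α) :
    eval m w e (LP.seq (LP.seq (inc X) (inc X)) (LP.seq (inc X) (inc X))) s =
      s.set X ((s.v X + 4) % m X) := by
  rw [eval_seq, eval_inc2, eval_inc2, PS.set_v_self, PS.set_set]
  congr 1
  rw [Nat.mod_add_mod]

theorem eval_forCo_inc2 {r X : F} (h : r ≠ X) (s : PS F α) (hX : s.v X < m X) :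
    eval m w e (forCo r (LP.seq (inc X) (inc X))) s =
      s.set X ((s.v X + 2 * (m r - s.v r)) % m X) := by
  have := eval_forCo (m := m) (w := w) (e := e) (r := r) (a := LP.seq (inc X) (inc X)) (s := s)
    (fun i => s.set X ((s.v X + 2 * i) % m X)) (by
      simp only [Nat.mul_zero, Nat.add_zero, Nat.mod_eq_of_lt hX]
      exact PS.set_eq s X) (by
      intro i _
      simp only [eval_seq, eval_inc, PS.set_v_self, PS.set_set]
      congr 1
      rw [Nat.mod_add_mod, Nat.add_assoc, Nat.mod_add_mod]
      congr 1)
  exact this

theorem eval_forCo_inc {r X : F} (h : r ≠ X) (s : PS F α) (hX : s.v X < m X) :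
    eval m w e (forCo r (inc X)) s = s.set X ((s.v X + (m r - s.v r)) % m X) := by
  have := eval_forCo (m := m) (w := w) (e := e) (r := r) (a := inc X) (s := s)
    (fun i => s.set X ((s.v X + i) % m X)) (by
      simp only [Nat.add_zero, Nat.mod_eq_of_lt hX]
      exact PS.set_eq s X) (by
      intro i _
      simp only [eval_inc, PS.set_v_self, PS.set_set]
      congr 1
      rw [Nat.mod_add_mod]
      congr 1)
  exact this

theorem eval_loop_inc {r X : F} (h : r ≠ X) (s : PS F α) (hX : s.v X < m X) (hr : s.v r = 0) :
    eval m w e (loop r (inc X)) s = s.set X ((s.v X + m r) % m X) := by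
  have := eval_loop (m := m) (w := w) (e := e) (r := r) (a := inc X) (s := s)
    (fun i => s.set X ((s.v X + i) % m X)) (by
      simp only [Nat.add_zero, Nat.mod_eq_of_lt hX]
      exact PS.set_eq s X) (by
      intro i
      rw [PS.set_v_ne _ h]
      exact hr) (by
      intro i _
      simp only [eval_inc]
      rw [PS.set_v_ne _ h.symm, PS.set_v_self, PS.set_comm _ h, PS.set_set]
      rw [Nat.mod_add_mod]
      rfl)
  exact this

end Vale.Agent.P338.R2.H898
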