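import Vale.Agent.P338.R2.H898.Final

/-!
Consequences of the reduction for square matrices.
-/

open Filter Asymptotics

namespace Vale.Agent.P338.R2.H898

theorem mu_self_le (m : ℕ) : mu m m ≤ 2 * m ^ 2 := by
  unfold mu
  rcases Nat.eq_zero_or_pos m with h | h
  · subst h
    simp
  · have h1 : 2 ^ Nat.log 2 m ≤ m := Nat.pow_log_le_self 2 (by omega)
    have h2 : 2 ^ Nat.log 2 m * m ≤ m * m := Nat.mul_le_mul_right _ h1
    have h3 : m - 2 ^ Nat.log 2 m ≤ m := Nat.sub_le _ _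
    nlinarith

theorem le_mu_self (m : ℕ) : m ^ 2 ≤ 2 * mu m m := by
  unfold mu
  have h1 : m < 2 ^ (Nat.log 2 m + 1) := Nat.lt_pow_succ_log_self (by norm_num) m
  rw [pow_succ] at h1
  have h2 : m * m ≤ 2 ^ Nat.log 2 m * 2 * m := Nat.mul_le_mul_right _ h1.le
  nlinarith

theorem mul_sizes_of_squareHard {C₀ : ℕ} {A : MTM} (hI : IneqL C₀ A) (hS : SquareHard) :
    ∃ c : ℝ, 0 < c ∧ ∃ N : ℕ, ∀ ρ < C₀, ∀ m : ℕ, N ≤ m →
      c * (m ^ 2 * Real.log m) ≤ mulTime A (C₀ * mu m m + ρ) := by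
  refine exists_uniform C₀ (fun ρ c N => ∀ m : ℕ, N ≤ m →
      c * (m ^ 2 * Real.log m) ≤ mulTime A (C₀ * mu m m + ρ)) (by
      intro i c c' N N' hc' hcc hNN h m hm
      have h1 := h m (hNN.trans hm)
      have h2 : 0 ≤ (m : ℝ) ^ 2 * Real.log m := by
        rcases Nat.eq_zero_or_pos m with h0 | h0
        · simp [h0]
        · have : (1 : ℝ) ≤ m := by exact_mod_cast h0
          have := Real.log_nonneg this
          positivity
      exact (mul_le_mul_of_nonneg_right hcc h2).trans h1) ?_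
  intro ρ hρ
  obtain ⟨B, hB, C, hBC⟩ := hI ρ hρ
  obtain ⟨c, hc, N₁, hN₁⟩ := hS B hB.squares
  obtain ⟨j, X, hX1, hX⟩ := absorb (C := C) (c := c / 2) (by positivity)
  refine ⟨c / 2 / 2 / ((|C| + 1) * (j + 1)), by positivity, N₁ + ⌈X⌉₊ + 2, fun m hm => ?_⟩
  have hm1 : (1 : ℝ) ≤ m := by
    have : 1 ≤ m := by omega
    exact_mod_cast this
  have hlogm : 0 ≤ Real.log m := Real.log_nonneg hm1
  have hsq : Real.log ((m : ℝ) * m) = 2 * Real.log m := by
    rw [← pow_two, Real.log_pow]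
    push_cast
    ring
  have g1 := hN₁ m (by omega)
  have g2 := hBC m m (by omega) (by omega) (by omega) (by omega) j
  have ha : X ≤ (m : ℝ) * m := by
    have e1 : X ≤ ⌈X⌉₊ := Nat.le_ceil X
    have e2 : (⌈X⌉₊ : ℝ) ≤ m := by
      exact_mod_cast (by omega : ⌈X⌉₊ ≤ m)
    nlinarith
  have g1' : c / 2 * ((m : ℝ) * m * Real.log (m * m)) ≤ transTime B m m := by
    rw [hsq]
    calc c / 2 * ((m : ℝ) * m * (2 * Real.log m)) = c * (m ^ 2 * Real.log m) := by ring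
      _ ≤ _ := g1
  have g3 := hX ((m : ℝ) * m) (mulTime A (C₀ * mu m m + ρ)) (transTime B m m) ha
    (Nat.cast_nonneg _) g1' g2
  have hK : 0 < (|C| + 1) * (j + 1) := by positivity
  rw [div_mul_eq_mul_div, div_le_iff₀ hK]
  have hmm : (m : ℝ) ^ 2 * Real.log m ≤ m * m * Real.log (m * m) := by
    rw [hsq]
    nlinarith [mul_nonneg (mul_nonneg (by linarith : (0 : ℝ) ≤ m) (by linarith : (0 : ℝ) ≤ m))
      hlogm]
  calc c / 2 / 2 * ((m : ℝ) ^ 2 * Real.log m) ≤ c / 2 / 2 * (m * m * Real.log (m * m)) :=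
        mul_le_mul_of_nonneg_left hmm (by positivity)
    _ ≤ (|C| + 1) * (j + 1) * mulTime A (C₀ * mu m m + ρ) := g3
    _ = mulTime A (C₀ * mu m m + ρ) * ((|C| + 1) * (j + 1)) := by ring

theorem mulHard_of_squareHard {C₀ : ℕ} (hC₀ : 1 ≤ C₀) {A : MTM} (hI : IneqL C₀ A)
    (hS : SquareHard) (hA : Monotone (mulTime A)) : MulHard A := by
  obtain ⟨c, hc, N₁, hN₁⟩ := mul_sizes_of_squareHard hI hS
  have hC₀' : 0 < C₀ := by omega
  refine ⟨c / (16 * C₀) / 8, by positivity,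
    2 * C₀ * (N₁ + 2) ^ 2 + (16 * C₀) ^ 2 * 4 + 4, by omega, fun n hn => ?_⟩
  set q := n / (2 * C₀) with hq
  set m := Nat.sqrt q with hm
  have h1 : 2 * C₀ * q ≤ n := Nat.mul_div_le n (2 * C₀)
  have h1' : n < 2 * C₀ * (q + 1) := by
    have := Nat.div_add_mod n (2 * C₀)
    have h2 : n % (2 * C₀) < 2 * C₀ := Nat.mod_lt _ (by omega)
    rw [← hq] at this
    nlinarith
  have h2 : m * m ≤ q := Nat.sqrt_le q
  have h3 : q < (m + 1) * (m + 1) := Nat.lt_succ_sqrt q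
  have hqN : (N₁ + 2) ^ 2 ≤ q := by
    rw [hq, Nat.le_div_iff_mul_le (by omega)]
    nlinarith
  have hmN : N₁ + 2 ≤ m := by
    rw [hm, Nat.le_sqrt]
    nlinarith
  have hmono : mulTime A (C₀ * mu m m + 0) ≤ mulTime A n := by
    apply hA
    have := mu_self_le m
    calc C₀ * mu m m + 0 ≤ C₀ * (2 * m ^ 2) := by
          simpa using Nat.mul_le_mul_left C₀ this
      _ = 2 * C₀ * (m * m) := by ring
      _ ≤ 2 * C₀ * q := Nat.mul_le_mul_left _ h2
      _ ≤ n := h1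
  have g1 := hN₁ 0 hC₀' m (by omega)
  have g2 : c * ((m : ℝ) ^ 2 * Real.log m) ≤ mulTime A n :=
    g1.trans (by exact_mod_cast hmono)
  have hnm : (n : ℝ) ≤ 16 * C₀ * (m : ℝ) ^ 2 := by
    have : n ≤ 16 * C₀ * m ^ 2 := by
      have e1 : q + 1 ≤ (m + 1) * (m + 1) := h3
      have e2 : (m + 1) * (m + 1) ≤ 4 * m ^ 2 := by nlinarith
      calc n ≤ 2 * C₀ * (q + 1) := h1'.le
        _ ≤ 2 * C₀ * (4 * m ^ 2) := Nat.mul_le_mul_left _ (e1.trans e2)
        _ ≤ 16 * C₀ * m ^ 2 := by nlinarith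
    exact_mod_cast this
  have hmR : (2 : ℝ) ≤ m := by
    have : 2 ≤ m := by omega
    exact_mod_cast this
  have hnpos : (0 : ℝ) < n := by
    have : 0 < n := by omega
    exact_mod_cast this
  have hC₀R : (1 : ℝ) ≤ C₀ := by exact_mod_cast hC₀
  have hlog : Real.log n ≤ 8 * Real.log m := by
    have e1 : ((16 * C₀ : ℕ) : ℝ) ^ 2 ≤ n := by
      exact_mod_cast (by omega : (16 * C₀) ^ 2 ≤ n)
    push_cast at e1
    have e2 : (n : ℝ) ^ 2 ≤ (16 * C₀ * (m : ℝ) ^ 2) ^ 2 := pow_le_pow_left₀ hnpos.le hnm 2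
    have e3 : (16 * (C₀ : ℝ) * (m : ℝ) ^ 2) ^ 2 = (16 * C₀) ^ 2 * (m : ℝ) ^ 4 := by ring
    have e4 : (16 * (C₀ : ℝ)) ^ 2 * (m : ℝ) ^ 4 ≤ n * (m : ℝ) ^ 4 :=
      mul_le_mul_of_nonneg_right e1 (by positivity)
    have e5 : (n : ℝ) * n ≤ n * (m : ℝ) ^ 4 := by nlinarith
    have e6 : (n : ℝ) ≤ (m : ℝ) ^ 4 := le_of_mul_le_mul_left e5 hnpos
    have e7 := Real.log_le_log hnpos e6
    rw [Real.log_pow] at e7
    push_cast at e7
    have : 0 ≤ Real.log m := Real.log_nonneg (by linarith)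
    linarith
  have hlogn : 0 ≤ Real.log n := Real.log_nonneg (by
    have : 1 ≤ n := by omega
    exact_mod_cast this)
  have hfin : (n : ℝ) * Real.log n ≤ 16 * C₀ * 8 * ((m : ℝ) ^ 2 * Real.log m) := by
    calc (n : ℝ) * Real.log n ≤ (16 * C₀ * (m : ℝ) ^ 2) * (8 * Real.log m) :=
          mul_le_mul hnm hlog hlogn (by positivity)
      _ = _ := by ring
  calc c / (16 * C₀) / 8 * ((n : ℝ) * Real.log n)
      ≤ c / (16 * C₀) / 8 * (16 * C₀ * 8 * ((m : ℝ) ^ 2 * Real.log m)) :=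
        mul_le_mul_of_nonneg_left hfin (by positivity)
    _ = c * ((m : ℝ) ^ 2 * Real.log m) := by field_simp
    _ ≤ mulTime A n := g2

theorem trans_littleO_of_mul_littleO {C₀ : ℕ} (hC₀ : 1 ≤ C₀) {A : MTM} (hI : IneqL C₀ A)
    (hA : (fun n : ℕ => (mulTime A n : ℝ)) =o[atTop] fun n : ℕ => (n : ℝ) * Real.log n) :
    ∃ B : MTM, Transposes B ∧
      (fun m : ℕ => (transTime B m m : ℝ)) =o[atTop] fun m : ℕ => (m : ℝ) ^ 2 * Real.log m := by
  obtain ⟨B, hB, C, hBC⟩ := hI 0 (by omega)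
  refine ⟨B, hB, ?_⟩
  rw [isLittleO_iff]
  intro ε hε
  have hC₀R : (1 : ℝ) ≤ C₀ := by exact_mod_cast hC₀
  -- choose `j`
  obtain ⟨j, hj⟩ : ∃ j : ℕ, (|C| + 1) * 2 / 2 ^ j ≤ ε / 3 := by
    obtain ⟨j, hj⟩ := pow_unbounded_of_one_lt ((|C| + 1) * 2 / (ε / 3)) (one_lt_two)
    refine ⟨j, ?_⟩
    rw [div_le_iff₀ (by positivity)]
    rw [div_lt_iff₀ (by positivity)] at hj
    linarith
  obtain ⟨X, hX⟩ := eventually_loglog (ε / (6 * (|C| + 1))) (by positivity)
  set δ : ℝ := ε / 3 / ((|C| + 1) * (j + 1) * (2 * C₀ * 4)) with hδ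
  have hδpos : 0 < δ := by positivity
  have hA' := hA.def hδpos
  obtain ⟨N₁, hN₁⟩ := eventually_atTop.1 hA'
  rw [eventually_atTop]
  refine ⟨2 * N₁ + ⌈X⌉₊ + 2 * C₀ + 2, fun m hm => ?_⟩
  have hm2 : 2 ≤ m := by omega
  have hmR : (2 : ℝ) ≤ m := by exact_mod_cast hm2
  have hlogm : 0 ≤ Real.log m := Real.log_nonneg (by linarith)
  have hsq : Real.log ((m : ℝ) * m) = 2 * Real.log m := by
    rw [← pow_two, Real.log_pow]
    push_cast
    ring
  have g2 := hBC m m (by omega) (by omega) (by omega) (by omega) j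
  set n := C₀ * mu m m + 0 with hn
  have hnle : n ≤ 2 * C₀ * m ^ 2 := by
    have := mu_self_le m
    calc n = C₀ * mu m m := by simp [hn]
      _ ≤ C₀ * (2 * m ^ 2) := Nat.mul_le_mul_left _ this
      _ = _ := by ring
  have hnge : N₁ ≤ n := by
    have := le_mu_self m
    have h1 : mu m m ≤ n := by
      rw [hn]
      nlinarith
    nlinarith
  have hn1 : 1 ≤ n := by
    have := le_mu_self m
    have h1 : mu m m ≤ n := by
      rw [hn]
      nlinarith
    nlinarith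
  have g4 := hN₁ n hnge
  have hlogn : 0 ≤ Real.log n := Real.log_nonneg (by exact_mod_cast hn1)
  rw [Real.norm_eq_abs, Real.norm_eq_abs, abs_of_nonneg (Nat.cast_nonneg _),
    abs_of_nonneg (by positivity)] at g4
  have hlog : Real.log n ≤ 4 * Real.log m := by
    have e1 : n ≤ m ^ 4 := by
      have h1 : 2 * C₀ ≤ m := by omega
      have h2 : m ≤ m ^ 2 := by nlinarith
      calc n ≤ 2 * C₀ * m ^ 2 := hnle
        _ ≤ m ^ 2 * m ^ 2 := Nat.mul_le_mul_right _ (h1.trans h2)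
        _ = m ^ 4 := by ring
    have e2 : (n : ℝ) ≤ (m : ℝ) ^ 4 := by exact_mod_cast e1
    have e3 := Real.log_le_log (by exact_mod_cast hn1) e2
    rw [Real.log_pow] at e3
    push_cast at e3
    exact e3
  have hT : (mulTime A n : ℝ) ≤ δ * (2 * C₀ * 4) * ((m : ℝ) ^ 2 * Real.log m) := by
    refine g4.trans ?_
    have e1 : (n : ℝ) ≤ 2 * C₀ * (m : ℝ) ^ 2 := by exact_mod_cast hnle
    have e2 : (n : ℝ) * Real.log n ≤ (2 * C₀ * (m : ℝ) ^ 2) * (4 * Real.log m) :=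
      mul_le_mul e1 hlog hlogn (by positivity)
    calc δ * ((n : ℝ) * Real.log n) ≤ δ * ((2 * C₀ * (m : ℝ) ^ 2) * (4 * Real.log m)) :=
          mul_le_mul_of_nonneg_left e2 hδpos.le
      _ = _ := by ring
  have ha : X ≤ (m : ℝ) * m := by
    have e1 : X ≤ ⌈X⌉₊ := Nat.le_ceil X
    have e2 : (⌈X⌉₊ : ℝ) ≤ m := by
      exact_mod_cast (by omega : ⌈X⌉₊ ≤ m)
    nlinarith
  have h1 := hX ((m : ℝ) * m) ha
  have hmm1 : (1 : ℝ) ≤ (m : ℝ) * m := by nlinarith
  have hll : 0 ≤ Real.log (Real.log ((m : ℝ) * m) + 2) := by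
    apply Real.log_nonneg
    have := Real.log_nonneg hmm1
    linarith
  have hnn : 0 ≤ ((j : ℝ) + 1) * mulTime A n + (m * m * Real.log (m * m)) / 2 ^ j +
      m * m * Real.log (Real.log (m * m) + 2) := by
    have := Real.log_nonneg hmm1
    positivity
  have h3 : (transTime B m m : ℝ) ≤ (|C| + 1) * ((j + 1) * mulTime A n +
      (m * m * Real.log (m * m)) / 2 ^ j + m * m * Real.log (Real.log (m * m) + 2)) := by
    refine g2.trans (mul_le_mul_of_nonneg_right ?_ hnn)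
    have := le_abs_self C
    linarith
  rw [Real.norm_eq_abs, Real.norm_eq_abs, abs_of_nonneg (Nat.cast_nonneg _),
    abs_of_nonneg (by positivity)]
  refine h3.trans ?_
  set Y := (m : ℝ) ^ 2 * Real.log m with hY
  have hYnn : 0 ≤ Y := by positivity
  have p1 : (|C| + 1) * ((j + 1) * mulTime A n) ≤ ε / 3 * Y := by
    calc (|C| + 1) * ((j + 1) * (mulTime A n : ℝ)) ≤
          (|C| + 1) * ((j + 1) * (δ * (2 * C₀ * 4) * Y)) := by
          apply mul_le_mul_of_nonneg_left _ (by positivity)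
          apply mul_le_mul_of_nonneg_left hT (by positivity)
      _ = ε / 3 * Y := by
          rw [hδ]
          field_simp
  have p2 : (|C| + 1) * ((m * m * Real.log (m * m)) / 2 ^ j) ≤ ε / 3 * Y := by
    calc (|C| + 1) * (((m : ℝ) * m * Real.log (m * m)) / 2 ^ j) =
          (|C| + 1) * 2 / 2 ^ j * Y := by
          rw [hsq, hY]
          ring
      _ ≤ ε / 3 * Y := mul_le_mul_of_nonneg_right hj hYnn
  have p3 : (|C| + 1) * (m * m * Real.log (Real.log (m * m) + 2)) ≤ ε / 3 * Y := by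
    calc (|C| + 1) * ((m : ℝ) * m * Real.log (Real.log (m * m) + 2)) ≤
          (|C| + 1) * (m * m * (ε / (6 * (|C| + 1)) * Real.log (m * m))) := by
          apply mul_le_mul_of_nonneg_left _ (by positivity)
          apply mul_le_mul_of_nonneg_left h1 (by positivity)
      _ = ε / 3 * Y := by
          rw [hsq, hY]
          field_simp
          ring
  calc (|C| + 1) * (((j : ℝ) + 1) * mulTime A n + (m * m * Real.log (m * m)) / 2 ^ j +
        m * m * Real.log (Real.log (m * m) + 2)) =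
        (|C| + 1) * ((j + 1) * mulTime A n) +
        (|C| + 1) * ((m * m * Real.log (m * m)) / 2 ^ j) +
        (|C| + 1) * (m * m * Real.log (Real.log (m * m) + 2)) := by ring
    _ ≤ ε / 3 * Y + ε / 3 * Y + ε / 3 * Y := by linarith
    _ = ε * Y := by ring

end Vale.Agent.P338.R2.H898
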