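import Vale.Agent.P338.R2.H898.Eval
import Vale.Agent.P338.R2.H525.Spec

/-!
The middle pass.
-/

namespace Vale.Agent.P338.R2.H898

open H806 H806.LP
open H525 (Dim)

/-- The files of the middle pass. -/
inductive MF
  | inp | out | rK | rP | rG | rC | rX | rT | rW
  deriving DecidableEq

instance : Fintype MF := ⟨{.inp, .out, .rK, .rP, .rG, .rC, .rX, .rT, .rW}, by
  intro x
  cases x <;> simp⟩

namespace Mid

variable {α : Type}

/-- The lengths of the rulers. -/
def mv (D : Dim) : MF → ℕ
  | .inp => 0
  | .out => 0
  | .rK => D.K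
  | .rP => D.P
  | .rG => D.G
  | .rC => 2 * D.P
  | .rX => 2 * D.P
  | .rT => D.tau
  | .rW => D.W

/-- One slot. -/
def slot (z : α) : LP MF α :=
  seq (forCo .rX (loop .rT (seq skip (inc .rW)))) (seq (loop .rW copy)
    (forCo .rX (loop .rT (emit z))))

/-- One row. -/
def row (z : α) : LP MF α :=
  loop .rG (loop .rC (seq (slot z) (forCo .rP (seq (inc .rX) (inc .rX)))))

/-- The rows to be processed. -/
def rows (z : α) : LP MF α :=
  loop .rP (seq (row z) (seq (forReg .rP (seq (seq (inc .rX) (inc .rX))
    (seq (inc .rX) (inc .rX)))) (seq (inc .rX) (inc .rX))))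

/-- Skip `P R` slots. -/
def skipPR : LP MF α := loop .rP (loop .rG (loop .rC (loop .rW skip)))

/-- Skip `P (R + 1)` slots. -/
def skipPR1 : LP MF α := loop .rP (seq (loop .rG (loop .rC (loop .rW skip))) (loop .rW skip))

/-- Emit `P R` zero slots. -/
def zeroPR (z : α) : LP MF α := loop .rP (loop .rG (loop .rC (loop .rW (emit z))))

/-- Emit `P (R + 1)` zero slots. -/
def zeroPR1 (z : α) : LP MF α :=
  loop .rP (seq (loop .rG (loop .rC (loop .rW (emit z)))) (loop .rW (emit z)))

/-- The middle pass. -/
def prog (z : α) : LP MF α :=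
  seq (loop .rW skip) (loop .rK (seq skipPR (seq (rows z) (seq skipPR1
    (seq (zeroPR1 z) (seq (zeroPR z) (zeroPR z)))))))

variable {D : Dim} {w : List α} {e z : α}

theorem eval_skipT (s : PS MF α) (hT : s.v .rT = 0) (hW : s.v .rW + D.tau < D.W) :
    eval (mv D) w e (loop .rT (seq skip (inc .rW))) s =
      ⟨Function.update s.v .rW (s.v .rW + D.tau), s.p + D.tau, s.o⟩ := by
  have := eval_loop (m := mv D) (w := w) (e := e) (r := .rT) (a := seq skip (inc .rW)) (s := s)
    (fun i => ⟨Function.update s.v .rW (s.v .rW + i), s.p + i, s.o⟩) (by simp)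
    (fun i => by simpa using hT) (by
      intro i hi
      have hi' : i < D.tau := hi
      simp only [eval_seq, eval_inc, eval, PS.set, mv]
      have : (Function.update (Function.update s.v MF.rW (s.v MF.rW + i)) MF.rT i) MF.rW =
        s.v .rW + i := by simp
      rw [this, Nat.mod_eq_of_lt (by omega)]
      congr 1
      funext f
      cases f <;> simp [Nat.add_assoc])
  exact this

theorem eval_slot (s : PS MF α) (hT : s.v .rT = 0) (hW : s.v .rW = 0)
    (hX : D.tau * (2 * D.P - s.v .rX) < D.W) (hp : s.p + D.W ≤ w.length) :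
    eval (mv D) w e (slot z) s = ⟨s.v, s.p + D.W, s.o ++
      (((w.drop s.p).take D.W).drop (D.tau * (2 * D.P - s.v .rX)) ++
        List.replicate (D.tau * (2 * D.P - s.v .rX)) z)⟩ := by
  have hmX : mv D .rX = 2 * D.P := rfl
  have h1 := eval_forCo (m := mv D) (w := w) (e := e) (r := .rX)
    (a := loop .rT (seq skip (inc .rW))) (s := s)
    (fun i => ⟨Function.update s.v .rW (D.tau * i), s.p + D.tau * i, s.o⟩) (by
      have : Function.update s.v MF.rW (D.tau * 0) = s.v := by
        rw [Nat.mul_zero, ← hW, Function.update_eq_self]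
      rw [this]
      simp) (by
      intro i hi
      rw [hmX] at hi
      have hlt : D.tau * i + D.tau < D.W := by
        calc D.tau * i + D.tau = D.tau * (i + 1) := by ring
          _ ≤ D.tau * (2 * D.P - s.v .rX) := Nat.mul_le_mul_left _ hi
          _ < D.W := hX
      rw [eval_skipT]
      · simp only [Function.update_self, Function.update_idem, PS.mk.injEq, and_true]
        constructor
        · congr 1
        · ring
      · simpa using hT
      · simpa using hlt)
  rw [hmX] at h1
  simp only [slot, eval_seq]
  rw [h1, eval_loop_copy]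
  · -- the zeros
    simp only [Function.update_self, Function.update_idem]
    have hv : Function.update s.v MF.rW 0 = s.v := by
      rw [← hW, Function.update_eq_self]
    rw [hv]
    have hmW : mv D .rW = D.W := rfl
    rw [hmW]
    set E := D.tau * (2 * D.P - s.v .rX) with hE
    have h2 := eval_forCo (m := mv D) (w := w) (e := e) (r := .rX)
      (a := loop .rT (emit z)) (s := ⟨s.v, s.p + E + (D.W - E),
        s.o ++ (w.drop (s.p + E)).take (D.W - E)⟩)
      (fun i => ⟨s.v, s.p + E + (D.W - E),
        s.o ++ (w.drop (s.p + E)).take (D.W - E) ++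
          List.replicate (D.tau * i) z⟩) (by simp) (by
        intro i hi
        have h3 : Act (mv D) w e (loop MF.rT (emit z)) (insert .rT ∅) 0
            (List.replicate (D.tau * 1) z) := Act.loopEmit (by simp) (Act.emit z)
        rw [h3 _ (by simpa using hT)]
        simp only [Nat.add_zero, List.append_assoc, ← List.replicate_add, Nat.mul_one,
          Nat.mul_add])
    rw [h2]
    simp only [PS.mk.injEq, true_and]
    refine ⟨by omega, ?_⟩
    rw [List.drop_take, List.drop_drop, List.append_assoc]
    rfl
  · simp only [Function.update_self]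
    have : mv D .rW = D.W := rfl
    rw [this]
    omega

/-- The value of the exponent register. -/
def F (D : Dim) (q c : ℕ) : ℕ := (2 * q * (q + (2 * D.P * c - c))) % (2 * D.P)

theorem P_pos (D : Dim) : 0 < D.P := by
  unfold Dim.P
  positivity

theorem F_lt (D : Dim) (q c : ℕ) : F D q c < 2 * D.P := Nat.mod_lt _ (by
  have := P_pos D
  omega)

theorem q_le (D : Dim) (q : ℕ) : q ≤ 2 * D.P * q := by
  have := P_pos D
  nlinarith

theorem F_succ (D : Dim) (q c : ℕ) (hq : q ≤ D.P) :
    (F D q c + 2 * (D.P - q)) % (2 * D.P) = F D q (c + 1) := by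
  unfold F
  rw [Nat.mod_add_mod]
  have h := q_le D c
  have h' := q_le D (c + 1)
  have : (2 * q * (q + (2 * D.P * c - c)) + 2 * (D.P - q)) ≡
      (2 * q * (q + (2 * D.P * (c + 1) - (c + 1)))) [MOD 2 * D.P] := by
    rw [← Int.natCast_modEq_iff]
    push_cast [Nat.cast_sub hq, Nat.cast_sub h, Nat.cast_sub h']
    rw [Int.modEq_iff_dvd]
    exact ⟨2 * q - 1, by ring⟩
  exact this

theorem F_period (D : Dim) (q : ℕ) : F D q (2 * D.P) = F D q 0 := by
  unfold F
  have : 2 * q * (q + (2 * D.P * (2 * D.P) - 2 * D.P)) = 2 * q * (q + (2 * D.P * 0 - 0)) +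
      (2 * D.P) * (2 * q * (2 * D.P - 1)) := by
    have h1 : 2 * D.P * (2 * D.P) - 2 * D.P = 2 * D.P * (2 * D.P - 1) := by
      rw [Nat.mul_sub, Nat.mul_one]
    rw [h1]
    simp only [Nat.mul_zero, Nat.sub_zero, Nat.add_zero]
    ring
  rw [this, Nat.add_mul_mod_self_left]

theorem F_next (D : Dim) (q : ℕ) :
    ((F D q 0 + 4 * q) % (2 * D.P) + 2) % (2 * D.P) = F D (q + 1) 0 := by
  unfold F
  rw [Nat.mod_add_mod, Nat.add_assoc, Nat.mod_add_mod]
  congr 1
  simp only [Nat.mul_zero, Nat.sub_zero, Nat.add_zero]
  ring

theorem F_zero (D : Dim) : F D 0 0 = 0 := by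
  unfold F
  simp

theorem F_P (D : Dim) : F D D.P 0 = 0 := by
  unfold F
  simp only [Nat.mul_zero, Nat.sub_zero, Nat.add_zero]
  rw [Nat.mul_mod_right]

/-- A slot of a list. -/
def slotA (W : ℕ) (x : List α) (t : ℕ) : List α := (x.drop (t * W)).take W

/-- The output for one slot. -/
def oslot (D : Dim) (w : List α) (z : α) (k q g c : ℕ) : List α :=
  (slotA D.W w (1 + D.pos1 k (D.P + q) g c)).drop (D.eMid q c) ++
    List.replicate (D.eMid q c) z

/-- One column loop. -/
theorem eval_cols (hTW : D.tau * (2 * D.P) < D.W) (k q g : ℕ) (hq : q ≤ D.P) (s : PS MF α)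
    (hC : s.v .rC = 0) (hT : s.v .rT = 0) (hW : s.v .rW = 0) (hP : s.v .rP = q)
    (hX : s.v .rX = F D q 0) (hp : s.p = (1 + D.pos1 k (D.P + q) g 0) * D.W)
    (hl : s.p + 2 * D.P * D.W ≤ w.length) :
    eval (mv D) w e (loop .rC (seq (slot z) (forCo .rP (seq (inc .rX) (inc .rX))))) s =
      ⟨s.v, s.p + 2 * D.P * D.W,
        s.o ++ (List.range (2 * D.P)).flatMap fun c => oslot D w z k q g c⟩ := by
  have := eval_loop (m := mv D) (w := w) (e := e) (r := .rC)
    (a := seq (slot z) (forCo .rP (seq (inc .rX) (inc .rX)))) (s := s)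
    (fun i => ⟨Function.update s.v .rX (F D q i), s.p + i * D.W,
      s.o ++ (List.range i).flatMap fun c => oslot D w z k q g c⟩) (by
      have : Function.update s.v MF.rX (F D q 0) = s.v := by
        rw [← hX, Function.update_eq_self]
      rw [this]
      simp) (fun i => by simpa using hC) (by
      intro i hi
      have hi' : i < 2 * D.P := hi
      have hFi := F_lt D q i
      have hle : s.p + i * D.W + D.W ≤ w.length := by
        have : (i + 1) * D.W ≤ 2 * D.P * D.W := Nat.mul_le_mul_right _ hi'
        nlinarith
      rw [eval_seq, eval_slot]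
      · rw [eval_forCo_inc2 (by decide)]
        · have e1 : (Function.update (Function.update s.v MF.rX (F D q i)) MF.rC i) MF.rP =
            q := by simp [hP]
          have e2 : (Function.update (Function.update s.v MF.rX (F D q i)) MF.rC i) MF.rX =
            F D q i := by simp
          simp only [PS.set, e1, e2]
          have e3 : mv D .rX = 2 * D.P := rfl
          have e3' : mv D .rP = D.P := rfl
          rw [e3, e3', F_succ D q i hq]
          simp only [PS.mk.injEq]
          refine ⟨?_, by ring, ?_⟩
          · funext f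
            cases f <;> simp
          · rw [List.range_succ, List.flatMap_append, List.append_assoc]
            congr 2
            simp only [List.flatMap_cons, List.flatMap_nil, List.append_nil]
            unfold oslot slotA
            have e4 : D.eMid q i = D.tau * (2 * D.P - F D q i) := rfl
            have e5 : (1 + D.pos1 k (D.P + q) g i) * D.W = s.p + i * D.W := by
              rw [hp]
              unfold Dim.pos1
              ring
            rw [e4, e5]
        · simpa [mv, PS.set] using hFi
      · simpa [PS.set] using hT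
      · simpa [PS.set] using hW
      · have e2 : (Function.update (Function.update s.v MF.rX (F D q i)) MF.rC i) MF.rX =
            F D q i := by simp
        simp only [PS.set, e2]
        calc D.tau * (2 * D.P - F D q i) ≤ D.tau * (2 * D.P) :=
              Nat.mul_le_mul_left _ (Nat.sub_le _ _)
            _ < D.W := hTW
      · exact hle)
  rw [this]
  have e3 : mv D .rC = 2 * D.P := rfl
  rw [e3, F_period, ← hX, Function.update_eq_self]

/-- One row. -/
theorem eval_row (hTW : D.tau * (2 * D.P) < D.W) (k q : ℕ) (hq : q ≤ D.P) (s : PS MF α)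
    (hG : s.v .rG = 0) (hC : s.v .rC = 0) (hT : s.v .rT = 0) (hW : s.v .rW = 0)
    (hP : s.v .rP = q) (hX : s.v .rX = F D q 0)
    (hp : s.p = (1 + D.pos1 k (D.P + q) 0 0) * D.W) (hl : s.p + D.R * D.W ≤ w.length) :
    eval (mv D) w e (row z) s =
      ⟨s.v, s.p + D.R * D.W,
        s.o ++ (List.range D.G).flatMap fun g => (List.range (2 * D.P)).flatMap fun c =>
          oslot D w z k q g c⟩ := by
  have := eval_loop (m := mv D) (w := w) (e := e) (r := .rG)
    (a := loop .rC (seq (slot z) (forCo .rP (seq (inc .rX) (inc .rX))))) (s := s)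
    (fun i => ⟨s.v, s.p + i * (2 * D.P * D.W),
      s.o ++ (List.range i).flatMap fun g => (List.range (2 * D.P)).flatMap fun c =>
          oslot D w z k q g c⟩) (by simp) (fun i => hG) (by
      intro i hi
      have hi' : i < D.G := hi
      have hle : s.p + i * (2 * D.P * D.W) + 2 * D.P * D.W ≤ w.length := by
        have : (i + 1) * (2 * D.P * D.W) ≤ D.G * (2 * D.P * D.W) := Nat.mul_le_mul_right _ hi'
        have h2 : D.R * D.W = D.G * (2 * D.P * D.W) := by
          unfold Dim.R
          ring
        nlinarith
      rw [eval_cols hTW k q i hq]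
      · simp only [PS.set, PS.mk.injEq, true_and]
        refine ⟨by ring, ?_⟩
        rw [List.range_succ, List.flatMap_append]
        simp
      · simpa [PS.set] using hC
      · simpa [PS.set] using hT
      · simpa [PS.set] using hW
      · simpa [PS.set] using hP
      · simpa [PS.set] using hX
      · simp only [PS.set]
        rw [hp]
        unfold Dim.pos1
        ring
      · exact hle)
  unfold row
  rw [this]
  have e3 : mv D .rG = D.G := rfl
  rw [e3]
  simp only [PS.mk.injEq, true_and, and_true]
  unfold Dim.R
  ring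

/-- The rows. -/
theorem eval_rows (hTW : D.tau * (2 * D.P) < D.W) (k : ℕ) (s : PS MF α)
    (hP : s.v .rP = 0) (hG : s.v .rG = 0) (hC : s.v .rC = 0) (hT : s.v .rT = 0)
    (hW : s.v .rW = 0) (hX : s.v .rX = 0)
    (hp : s.p = (1 + D.pos1 k D.P 0 0) * D.W) (hl : s.p + D.P * D.R * D.W ≤ w.length) :
    eval (mv D) w e (rows z) s =
      ⟨s.v, s.p + D.P * D.R * D.W,
        s.o ++ (List.range D.P).flatMap fun q => (List.range D.G).flatMap fun g =>
          (List.range (2 * D.P)).flatMap fun c => oslot D w z k q g c⟩ := by
  have := eval_loop (m := mv D) (w := w) (e := e) (r := .rP)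
    (a := seq (row z) (seq (forReg .rP (seq (seq (inc .rX) (inc .rX))
    (seq (inc .rX) (inc .rX)))) (seq (inc .rX) (inc .rX)))) (s := s)
    (fun i => ⟨Function.update s.v .rX (F D i 0), s.p + i * (D.R * D.W),
      s.o ++ (List.range i).flatMap fun q => (List.range D.G).flatMap fun g =>
          (List.range (2 * D.P)).flatMap fun c => oslot D w z k q g c⟩) (by
      have : Function.update s.v MF.rX (F D 0 0) = s.v := by
        rw [F_zero, ← hX, Function.update_eq_self]
      rw [this]
      simp) (fun i => by simpa using hP) (by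
      intro i hi
      have hi' : i < D.P := hi
      have hle : s.p + i * (D.R * D.W) + D.R * D.W ≤ w.length := by
        have : (i + 1) * (D.R * D.W) ≤ D.P * (D.R * D.W) := Nat.mul_le_mul_right _ hi'
        nlinarith
      have e3 : mv D .rX = 2 * D.P := rfl
      rw [eval_seq, eval_row hTW k i hi'.le]
      · rw [eval_seq, eval_forReg_add 4 (eval_inc4 MF.rX), eval_inc2]
        · have e5 : (Function.update (Function.update s.v MF.rX (F D i 0))
            MF.rP i) MF.rP = i := by simp
          have e6 : (Function.update (Function.update s.v MF.rX (F D i 0))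
            MF.rP i) MF.rX = F D i 0 := by simp
          simp only [PS.set, Function.update_self, Function.update_idem, e5, e6, e3]
          rw [F_next]
          simp only [PS.mk.injEq]
          refine ⟨?_, by ring, ?_⟩
          · funext f
            cases f <;> simp
          · rw [List.range_succ, List.flatMap_append]
            simp
        · simp only [PS.set]
          simpa [mv] using F_lt D i 0
      · simpa [PS.set] using hG
      · simpa [PS.set] using hC
      · simpa [PS.set] using hT
      · simpa [PS.set] using hW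
      · simp [PS.set]
      · simp [PS.set]
      · simp only [PS.set]
        rw [hp]
        unfold Dim.pos1
        ring
      · exact hle)
  unfold rows
  rw [this]
  have e4 : mv D .rP = D.P := rfl
  rw [e4, F_P]
  simp only [PS.mk.injEq, and_true]
  refine ⟨?_, by ring⟩
  rw [← hX, Function.update_eq_self]

theorem act_skipPR : Act (mv D) w e (skipPR : LP MF α) {.rP, .rG, .rC, .rW} (D.P * D.R * D.W)
    [] := by
  have h := Act.loopSkip (m := mv D) (w := w) (e := e) (r := .rW) (by simp)
    (Act.skip (F := MF) (α := α))
  have h2 := Act.loopSkip (r := .rC) (by simp) h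
  have h3 := Act.loopSkip (r := .rG) (by simp) h2
  have h4 := Act.loopSkip (r := .rP) (by simp) h3
  refine h4.weaken ?_ ?_ rfl
  · intro r hr
    simpa using hr
  · simp only [mv]
    unfold Dim.R
    ring

theorem act_skipPR1 : Act (mv D) w e (skipPR1 : LP MF α) {.rP, .rG, .rC, .rW}
    (D.P * (D.R + 1) * D.W) [] := by
  have h := Act.loopSkip (m := mv D) (w := w) (e := e) (r := .rW) (by simp)
    (Act.skip (F := MF) (α := α))
  have h2 := Act.loopSkip (r := .rC) (by simp) h
  have h3 := Act.loopSkip (r := .rG) (by simp) h2
  have h4 := Act.seq h3 h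
  have h5 := Act.loopSkip (r := .rP) (by simp) h4
  refine h5.weaken ?_ ?_ rfl
  · intro r hr
    simp at hr ⊢
    tauto
  · simp only [mv]
    unfold Dim.R
    ring

theorem act_zeroPR : Act (mv D) w e (zeroPR z : LP MF α) {.rP, .rG, .rC, .rW} 0
    (List.replicate (D.P * D.R * D.W) z) := by
  have h : Act (mv D) w e (loop MF.rW (emit z)) (insert .rW ∅) 0
    (List.replicate (D.W * 1) z) := Act.loopEmit (by simp) (Act.emit z)
  have h2 := Act.loopEmit (r := .rC) (by simp) h
  have h3 := Act.loopEmit (r := .rG) (by simp) h2
  have h4 := Act.loopEmit (r := .rP) (by simp) h3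
  refine h4.weaken ?_ rfl ?_
  · intro r hr
    simpa using hr
  · congr 1
    simp only [mv]
    unfold Dim.R
    ring

theorem act_zeroPR1 : Act (mv D) w e (zeroPR1 z : LP MF α) {.rP, .rG, .rC, .rW} 0
    (List.replicate (D.P * (D.R + 1) * D.W) z) := by
  have h : Act (mv D) w e (loop MF.rW (emit z)) (insert .rW ∅) 0
    (List.replicate (D.W * 1) z) := Act.loopEmit (by simp) (Act.emit z)
  have h2 := Act.loopEmit (r := .rC) (by simp) h
  have h3 := Act.loopEmit (r := .rG) (by simp) h2
  have h4 := (Act.seq h3 h).weaken (subset_rfl) rfl (List.replicate_append_replicate)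
  have h5 := Act.loopEmit (r := .rP) (by simp) h4
  refine h5.weaken ?_ rfl ?_
  · intro r hr
    simp at hr ⊢
    tauto
  · congr 1
    simp only [mv]
    unfold Dim.R
    ring

/-- The output of the middle pass. -/
def out (D : Dim) (w : List α) (z : α) : List α :=
  (List.range D.K).flatMap fun k =>
    ((List.range D.P).flatMap fun q => (List.range D.G).flatMap fun g =>
      (List.range (2 * D.P)).flatMap fun c => oslot D w z k q g c)
      ++ List.replicate ((D.P * (D.R + 1) + 2 * D.P * D.R) * D.W) z

/-- Evaluation of the middle pass. -/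
theorem eval_prog (hTW : D.tau * (2 * D.P) < D.W) (s : PS MF α) (hv : ∀ f, s.v f = 0)
    (hp : s.p = 0) (hl : (1 + D.K * D.S1) * D.W ≤ w.length) :
    eval (mv D) w e (prog z) s = ⟨s.v, (1 + D.K * D.S1) * D.W, s.o ++ out D w z⟩ := by
  have h0 : eval (mv D) w e (loop MF.rW skip) s = ⟨s.v, D.W, s.o⟩ := by
    have h := Act.loopSkip (m := mv D) (w := w) (e := e) (r := .rW) (by simp)
      (Act.skip (F := MF) (α := α))
    rw [h s (fun r _ => hv r)]
    simp [hp, mv]
  unfold prog
  rw [eval_seq, h0]
  have := eval_loop (m := mv D) (w := w) (e := e) (r := .rK)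
    (a := seq skipPR (seq (rows z) (seq skipPR1
    (seq (zeroPR1 z) (seq (zeroPR z) (zeroPR z)))))) (s := ⟨s.v, D.W, s.o⟩)
    (fun k => ⟨s.v, (1 + k * D.S1) * D.W, s.o ++ (List.range k).flatMap fun k =>
    ((List.range D.P).flatMap fun q => (List.range D.G).flatMap fun g =>
      (List.range (2 * D.P)).flatMap fun c => oslot D w z k q g c)
      ++ List.replicate ((D.P * (D.R + 1) + 2 * D.P * D.R) * D.W) z⟩) (by simp)
    (fun _ => hv _) (by
      intro k hk
      have hk' : k < D.K := hk
      have hS : D.S1 * D.W = D.P * D.R * D.W + D.P * D.R * D.W + D.P * (D.R + 1) * D.W := by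
        unfold Dim.S1
        ring
      have hle : (1 + k * D.S1) * D.W + D.S1 * D.W ≤ w.length := by
        have h1 : (k + 1) * (D.S1 * D.W) ≤ D.K * (D.S1 * D.W) := Nat.mul_le_mul_right _ hk'
        nlinarith
      have hz : ∀ f, f ≠ MF.rK → (Function.update s.v MF.rK k) f = 0 := by
        intro f hf
        rw [Function.update_of_ne hf]
        exact hv f
      have hzz : ∀ r ∈ ({.rP, .rG, .rC, .rW} : Finset MF),
          (Function.update s.v MF.rK k) r = 0 := by
        intro r hr
        apply hz
        rintro rfl
        simp at hr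
      simp only [PS.set, eval_seq]
      rw [act_skipPR _ hzz]
      simp only [List.append_nil]
      rw [eval_rows hTW k]
      · rw [act_skipPR1 _ (by exact hzz), act_zeroPR1 _ (by exact hzz)]
        rw [act_zeroPR ⟨Function.update s.v MF.rK k, _, _⟩ hzz,
          act_zeroPR ⟨Function.update s.v MF.rK k, _, _⟩ hzz]
        simp only [PS.mk.injEq, true_and]
        refine ⟨?_, ?_⟩
        · have : (1 + (k + 1) * D.S1) * D.W = (1 + k * D.S1) * D.W + D.S1 * D.W := by ring
          omega
        · rw [List.range_succ, List.flatMap_append]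
          simp only [List.flatMap_cons, List.flatMap_nil, List.append_nil, List.append_assoc,
            List.replicate_append_replicate]
          congr 4
          ring
      · exact hz .rP (by decide)
      · exact hz .rG (by decide)
      · exact hz .rC (by decide)
      · exact hz .rT (by decide)
      · exact hz .rW (by decide)
      · exact hz .rX (by decide)
      · simp only
        unfold Dim.pos1
        ring
      · simp only
        omega)
  rw [this]
  rfl

end Mid

end Vale.Agent.P338.R2.H898
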