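import Vale.Agent.P338.R2.H898.Model

/-!
Structured programs on raw tapes, and their translation to Turing machines.
-/

namespace Vale.Agent.P338.R2.H898

/-- A raw tape: contents and head position. -/
structure RT (S : Type) where
  /-- contents -/
  c : ℕ → S
  /-- head position -/
  h : ℕ

/-- The symbol under the head. -/
def RT.read {S : Type} (t : RT S) : S := t.c t.h

/-- Write, then move. -/
def RT.app {S : Type} (t : RT S) (a : S × Move) : RT S :=
  ⟨Function.update t.c t.h a.1, a.2.app t.h⟩

/-- The store: finite memory and tapes. -/
structure RStore (M K S : Type) where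
  /-- memory -/
  m : M
  /-- tapes -/
  t : K → RT S

/-- The symbols under the heads. -/
def RStore.reads {M K S : Type} (s : RStore M K S) : K → S := fun i => (s.t i).read

/-- Structured programs on raw tapes. -/
inductive RProg (M K S : Type)
  | prim (g : M → (K → S) → M × (K → S × Move))
  | seq (p q : RProg M K S)
  | ite (c : M → (K → S) → Bool) (p q : RProg M K S)
  | loop (c : M → (K → S) → Bool) (p : RProg M K S)

namespace RProg

variable {M K S : Type}

/-- The effect of an action. -/
def appAct (s : RStore M K S) (x : M × (K → S × Move)) : RStore M K S :=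
  ⟨x.1, fun i => (s.t i).app (x.2 i)⟩

/-- The action that only rewrites the symbols under the heads. -/
def idle (m : M) (r : K → S) : M × (K → S × Move) := (m, fun i => (r i, .stay))

theorem appAct_idle (s : RStore M K S) : appAct s (idle s.m s.reads) = s := by
  rcases s with ⟨m, t⟩
  simp only [appAct, idle, RStore.reads, RStore.mk.injEq, true_and]
  funext i
  simp [RT.app, RT.read, Move.app]

/-- Big step semantics with the exact number of steps. -/
inductive Exec : RProg M K S → RStore M K S → ℕ → RStore M K S → Prop
  | prim (g : M → (K → S) → M × (K → S × Move)) (s : RStore M K S) :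
      Exec (.prim g) s 1 (appAct s (g s.m s.reads))
  | seq {p q : RProg M K S} {s s1 s2 : RStore M K S} {t t' : ℕ} :
      Exec p s t s1 → Exec q s1 t' s2 → Exec (.seq p q) s (t + t') s2
  | iteT {c : M → (K → S) → Bool} {p q : RProg M K S} {s s1 : RStore M K S} {t : ℕ} :
      c s.m s.reads = true → Exec p s t s1 → Exec (.ite c p q) s (1 + t) s1
  | iteF {c : M → (K → S) → Bool} {p q : RProg M K S} {s s1 : RStore M K S} {t : ℕ} :
      c s.m s.reads = false → Exec q s t s1 → Exec (.ite c p q) s (1 + t) s1
  | loopT {c : M → (K → S) → Bool} {p : RProg M K S} {s s1 s2 : RStore M K S} {t t' : ℕ} :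
      c s.m s.reads = true → Exec p s t s1 → Exec (.loop c p) s1 t' s2 →
        Exec (.loop c p) s (1 + t + t') s2
  | loopF {c : M → (K → S) → Bool} {p : RProg M K S} {s : RStore M K S} :
      c s.m s.reads = false → Exec (.loop c p) s 1 s

/-- The control points of a program. -/
def Lab : RProg M K S → Type
  | prim _ => Unit
  | seq p q => Lab p ⊕ Lab q
  | ite _ p q => Option (Lab p ⊕ Lab q)
  | loop _ p => Option (Lab p)

theorem finite_Lab : ∀ p : RProg M K S, Finite (Lab p)
  | prim _ => inferInstanceAs (Finite Unit)
  | seq p q => by
      have := finite_Lab p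
      have := finite_Lab q
      exact inferInstanceAs (Finite (Lab p ⊕ Lab q))
  | ite _ p q => by
      have := finite_Lab p
      have := finite_Lab q
      exact inferInstanceAs (Finite (Option (Lab p ⊕ Lab q)))
  | loop _ p => by
      have := finite_Lab p
      exact inferInstanceAs (Finite (Option (Lab p)))

/-- The entry point. -/
def entry : (p : RProg M K S) → Lab p
  | prim _ => ()
  | seq p _ => Sum.inl (entry p)
  | ite _ _ _ => none
  | loop _ _ => none

/-- The transition function: the next control point (`none` for the exit) and the action. -/
def trans : (p : RProg M K S) → Lab p → M → (K → S) → Option (Lab p) × M × (K → S × Move)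
  | prim g, _, m, r => (none, g m r)
  | seq p q, Sum.inl l, m, r =>
      match trans p l m r with
      | (some l', x) => (some (Sum.inl l'), x)
      | (none, x) => (some (Sum.inr (entry q)), x)
  | seq _ q, Sum.inr l, m, r =>
      match trans q l m r with
      | (some l', x) => (some (Sum.inr l'), x)
      | (none, x) => (none, x)
  | ite c p q, none, m, r =>
      (some (some (if c m r then Sum.inl (entry p) else Sum.inr (entry q))), idle m r)
  | ite _ p _, some (Sum.inl l), m, r =>
      match trans p l m r with
      | (some l', x) => (some (some (Sum.inl l')), x)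
      | (none, x) => (none, x)
  | ite _ _ q, some (Sum.inr l), m, r =>
      match trans q l m r with
      | (some l', x) => (some (some (Sum.inr l')), x)
      | (none, x) => (none, x)
  | loop c p, none, m, r =>
      (if c m r then some (some (entry p)) else none, idle m r)
  | loop _ p, some l, m, r =>
      match trans p l m r with
      | (some l', x) => (some (some l'), x)
      | (none, x) => (some none, x)

/-- From the control point `l` and the store `s`, the program exits after exactly `t` steps with
the store `s'`. -/
inductive Path (p : RProg M K S) : Lab p → RStore M K S → ℕ → RStore M K S → Prop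
  | exit {l : Lab p} {s : RStore M K S} {x : M × (K → S × Move)} :
      trans p l s.m s.reads = (none, x) → Path p l s 1 (appAct s x)
  | step {l l' : Lab p} {s s' : RStore M K S} {t : ℕ} {x : M × (K → S × Move)} :
      trans p l s.m s.reads = (some l', x) → Path p l' (appAct s x) t s' → Path p l s (t + 1) s'

theorem Path.seq_right {p q : RProg M K S} {l : Lab q} {s s' : RStore M K S} {t : ℕ}
    (h : Path q l s t s') : Path (seq p q) (Sum.inr l) s t s' := by
  induction h with
  | exit h => exact Path.exit (by simp only [trans]; rw [h])
  | step h _ ih => exact Path.step (by simp only [trans]; rw [h]) ih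

theorem Path.seq_left {p q : RProg M K S} {l : Lab p} {s s' s'' : RStore M K S} {t t' : ℕ}
    (h : Path p l s t s') (h' : Path q (entry q) s' t' s'') :
    Path (seq p q) (Sum.inl l) s (t + t') s'' := by
  induction h with
  | exit h =>
    rw [Nat.add_comm]
    exact Path.step (by simp only [trans]; rw [h]) (seq_right h')
  | @step _ _ _ _ t _ h _ ih =>
    have : t + 1 + t' = (t + t') + 1 := by omega
    rw [this]
    exact Path.step (by simp only [trans]; rw [h]) (ih h')

theorem Path.ite_left {c : M → (K → S) → Bool} {p q : RProg M K S} {l : Lab p}
    {s s' : RStore M K S} {t : ℕ} (h : Path p l s t s') :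
    Path (ite c p q) (some (Sum.inl l)) s t s' := by
  induction h with
  | exit h => exact Path.exit (by simp only [trans]; rw [h])
  | step h _ ih => exact Path.step (by simp only [trans]; rw [h]) ih

theorem Path.ite_right {c : M → (K → S) → Bool} {p q : RProg M K S} {l : Lab q}
    {s s' : RStore M K S} {t : ℕ} (h : Path q l s t s') :
    Path (ite c p q) (some (Sum.inr l)) s t s' := by
  induction h with
  | exit h => exact Path.exit (by simp only [trans]; rw [h])
  | step h _ ih => exact Path.step (by simp only [trans]; rw [h]) ih

theorem Path.loop_some {c : M → (K → S) → Bool} {p : RProg M K S} {l : Lab p}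
    {s s' s'' : RStore M K S} {t t' : ℕ} (h : Path p l s t s')
    (h' : Path (loop c p) none s' t' s'') :
    Path (loop c p) (some l) s (t + t') s'' := by
  induction h with
  | exit h =>
    rw [Nat.add_comm]
    exact Path.step (by simp only [trans]; rw [h]) h'
  | @step _ _ _ _ t _ h _ ih =>
    have : t + 1 + t' = (t + t') + 1 := by omega
    rw [this]
    exact Path.step (by simp only [trans]; rw [h]) (ih h')

theorem Exec.path {p : RProg M K S} {s s' : RStore M K S} {t : ℕ} (h : Exec p s t s') :
    Path p (entry p) s t s' := by
  induction h with
  | prim g s => exact Path.exit (by simp only [trans])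
  | seq _ _ ih1 ih2 => exact Path.seq_left ih1 ih2
  | @iteT c p q s s1 t hc _ ih =>
    rw [Nat.add_comm]
    refine Path.step (p := ite c p q) (l' := (some (Sum.inl (entry p)) : Option (Lab p ⊕ Lab q))) (x := idle s.m s.reads) ?_ ?_
    · simp only [trans, entry, hc, if_true]
    · rw [appAct_idle]
      exact ih.ite_left
  | @iteF c p q s s1 t hc _ ih =>
    rw [Nat.add_comm]
    refine Path.step (p := ite c p q) (l' := (some (Sum.inr (entry q)) : Option (Lab p ⊕ Lab q))) (x := idle s.m s.reads) ?_ ?_
    · simp [trans, entry, hc]
    · rw [appAct_idle]
      exact ih.ite_right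
  | @loopT c p s s1 s2 t t' hc _ _ ih1 ih2 =>
    have : 1 + t + t' = (t + t') + 1 := by omega
    rw [this]
    refine Path.step (p := loop c p) (l' := (some (entry p) : Option (Lab p))) (x := idle s.m s.reads) ?_ ?_
    · simp only [trans, entry, hc, if_true]
    · rw [appAct_idle]
      exact ih1.loop_some ih2
  | @loopF c p s hc =>
    have h : trans (loop c p) (entry (loop c p)) s.m s.reads = (none, idle s.m s.reads) := by
      simp [trans, entry, hc]
    have := Path.exit h
    rwa [appAct_idle] at this

end RProg

/-- A raw program together with the data of a Turing machine. -/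
structure RMachine where
  /-- memory -/
  M : Type
  /-- index set of the tapes -/
  K : Type
  /-- alphabet -/
  S : Type
  finM : Finite M
  finK : Finite K
  finS : Finite S
  /-- the blank symbol -/
  blank : S
  /-- the letters -/
  letter : Letter → S
  letter_inj : Function.Injective letter
  letter_ne_blank : ∀ a, letter a ≠ blank
  /-- input tape -/
  inp : K
  /-- output tape -/
  out : K
  /-- initial memory -/
  m0 : M
  /-- the program -/
  prog : RProg M K S

namespace RMachine

open RProg

/-- The Turing machine of a raw program. -/
def toMTM (R : RMachine) : MTM where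
  Sym := R.S
  Tape := R.K
  State := Option (Lab R.prog) × R.M
  finSym := R.finS
  finTape := R.finK
  finState := by
    have := R.finM
    have := finite_Lab R.prog
    infer_instance
  blank := R.blank
  letter := R.letter
  letter_inj := R.letter_inj
  letter_ne_blank := R.letter_ne_blank
  inp := R.inp
  out := R.out
  start := (some (entry R.prog), R.m0)
  step := fun q r =>
    match q with
    | (none, _) => none
    | (some l, m) =>
        match trans R.prog l m r with
        | (o, x) => some ((o, x.1), x.2)

/-- The configuration given by a control point and a store. -/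
def conf (R : RMachine) (o : Option (Lab R.prog)) (s : RStore R.M R.K R.S) : R.toMTM.Conf :=
  ⟨(o, s.m), fun i => (s.t i).c, fun i => (s.t i).h⟩

theorem halted_conf (R : RMachine) (s : RStore R.M R.K R.S) :
    R.toMTM.Halted (R.conf none s) := rfl

theorem not_halted_conf (R : RMachine) (l : Lab R.prog) (s : RStore R.M R.K R.S) :
    ¬ R.toMTM.Halted (R.conf (some l) s) := by
  unfold MTM.Halted MTM.act
  intro h
  change (match trans R.prog l s.m s.reads with
    | (o, x) => some ((o, x.1), x.2)) = none at h
  rcases h1 : trans R.prog l s.m s.reads with ⟨o, x⟩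
  rw [h1] at h
  simp at h

theorem next_conf (R : RMachine) (l : Lab R.prog) (s : RStore R.M R.K R.S)
    {o : Option (Lab R.prog)} {x : R.M × (R.K → R.S × Move)}
    (h : trans R.prog l s.m s.reads = (o, x)) :
    R.toMTM.next (R.conf (some l) s) = R.conf o (appAct s x) := by
  have h1 : R.toMTM.act (R.conf (some l) s) = some ((o, x.1), x.2) := by
    change (match trans R.prog l s.m s.reads with
      | (o, x) => some ((o, x.1), x.2)) = some ((o, x.1), x.2)
    rw [h]
  unfold MTM.next
  rw [h1]
  rfl

/-- The run of the machine along a path. -/
theorem run_path (R : RMachine) {l : Lab R.prog} {s s' : RStore R.M R.K R.S} {t : ℕ}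
    (h : Path R.prog l s t s') :
    (R.toMTM.next)^[t] (R.conf (some l) s) = R.conf none s' ∧
      ∀ t' < t, ¬ R.toMTM.Halted ((R.toMTM.next)^[t'] (R.conf (some l) s)) := by
  induction h with
  | @exit l s x h =>
    refine ⟨?_, fun t' ht' => ?_⟩
    · simp only [Function.iterate_one]
      exact R.next_conf l s h
    · have : t' = 0 := by omega
      subst this
      exact R.not_halted_conf l s
  | @step l l' s s' t x h _ ih =>
    refine ⟨?_, fun t' ht' => ?_⟩
    · rw [Function.iterate_succ_apply, R.next_conf l s h]
      exact ih.1
    · cases t' with
      | zero => exact R.not_halted_conf l s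
      | succ t' =>
        rw [Function.iterate_succ_apply, R.next_conf l s h]
        exact ih.2 t' (by omega)

open Classical in
/-- The initial store for the input word `w`. -/
noncomputable def initStore (R : RMachine) (w : List Letter) : RStore R.M R.K R.S :=
  ⟨R.m0, fun i => ⟨fun p => if i = R.inp then ((w[p]?).map R.letter).getD R.blank else R.blank, 0⟩⟩

theorem computes_of_exec (R : RMachine) {w v : List Letter} {t : ℕ} {s' : RStore R.M R.K R.S}
    (h : Exec R.prog (R.initStore w) t s')
    (hv : ∀ p, (s'.t R.out).c p = ((v[p]?).map R.letter).getD R.blank) :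
    R.toMTM.Computes w v ∧ R.toMTM.time w = t := by
  have h1 := R.run_path h.path
  have h0 : R.toMTM.init w = R.conf (some (entry R.prog)) (R.initStore w) := rfl
  rw [← h0] at h1
  have hh : R.toMTM.Halted (R.toMTM.conf w t) := by
    unfold MTM.conf
    rw [h1.1]
    exact R.halted_conf s'
  have ht : R.toMTM.time w = t := by
    unfold MTM.time
    apply le_antisymm
    · exact Nat.sInf_le hh
    · by_contra hlt
      push Not at hlt
      have := Nat.sInf_mem (s := {t | R.toMTM.Halted (R.toMTM.conf w t)}) ⟨t, hh⟩
      exact h1.2 _ hlt this
  refine ⟨⟨⟨t, hh⟩, fun p => ?_⟩, ht⟩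
  rw [ht]
  unfold MTM.conf
  rw [h1.1]
  exact hv p

end RMachine

end Vale.Agent.P338.R2.H898
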