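import Vale.Agent.P338.R2.H898.Rulers2
import Vale.Agent.P338.R2.H898.MidRun
import Vale.Agent.P338.R2.H806.GenRun
import Vale.Agent.P338.R2.H806.Pack
import Vale.Agent.P338.R2.H525.PostRun
import Vale.Agent.P338.R2.H525.RoundD
import Vale.Agent.P338.R2.H968.PadCall

/-!
One round.
-/

namespace Vale.Agent.P338.R2.H898

open H784 H806 H806.LP
open H525 (Dim midBits packBits genBits1 genBits2 postBits inputBits roundBits mulBits dimOf
  wordOf dBits)
open H968 (CFile CallEnv)
open H968.CallEnv (mem0 callC)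
open Function (update)

section upd

variable {M T α : Type} [DecidableEq T] {d u : α} {m : M} {v : RR → ℕ}
  {dat clk opX opY res x : Zip α}

theorem upd_dat : update (st (T := T) u m v dat clk opX opY res).z (.inr .dat) x =
    (st u m v x clk opX opY res).z := by
  funext f
  rcases f with i | (_ | _ | _ | _ | _ | _) <;> simp [st, Function.update]

theorem upd_clk : update (st (T := T) u m v dat clk opX opY res).z (.inr .clk) x =
    (st u m v dat x opX opY res).z := by
  funext f
  rcases f with i | (_ | _ | _ | _ | _ | _) <;> simp [st, Function.update]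

theorem upd_opX : update (st (T := T) u m v dat clk opX opY res).z (.inr .opX) x =
    (st u m v dat clk x opY res).z := by
  funext f
  rcases f with i | (_ | _ | _ | _ | _ | _) <;> simp [st, Function.update]

theorem upd_opY : update (st (T := T) u m v dat clk opX opY res).z (.inr .opY) x =
    (st u m v dat clk opX x res).z := by
  funext f
  rcases f with i | (_ | _ | _ | _ | _ | _) <;> simp [st, Function.update]

theorem upd_res : update (st (T := T) u m v dat clk opX opY res).z (.inr .res) x =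
    (st u m v dat clk opX opY x).z := by
  funext f
  rcases f with i | (_ | _ | _ | _ | _ | _) <;> simp [st, Function.update]

theorem upd_R (k : RR) (c : ℕ) : update (st (T := T) u m v dat clk opX opY res).z (R k)
    ⟨[], List.replicate c u⟩ = (st u m (update v k c) dat clk opX opY res).z := by
  funext f
  rcases f with i | (x | _ | _ | _ | _ | _)
  · simp [st, Function.update]
  · by_cases h : x = k
    · subst h
      simp [st]
    · rw [Function.update_of_ne (by simpa using h)]
      simp [st, Function.update_of_ne h]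
  all_goals simp [st, Function.update]

theorem st_R (k : RR) : (st (T := T) u m v dat clk opX opY res).z (R k) =
    ⟨[], List.replicate (v k) u⟩ := rfl

/-- Clear the data file. -/
theorem run_clr_dat : Prog.Run d (clr (.inr .dat)) (st (T := T) u m v dat clk opX opY res) 2
    (st u m v ⟨[], []⟩ clk opX opY res) := by
  have := run_clr (d := d) (.inr .dat) m (st (T := T) u m v dat clk opX opY res).z
  rw [upd_dat] at this
  exact this

/-- Clear the result file. -/
theorem run_clr_res : Prog.Run d (clr (.inr .res)) (st (T := T) u m v dat clk opX opY res) 2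
    (st u m v dat clk opX opY ⟨[], []⟩) := by
  have := run_clr (d := d) (.inr .res) m (st (T := T) u m v dat clk opX opY res).z
  rw [upd_res] at this
  exact this

end upd

section dims

/-- The lengths of the rulers in terms of the dimensions. -/
theorem half_sub (h : ℕ) : h - h / 2 = (h + 1) / 2 := by omega

variable {l h n : ℕ}

theorem vr_K : vr l h n .K = (dimOf l h (h / 2)).K := rfl

theorem vr_P : vr l h n .P = (dimOf l h (h / 2)).P := rfl

theorem vr_P' : vr l h n .P' = (dimOf l h (h / 2)).P := rfl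

theorem vr_G : vr l h n .G = (dimOf l h (h / 2)).G := by
  rw [H525.dimOf_G, half_sub]
  rfl

theorem vr_L : vr l h n .L = (dimOf l h (h / 2)).L := by
  rw [H525.dimOf_L, half_sub]
  rfl

theorem vr_L' : vr l h n .L' = (dimOf l h (h / 2)).L := by
  rw [H525.dimOf_L, half_sub]
  rfl

theorem vr_C1 : vr l h n .C1 = 2 * (dimOf l h (h / 2)).P := by
  rw [H525.dimOf_P]
  show 2 ^ (h / 2 + 1) = _
  rw [pow_succ]
  ring

theorem vr_C2 : vr l h n .C2 = 2 * (dimOf l h (h / 2)).P := vr_C1 (l := l) (n := n)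

theorem vr_C3 : vr l h n .C3 = 2 * (dimOf l h (h / 2)).P := vr_C1 (l := l) (n := n)

theorem vr_tau : vr l h n .tau = (dimOf l h (h / 2)).tau := by
  rw [H525.tau_eq _ (by show h / 2 ≤ h - h / 2; omega)]
  show 2 ^ ((h + 1) / 2 - h / 2 + 1) = 2 ^ (h - h / 2 + 1 - h / 2)
  congr 1
  omega

theorem vr_W : vr l h n .W = (dimOf l h (h / 2)).W := by
  show 2 ^ ((h + 1) / 2 + 6) = 64 * (dimOf l h (h / 2)).L
  rw [H525.dimOf_L, half_sub, pow_add]
  ring

theorem vr_s1 : vr l h n .s1 = (dimOf l h (h / 2)).s + 1 := rfl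

end dims

section passes

variable {M T α : Type} [DecidableEq T] [DecidableEq α] {d u mk : α} {m : M}
  {clk opX opY res : Zip α} {l h n : ℕ}

/-- The pack pass. -/
def packP (T : Type) [DecidableEq T] {M : Type} (u mk : α) (bit : Bool → α) :
    Prog M (T ⊕ RF) α :=
  passP (.inr .dat) (.inr .opX) u mk (bit false)
    (packLP (R .K) (R .P) (R .G) (R .P') (R .L) (bit false) (bit true))

/-- The dimensions of a round. -/
abbrev dm (l h : ℕ) : Dim := dimOf l h (h / 2)

theorem dm_size (hl : h ≤ l) : (dm l h).K * ((dm l h).P * ((dm l h).G * ((dm l h).P *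
    (dm l h).L))) = 4 ^ l := H525.dimOf_size l h (h / 2) (by omega) hl

theorem dm_G (h4 : 4 ≤ h) : 2 ≤ (dm l h).G := by
  rw [H525.dimOf_G]
  calc 2 = 2 ^ 1 * 1 := rfl
    _ ≤ 2 ^ (h - h / 2) * 2 ^ (l - h) := Nat.mul_le_mul
      (Nat.pow_le_pow_right (by norm_num) (by omega)) Nat.one_le_two_pow

theorem dm_K : 0 < (dm l h).K := by
  rw [H525.dimOf_K]
  positivity

theorem dm_s (l h : ℕ) : (dm l h).s ≤ (dm l h).h := by
  show h / 2 ≤ h - h / 2
  omega

theorem run_packP (hmk : u ≠ mk) (h4 : 4 ≤ h) (hl : h ≤ l) (bit : Bool → α)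
    (X : ℕ → ℕ → Bool) :
    Prog.Run d (packP T u mk bit)
      (st u m (vr l h n) ⟨[], (dBits l h X).map bit⟩ clk ⟨[], []⟩ opY res)
      (2000 * 4 ^ l + 2)
      (st u m (vr l h n) ⟨[], (dBits l h X).map bit⟩ clk
        ⟨[], (packBits (dm l h) (wordOf l h (h / 2) X)).map bit⟩ opY res) := by
  have hD := H525.dBits_eq_input l h (h / 2) (by omega) hl X
  have hrun := run_pack (M := M) (F := T ⊕ RF) (d := d) (dm l h) dm_K
    (by have := dm_G (l := l) h4; omega) (by show 1 ≤ h - h / 2; omega) (wordOf l h (h / 2) X)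
    (fun k _ x _ g _ y _ => H525.length_wordOf l h (h / 2) X k x g y) bit u mk (bit false) hmk
    (.inr .dat) (.inr .opX) (R .K) (R .P) (R .G) (R .P') (R .L) (by simp) m
    (st u m (vr l h n) ⟨[], (dBits l h X).map bit⟩ clk ⟨[], []⟩ opY res).z
    (by rw [← hD]; rfl) rfl
    ⟨_, rfl, by rw [List.length_replicate, vr_K]⟩
    ⟨_, rfl, by rw [List.length_replicate, vr_P]⟩
    ⟨_, rfl, by rw [List.length_replicate, vr_G]⟩
    ⟨_, rfl, by rw [List.length_replicate, vr_P']⟩
    ⟨_, rfl, by rw [List.length_replicate, vr_L]⟩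
  rw [dm_size hl, upd_opX] at hrun
  exact hrun

theorem genRulers (dat clk opX opY res : Zip α) :
    GenRulers (dm l h) u (st (T := T) u m (vr l h n) dat clk opX opY res).z (R .C1) (R .C2)
      (R .G) (R .C3) (R .L) (R .tau) where
  hD := by rw [st_R, vr_C1]
  hE := by rw [st_R, vr_C2]
  hG := ⟨_, rfl, by rw [List.length_replicate, vr_G]⟩
  hC := ⟨_, rfl, by rw [List.length_replicate, vr_C3]⟩
  hL := ⟨_, rfl, by rw [List.length_replicate, vr_L]⟩
  hT := ⟨_, rfl, by rw [List.length_replicate, vr_tau]⟩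

/-- The first generator. -/
def gen1P (T : Type) [DecidableEq T] {M : Type} (u mk : α) (bit : Bool → α) :
    Prog M (T ⊕ RF) α :=
  passP (.inr .dat) (.inr .opY) u mk (bit false)
    (genLP (R .C1) (R .C2) (R .G) (R .C3) (R .L) (bit false)
      (gslot1 (R .L) (R .tau) (R .C2) (bit false) (bit true)))

theorem gen_size (hl : h ≤ l) :
    2 * (dm l h).P * ((dm l h).G * (2 * (dm l h).P * (dm l h).L)) ≤ 4 * 4 ^ l := by
  rw [← dm_size hl]
  have := dm_K (l := l) (h := h)
  calc 2 * (dm l h).P * ((dm l h).G * (2 * (dm l h).P * (dm l h).L))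
      = 4 * (1 * ((dm l h).P * ((dm l h).G * ((dm l h).P * (dm l h).L)))) := by ring
    _ ≤ _ := Nat.mul_le_mul_left _ (Nat.mul_le_mul_right _ this)

theorem run_gen1P (hmk : u ≠ mk) (h4 : 4 ≤ h) (hl : h ≤ l) (bit : Bool → α) (w : List α) :
    Prog.Run d (gen1P T u mk bit)
      (st u m (vr l h n) ⟨[], w⟩ clk opX ⟨[], []⟩ res)
      (2800 * 4 ^ l + 2)
      (st u m (vr l h n) ⟨[], w⟩ clk opX ⟨[], (genBits1 (dm l h)).map bit⟩ res) := by
  have hrun := run_gen1 (M := M) (F := T ⊕ RF) (d := d) (dm l h) (dm_G h4) (dm_s l h)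
    (by show 1 ≤ h - h / 2; omega) bit u mk (bit false) hmk
    (.inr .dat) (.inr .opY) (R .C1) (R .C2) (R .G) (R .C3) (R .L) (R .tau) (by simp) m
    (st u m (vr l h n) ⟨[], w⟩ clk opX ⟨[], []⟩ res).z w rfl rfl (genRulers _ _ _ _ _)
  rw [upd_opY] at hrun
  have := gen_size hl
  exact hrun.mono (by omega)

/-- The second generator. -/
def gen2P (T : Type) [DecidableEq T] {M : Type} (u mk : α) (bit : Bool → α) :
    Prog M (T ⊕ RF) α :=
  passP (.inr .dat) (.inr .opY) u mk (bit false)
    (genLP (R .C1) (R .C2) (R .G) (R .C3) (R .L) (bit false)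
      (gslot2 (R .L) (R .tau) (R .C2) (bit false) (bit true)))

theorem run_gen2P (hmk : u ≠ mk) (h4 : 4 ≤ h) (hl : h ≤ l) (bit : Bool → α) (w : List α) :
    Prog.Run d (gen2P T u mk bit)
      (st u m (vr l h n) ⟨[], w⟩ clk opX ⟨[], []⟩ res)
      (3200 * 4 ^ l + 2)
      (st u m (vr l h n) ⟨[], w⟩ clk opX ⟨[], (genBits2 (dm l h)).map bit⟩ res) := by
  have hrun := run_gen2 (M := M) (F := T ⊕ RF) (d := d) (dm l h) (dm_G h4) (dm_s l h)
    bit u mk (bit false) hmk
    (.inr .dat) (.inr .opY) (R .C1) (R .C2) (R .G) (R .C3) (R .L) (R .tau) (by simp) m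
    (st u m (vr l h n) ⟨[], w⟩ clk opX ⟨[], []⟩ res).z w rfl rfl (genRulers _ _ _ _ _)
  rw [upd_opY] at hrun
  have := gen_size hl
  exact hrun.mono (by omega)

/-- The files of the middle pass. -/
def midF (T : Type) : MF → T ⊕ RF
  | .inp => .inr .res
  | .out => .inr .opX
  | .rK => R .K
  | .rP => R .P
  | .rG => R .G
  | .rC => R .C1
  | .rX => R .C2
  | .rT => R .tau
  | .rW => R .W

theorem midF_inj : Function.Injective (midF T) := by
  intro a b hab
  cases a <;> cases b <;> first | rfl | (simp [midF] at hab)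

/-- The middle pass. -/
def midP (T : Type) {M : Type} (u mk : α) (bit : Bool → α) : Prog M (T ⊕ RF) α :=
  (passP .inp .out u mk (bit false) (Mid.prog (bit false))).map (Lens.idL M) (midF T)

theorem run_midP {dat : Zip α} (hmk : u ≠ mk) (h4 : 4 ≤ h) (hl : h ≤ l) (bit : Bool → α)
    (w : List Bool) (hw : (1 + (dm l h).K * (dm l h).S1) * (dm l h).W ≤ w.length) :
    Prog.Run d (midP T u mk bit)
      (st u m (vr l h n) dat clk ⟨[], []⟩ opY ⟨[], w.map bit⟩)
      (20000 * 4 ^ l + 2)
      (st u m (vr l h n) dat clk ⟨[], (midBits (dm l h) w).map bit⟩ opY ⟨[], w.map bit⟩) := by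
  have hrun := Mid.run (M := M) (F := T ⊕ RF) (d := d) (dm l h) (dm_s l h)
    (by have := dm_G (l := l) h4; omega) dm_K midF_inj u mk hmk bit m
    (st u m (vr l h n) dat clk ⟨[], []⟩ opY ⟨[], w.map bit⟩).z w rfl rfl
    (by
      intro r hr
      cases r
      · simp [Mid.rul] at hr
      · simp [Mid.rul] at hr
      · rfl
      · rfl
      · show (st u m (vr l h n) dat clk ⟨[], []⟩ opY ⟨[], w.map bit⟩).z (R .G) = _
        rw [st_R, vr_G]
        rfl
      · show (st u m (vr l h n) dat clk ⟨[], []⟩ opY ⟨[], w.map bit⟩).z (R .C1) = _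
        rw [st_R, vr_C1]
        rfl
      · show (st u m (vr l h n) dat clk ⟨[], []⟩ opY ⟨[], w.map bit⟩).z (R .C2) = _
        rw [st_R, vr_C2]
        rfl
      · show (st u m (vr l h n) dat clk ⟨[], []⟩ opY ⟨[], w.map bit⟩).z (R .tau) = _
        rw [st_R, vr_tau]
        rfl
      · show (st u m (vr l h n) dat clk ⟨[], []⟩ opY ⟨[], w.map bit⟩).z (R .W) = _
        rw [st_R, vr_W]
        rfl) hw
  rw [dm_size hl] at hrun
  have e : midF T .out = .inr .opX := rfl
  rw [e, upd_opX] at hrun
  exact hrun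

/-- The files of the last pass. -/
def postF (T : Type) : H525.PF → T ⊕ RF
  | .I => .inr .res
  | .O => .inr .dat
  | .K => R .K
  | .X => R .P
  | .Y => R .P'
  | .G => R .G
  | .L => R .L
  | .T => R .tau
  | .E => R .C1
  | .S => R .L'
  | .s1 => R .s1

theorem postF_inj : Function.Injective (postF T) := by
  intro a b hab
  cases a <;> cases b <;> first | rfl | (simp [postF] at hab)

/-- The last pass. -/
def postP (T : Type) {M : Type} (u mk : α) (bit : Bool → α) : Prog M (T ⊕ RF) α :=
  (passP .I .O u mk (bit false) H525.Post.prog).map (Lens.idL M) (postF T)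

theorem run_postP (hmk : u ≠ mk) (h4 : 4 ≤ h) (hl : h ≤ l) (bit : Bool → α)
    (w : List Bool) (hw : (dm l h).K * (dm l h).S2 * (dm l h).W + (dm l h).W ≤ w.length) :
    Prog.Run d (postP T u mk bit)
      (st u m (vr l h n) ⟨[], []⟩ clk opX opY ⟨[], w.map bit⟩)
      (3400 * 4 ^ l)
      (st u m (vr l h n) ⟨[], (postBits (dm l h) w).map bit⟩ clk opX opY
        ⟨[], w.map bit⟩) := by
  have hrun := H525.Post.post_run (M := M) (d := d) (dm l h) (by show 1 ≤ h / 2; omega)
    (dm_s l h) (by
      rw [H525.dimOf_L]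
      show h / 2 + 1 < 2 ^ (h - h / 2)
      have h1 : (h - h / 2) + 1 < 2 ^ (h - h / 2) ∨ h - h / 2 < 2 := by
        rcases Nat.lt_or_ge (h - h / 2) 2 with h2 | h2
        · exact Or.inr h2
        · left
          obtain ⟨k, hk⟩ := Nat.exists_eq_add_of_le h2
          rw [hk]
          have : k < 2 ^ k := Nat.lt_two_pow_self
          rw [pow_add]
          omega
      omega) dm_K
    (by have := dm_G (l := l) h4; omega) w hw bit u mk (bit false) hmk m
    (fun f => (st u m (vr l h n) ⟨[], []⟩ clk opX opY ⟨[], w.map bit⟩).z (postF T f)) rfl rfl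
    (by
      intro r h1 h2
      cases r
      · exact absurd rfl h1
      · exact absurd rfl h2
      · rfl
      · rfl
      · rfl
      · show (st u m (vr l h n) ⟨[], []⟩ clk opX opY ⟨[], w.map bit⟩).z (R .G) = _
        rw [st_R, vr_G]
        rfl
      · show (st u m (vr l h n) ⟨[], []⟩ clk opX opY ⟨[], w.map bit⟩).z (R .L) = _
        rw [st_R, vr_L]
        rfl
      · show (st u m (vr l h n) ⟨[], []⟩ clk opX opY ⟨[], w.map bit⟩).z (R .tau) = _
        rw [st_R, vr_tau]
        rfl
      · show (st u m (vr l h n) ⟨[], []⟩ clk opX opY ⟨[], w.map bit⟩).z (R .C1) = _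
        rw [st_R, vr_C1]
        rfl
      · show (st u m (vr l h n) ⟨[], []⟩ clk opX opY ⟨[], w.map bit⟩).z (R .L') = _
        rw [st_R, vr_L']
        rfl
      · rfl)
  have hrun2 := Prog.Run.map_update postF_inj hrun
    (z := (st u m (vr l h n) ⟨[], []⟩ clk opX opY ⟨[], w.map bit⟩).z) (fun _ => rfl)
  rw [dm_size hl] at hrun2
  have e : postF T .O = .inr .dat := rfl
  rw [e, upd_dat] at hrun2
  exact hrun2

end passes

end Vale.Agent.P338.R2.H898
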