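import Vale.Agent.P338.R2.H784.Prep
import Vale.Agent.P338.R2.H525.DBits

/-!
The files of a round and the computation of the rulers of a round.
-/

namespace Vale.Agent.P338.R2.H898

open H784
open Function (update)

/-- The rulers of a round. -/
inductive RR
  | el | hh | nr | h2 | ed | es | K | P | L | G | s1 | C1 | te | tau | t | P' | L' | C2 | C3 | W | tw
  deriving DecidableEq

instance : Fintype RR := ⟨{.el, .hh, .nr, .h2, .ed, .es, .K, .P, .L, .G, .s1, .C1, .te, .tau, .t,
  .P', .L', .C2, .C3, .W, .tw}, by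
  intro x
  cases x <;> simp⟩

/-- The files of a round besides the tapes of `A`. -/
inductive RF
  | r (x : RR)
  | dat | clk | opX | opY | res
  deriving DecidableEq

/-- The equivalence used for counting the files. -/
def RF.equiv : RF ≃ RR ⊕ Fin 5 where
  toFun
    | .r x => .inl x
    | .dat => .inr 0
    | .clk => .inr 1
    | .opX => .inr 2
    | .opY => .inr 3
    | .res => .inr 4
  invFun
    | .inl x => .r x
    | .inr 0 => .dat
    | .inr 1 => .clk
    | .inr 2 => .opX
    | .inr 3 => .opY
    | .inr 4 => .res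
  left_inv x := by cases x <;> rfl
  right_inv x := by
    rcases x with x | x
    · rfl
    · fin_cases x <;> rfl

instance : Finite RF := Finite.of_equiv _ RF.equiv.symm

variable {M T α : Type}

/-- The name of a ruler. -/
abbrev R (x : RR) : T ⊕ RF := Sum.inr (.r x)

/-- A store of a round. -/
def st (u : α) (m : M) (v : RR → ℕ) (dat clk opX opY res : Zip α) : Store M (T ⊕ RF) α :=
  ⟨m, fun f => match f with
    | .inl _ => ⟨[], []⟩
    | .inr (.r x) => ⟨[], List.replicate (v x) u⟩
    | .inr .dat => dat
    | .inr .clk => clk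
    | .inr .opX => opX
    | .inr .opY => opY
    | .inr .res => res⟩

variable [DecidableEq T] {d u : α} {m : M} {v : RR → ℕ} {dat clk opX opY res : Zip α}

theorem st_len (x : RR) :
    Len u 0 (v x) ((st (T := T) u m v dat clk opX opY res).z (R x)) := rfl

/-- A store that agrees with `st` outside some rulers. -/
theorem eq_st {S : List (T ⊕ RF)} {s : Store M (T ⊕ RF) α} {v' : RR → ℕ}
    (h : Keep S (st u m v dat clk opX opY res) s) (hS : ∀ f ∈ S, ∃ x, f = R x)
    (h1 : ∀ x, R x ∈ S → Len u 0 (v' x) (s.z (R x)))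
    (h2 : ∀ x, (R x : T ⊕ RF) ∉ S → v' x = v x) : s = st u m v' dat clk opX opY res := by
  rcases s with ⟨m', z⟩
  obtain ⟨h3, h4⟩ := h
  simp only [st] at h3
  subst h3
  simp only [st, Store.mk.injEq, true_and]
  have hk : ∀ f : T ⊕ RF, (∀ x, f ≠ R x) → f ∉ S := by
    intro f hf hm
    obtain ⟨x, hx⟩ := hS f hm
    exact hf x hx
  funext f
  rcases f with i | (x | _ | _ | _ | _ | _)
  · exact h4 _ (hk _ (by simp))
  · by_cases hx : (R x : T ⊕ RF) ∈ S
    · exact h1 x hx
    · have h5 := h4 _ hx
      have h6 := h2 x hx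
      simp only [h6]
      exact h5
  · exact h4 _ (hk _ (by simp))
  · exact h4 _ (hk _ (by simp))
  · exact h4 _ (hk _ (by simp))
  · exact h4 _ (hk _ (by simp))
  · exact h4 _ (hk _ (by simp))

/-- Exact statement from a triple on rulers. -/
theorem run_of_tri {S : List (T ⊕ RF)} {p : Prog M (T ⊕ RF) α} {c : ℕ} {v' : RR → ℕ}
    {Q : Store M (T ⊕ RF) α → Prop}
    (h : Tri d p (st u m v dat clk opX opY res) c (fun s' => Q s' ∧
      Keep S (st u m v dat clk opX opY res) s'))
    (hS : ∀ f ∈ S, ∃ x, f = R x)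
    (h1 : ∀ s', Q s' → ∀ x, R x ∈ S → Len u 0 (v' x) (s'.z (R x)))
    (h2 : ∀ x, (R x : T ⊕ RF) ∉ S → v' x = v x) :
    Prog.Run d p (st u m v dat clk opX opY res) c (st u m v' dat clk opX opY res) := by
  obtain ⟨s', h3, h4, h5⟩ := h
  rw [← eq_st h5 hS (h1 s' h4) h2]
  exact h3

theorem run_cp {a b : RR} (hab : a ≠ b) :
    Prog.Run d (cpU (R a) (R b) u) (st (T := T) u m v dat clk opX opY res) (4 * v a + 5)
      (st u m (update v b (v a)) dat clk opX opY res) := by
  refine run_of_tri (S := [R a, R b]) (Q := fun s' => Len u 0 (v a) (s'.z (R b)) ∧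
    Len u 0 (v a) (s'.z (R a))) ((tri_cpU (by simpa using hab) (st_len a)).post
    fun s' h => ⟨⟨h.1, h.2.1⟩, h.2.2⟩) (by simp) ?_ ?_
  · rintro s' ⟨h1, h2⟩ x hx
    simp only [List.mem_cons, Sum.inr.injEq, RF.r.injEq, List.not_mem_nil, or_false] at hx
    rcases hx with rfl | rfl
    · rw [Function.update_of_ne hab]
      exact h2
    · rw [Function.update_self]
      exact h1
  · intro x hx
    simp only [List.mem_cons, Sum.inr.injEq, RF.r.injEq, List.not_mem_nil, or_false,
      not_or] at hx
    rw [Function.update_of_ne hx.2]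

theorem run_clrR (a : RR) :
    Prog.Run d (clr (R a)) (st (T := T) u m v dat clk opX opY res) 2
      (st u m (update v a 0) dat clk opX opY res) := by
  refine run_of_tri (S := [R a]) (tri_clr (R a) _) (by simp) ?_ ?_
  · rintro s' h1 x hx
    simp only [List.mem_cons, Sum.inr.injEq, RF.r.injEq, List.not_mem_nil, or_false] at hx
    subst hx
    rw [Function.update_self, h1]
    rfl
  · intro x hx
    simp only [List.mem_cons, Sum.inr.injEq, RF.r.injEq, List.not_mem_nil, or_false] at hx
    rw [Function.update_of_ne hx]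

theorem run_inc (a : RR) :
    Prog.Run d (incU (R a) u) (st (T := T) u m v dat clk opX opY res) (2 * v a + 4)
      (st u m (update v a (v a + 1)) dat clk opX opY res) := by
  refine run_of_tri (S := [R a]) (tri_incU (st_len a)) (by simp) ?_ ?_
  · rintro s' h1 x hx
    simp only [List.mem_cons, Sum.inr.injEq, RF.r.injEq, List.not_mem_nil, or_false] at hx
    subst hx
    rw [Function.update_self]
    exact h1
  · intro x hx
    simp only [List.mem_cons, Sum.inr.injEq, RF.r.injEq, List.not_mem_nil, or_false] at hx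
    rw [Function.update_of_ne hx]

theorem run_pow {a b t : RR} (hab : a ≠ b) (hat : a ≠ t) (hbt : b ≠ t) (ht : v t = 0) :
    Prog.Run d (pow2 (R a) (R b) (R t) u) (st (T := T) u m v dat clk opX opY res)
      (8 * 2 ^ v a + 8 * v a + 5)
      (st u m (update v b (2 ^ v a)) dat clk opX opY res) := by
  have h0 : Len u 0 0 ((st (T := T) u m v dat clk opX opY res).z (R t)) := by
    have := st_len (T := T) (u := u) (m := m) (v := v) (dat := dat) (clk := clk) (opX := opX)
      (opY := opY) (res := res) t
    rwa [ht] at this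
  refine run_of_tri (S := [R b, R t, R a]) (Q := fun s' => Len u 0 (2 ^ v a) (s'.z (R b)) ∧
    Len u 0 (v a) (s'.z (R a)) ∧ Len u 0 0 (s'.z (R t))) ((tri_pow2 (by simpa using hab)
    (by simpa using hat) (by simpa using hbt) (st_len a) h0).post
    fun s' h => ⟨⟨h.1, h.2.1, h.2.2.1⟩, h.2.2.2⟩) (by simp) ?_ ?_
  · rintro s' ⟨h1, h2, h3⟩ x hx
    simp only [List.mem_cons, Sum.inr.injEq, RF.r.injEq, List.not_mem_nil, or_false] at hx
    rcases hx with rfl | rfl | rfl
    · rw [Function.update_self]
      exact h1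
    · rw [Function.update_of_ne hbt.symm, ht]
      exact h3
    · rw [Function.update_of_ne hab]
      exact h2
  · intro x hx
    simp only [List.mem_cons, Sum.inr.injEq, RF.r.injEq, List.not_mem_nil, or_false,
      not_or] at hx
    rw [Function.update_of_ne hx.1]

theorem run_halve {a b c : RR} (hab : a ≠ b) (hac : a ≠ c) (hbc : b ≠ c) :
    Prog.Run d (halve (R a) (R b) (R c) u) (st (T := T) u m v dat clk opX opY res)
      (8 * v a + 16)
      (st u m (update (update v b ((v a + 1) / 2)) c (v a / 2)) dat clk opX opY res) := by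
  refine run_of_tri (S := [R a, R b, R c]) (Q := fun s' =>
    Len u 0 ((v a + 1) / 2) (s'.z (R b)) ∧ Len u 0 (v a / 2) (s'.z (R c)) ∧
    Len u 0 (v a) (s'.z (R a))) ((tri_halve (by simpa using hab) (by simpa using hac)
    (by simpa using hbc) (st_len a)).post
    fun s' h => ⟨⟨h.1, h.2.1, h.2.2.1⟩, h.2.2.2⟩) (by simp) ?_ ?_
  · rintro s' ⟨h1, h2, h3⟩ x hx
    simp only [List.mem_cons, Sum.inr.injEq, RF.r.injEq, List.not_mem_nil, or_false] at hx
    rcases hx with rfl | rfl | rfl
    · rw [Function.update_of_ne hac, Function.update_of_ne hab]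
      exact h3
    · rw [Function.update_of_ne hbc, Function.update_self]
      exact h1
    · rw [Function.update_self]
      exact h2
  · intro x hx
    simp only [List.mem_cons, Sum.inr.injEq, RF.r.injEq, List.not_mem_nil, or_false,
      not_or] at hx
    rw [Function.update_of_ne hx.2.2, Function.update_of_ne hx.2.1]

theorem run_diff {a b c : RR} (hab : a ≠ b) (hac : a ≠ c) (hbc : b ≠ c) (hv : v b ≤ v a) :
    Prog.Run d (diffU (R a) (R b) (R c) u) (st (T := T) u m v dat clk opX opY res)
      (4 * v a + 7)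
      (st u m (update v c (v a - v b)) dat clk opX opY res) := by
  refine run_of_tri (S := [R a, R b, R c]) (Q := fun s' =>
    Len u 0 (v a - v b) (s'.z (R c)) ∧ Len u 0 (v a) (s'.z (R a)) ∧
    Len u 0 (v b) (s'.z (R b))) ((tri_diffU (by simpa using hab) (by simpa using hac)
    (by simpa using hbc) hv (st_len a) (st_len b)).post
    fun s' h => ⟨⟨h.1, h.2.1, h.2.2.1⟩, h.2.2.2⟩) (by simp) ?_ ?_
  · rintro s' ⟨h1, h2, h3⟩ x hx
    simp only [List.mem_cons, Sum.inr.injEq, RF.r.injEq, List.not_mem_nil, or_false] at hx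
    rcases hx with rfl | rfl | rfl
    · rw [Function.update_of_ne hac]
      exact h2
    · rw [Function.update_of_ne hbc]
      exact h3
    · rw [Function.update_self]
      exact h1
  · intro x hx
    simp only [List.mem_cons, Sum.inr.injEq, RF.r.injEq, List.not_mem_nil, or_false,
      not_or] at hx
    rw [Function.update_of_ne hx.2.2]

end Vale.Agent.P338.R2.H898
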