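import Vale.Agent.P338.R2.H898.Rulers

/-!
The rulers of a round.
-/

namespace Vale.Agent.P338.R2.H898

open H784
open Function (update)

variable {M T α : Type} [DecidableEq T] {d u : α} {m : M} {v : RR → ℕ}
  {dat clk opX opY res : Zip α}

/-- The files of the basic preparation. -/
def pf (T : Type) : H784.PF (T ⊕ RF) where
  ed := R .ed
  es := R .es
  eh := R .h2
  K := R .K
  P := R .P
  L := R .L
  G := R .G
  s1 := R .s1
  P2 := R .C1
  te := R .te
  tau := R .tau
  t := R .t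

/-- The basic rulers. -/
def baseV (v : RR → ℕ) : RR → ℕ
  | .K => 2 ^ v .ed
  | .P => 2 ^ v .es
  | .L => 2 ^ v .h2
  | .G => 2 ^ v .h2 * 2 ^ v .ed
  | .s1 => v .es + 1
  | .C1 => 2 ^ (v .es + 1)
  | .tau => 2 ^ (v .h2 - v .es + 1)
  | .te => 0
  | .t => 0
  | x => v x

theorem run_base (hv : v .es ≤ v .h2) :
    Prog.Run d (.seq (prepBase (pf T) u) (clr (R .te))) (st (T := T) u m v dat clk opX opY res)
      (200 * (2 ^ v .ed * 2 ^ v .h2) + 200 * 2 ^ v .es + 2)
      (st u m (baseV v) dat clk opX opY res) := by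
  have hnd : (pf T).list.Nodup := by
    simp [PF.list, pf]
  refine run_of_tri (S := (pf T).list) (Q := fun s' =>
    Len u 0 (v .ed) (s'.z (R .ed)) ∧ Len u 0 (v .es) (s'.z (R .es)) ∧
    Len u 0 (v .h2) (s'.z (R .h2)) ∧ Len u 0 (2 ^ v .ed) (s'.z (R .K)) ∧
    Len u 0 (2 ^ v .es) (s'.z (R .P)) ∧ Len u 0 (2 ^ v .h2) (s'.z (R .L)) ∧
    Len u 0 (2 ^ v .h2 * 2 ^ v .ed) (s'.z (R .G)) ∧ Len u 0 (v .es + 1) (s'.z (R .s1)) ∧
    Len u 0 (2 ^ (v .es + 1)) (s'.z (R .C1)) ∧
    Len u 0 (2 ^ (v .h2 - v .es + 1)) (s'.z (R .tau)) ∧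
    s'.z (R .t) = ⟨[], []⟩ ∧ s'.z (R .te) = ⟨[], []⟩)
    (Tri.seq (t' := 2) (tri_prepBase hnd hv (st_len .ed) (st_len .es) (st_len .h2)) ?_)
    ?_ ?_ ?_
  · rintro s1 ⟨h1, h2, h3, h4, h5, h6, h7, h8, h9, h10, h11, k1⟩
    refine (tri_clr (R .te) s1).post ?_
    rintro s2 ⟨h12, k2⟩
    have k3 : Keep (pf T).list s1 s2 := k2.mono (by simp [PF.list, pf])
    refine ⟨⟨k2.len (by simp) h1, k2.len (by simp) h2, k2.len (by simp) h3, k2.len (by simp) h4,
      k2.len (by simp) h5, k2.len (by simp) h6, k2.len (by simp) h7, k2.len (by simp) h8,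
      k2.len (by simp) h9, k2.len (by simp) h10, ?_, h12⟩, k1.trans k3⟩
    rw [k2.z (by simp)]
    exact h11
  · intro f hf
    simp only [PF.list, pf, List.mem_cons, List.not_mem_nil, or_false] at hf
    rcases hf with rfl | rfl | rfl | rfl | rfl | rfl | rfl | rfl | rfl | rfl | rfl | rfl <;>
      exact ⟨_, rfl⟩
  · rintro s' ⟨h1, h2, h3, h4, h5, h6, h7, h8, h9, h10, h11, h12⟩ x hx
    simp only [PF.list, pf, List.mem_cons, List.not_mem_nil, or_false, Sum.inr.injEq,
      RF.r.injEq] at hx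
    rcases hx with rfl | rfl | rfl | rfl | rfl | rfl | rfl | rfl | rfl | rfl | rfl | rfl
    exacts [h1, h2, h3, h4, h5, h6, h7, h8, h9, h12, h10, h11]
  · intro x hx
    cases x <;> first | rfl | (exfalso; apply hx; simp [PF.list, pf])

/-- The rulers at the beginning of a round. -/
def v0 (l h n : ℕ) : RR → ℕ
  | .el => l
  | .hh => h
  | .nr => n
  | _ => 0

/-- All rulers. -/
def vr (l h n : ℕ) : RR → ℕ
  | .el => l
  | .hh => h
  | .nr => n
  | .h2 => (h + 1) / 2
  | .ed => l - h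
  | .es => h / 2
  | .K => 2 ^ (l - h)
  | .P => 2 ^ (h / 2)
  | .L => 2 ^ ((h + 1) / 2)
  | .G => 2 ^ ((h + 1) / 2) * 2 ^ (l - h)
  | .s1 => h / 2 + 1
  | .C1 => 2 ^ (h / 2 + 1)
  | .te => 0
  | .tau => 2 ^ ((h + 1) / 2 - h / 2 + 1)
  | .t => 0
  | .P' => 2 ^ (h / 2)
  | .L' => 2 ^ ((h + 1) / 2)
  | .C2 => 2 ^ (h / 2 + 1)
  | .C3 => 2 ^ (h / 2 + 1)
  | .W => 2 ^ ((h + 1) / 2 + 6)
  | .tw => (h + 1) / 2 + 6

/-- The rulers at the end of a round. -/
def v1 (l h n : ℕ) : RR → ℕ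
  | .el => l
  | .hh => h
  | .nr => n
  | .h2 => (h + 1) / 2
  | _ => 0

theorem run_fin {p : Prog M (T ⊕ RF) α} {s : Store M (T ⊕ RF) α} {t t' : ℕ} {v1 v2 : RR → ℕ}
    (h : Prog.Run d p s t (st u m v1 dat clk opX opY res)) (hv : v1 = v2) (ht : t ≤ t') :
    Prog.Run d p s t' (st u m v2 dat clk opX opY res) := hv ▸ h.mono ht

/-- The computation of all rulers. -/
def prepAll (T : Type) [DecidableEq T] {M : Type} (u : α) : Prog M (T ⊕ RF) α :=
  .seq (halve (R .hh) (R .h2) (R .es) u) (.seq (diffU (R .el) (R .hh) (R .ed) u)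
    (.seq (.seq (prepBase (pf T) u) (clr (R .te))) (.seq (cpU (R .P) (R .P') u)
    (.seq (cpU (R .L) (R .L') u) (.seq (cpU (R .C1) (R .C2) u) (.seq (cpU (R .C1) (R .C3) u)
    (.seq (cpU (R .h2) (R .tw) u) (.seq (incU (R .tw) u) (.seq (incU (R .tw) u)
    (.seq (incU (R .tw) u) (.seq (incU (R .tw) u) (.seq (incU (R .tw) u) (.seq (incU (R .tw) u)
    (pow2 (R .tw) (R .W) (R .t) u))))))))))))))

theorem run_prepAll {l h n : ℕ} (hl : h ≤ l) :
    Prog.Run d (prepAll T u) (st (T := T) u m (v0 l h n) dat clk opX opY res) (3000 * 4 ^ l)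
      (st u m (vr l h n) dat clk opX opY res) := by
  have e := (run_halve (T := T) (d := d) (u := u) (m := m) (v := v0 l h n) (dat := dat)
    (clk := clk) (opX := opX) (opY := opY) (res := res) (a := .hh) (b := .h2) (c := .es)
    (by decide) (by decide) (by decide)).seq
    ((run_diff (a := .el) (b := .hh) (c := .ed) (by decide) (by decide) (by decide)
      (by simpa [v0] using hl)).seq
    ((run_base (by simp [v0, Function.update]; omega)).seq
    ((run_cp (a := .P) (b := .P') (by decide)).seq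
    ((run_cp (a := .L) (b := .L') (by decide)).seq
    ((run_cp (a := .C1) (b := .C2) (by decide)).seq
    ((run_cp (a := .C1) (b := .C3) (by decide)).seq
    ((run_cp (a := .h2) (b := .tw) (by decide)).seq
    ((run_inc .tw).seq ((run_inc .tw).seq ((run_inc .tw).seq ((run_inc .tw).seq
    ((run_inc .tw).seq ((run_inc .tw).seq
    (run_pow (a := .tw) (b := .W) (t := .t) (by decide) (by decide) (by decide)
      (by simp [Function.update, baseV, v0])))))))))))))))
  refine run_fin e ?_ ?_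
  rotate_left
  · simp only [Function.update, baseV, v0]
    simp
    have h1 : l < 2 ^ l := Nat.lt_two_pow_self
    have h2 : 2 ^ l ≤ 4 ^ l := Nat.pow_le_pow_left (by norm_num) l
    have h3 : 2 ^ (l - h) * 2 ^ ((h + 1) / 2) ≤ 2 * 2 ^ l := by
      rw [← pow_add, ← pow_succ']
      exact Nat.pow_le_pow_right (by norm_num) (by omega)
    have h4 : 2 ^ (h / 2) ≤ 2 ^ l := Nat.pow_le_pow_right (by norm_num) (by omega)
    have h5 : 2 ^ ((h + 1) / 2) ≤ 2 * 2 ^ l := by
      rw [← pow_succ']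
      exact Nat.pow_le_pow_right (by norm_num) (by omega)
    have h6 : 2 ^ (h / 2 + 1) = 2 * 2 ^ (h / 2) := by ring
    have h7 : 2 ^ ((h + 1) / 2 + 1 + 1 + 1 + 1 + 1 + 1) = 64 * 2 ^ ((h + 1) / 2) := by ring
    omega
  · funext x
    cases x <;> simp [Function.update, baseV, v0, vr]

/-- Clear some rulers. -/
def clrL (T : Type) [DecidableEq T] {M : Type} : List RR → Prog M (T ⊕ RF) α
  | [] => nop
  | x :: xs => .seq (clr (R x)) (clrL T xs)

theorem run_clrL (xs : List RR) (v : RR → ℕ) :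
    Prog.Run d (clrL T xs) (st (T := T) u m v dat clk opX opY res) (2 * xs.length + 1)
      (st u m (fun x => if x ∈ xs then 0 else v x) dat clk opX opY res) := by
  induction xs generalizing v with
  | nil =>
    have h := run_nop (d := d) m (st (T := T) u m v dat clk opX opY res).z
    exact run_fin h (by simp) (by simp)
  | cons y xs ih =>
    refine run_fin ((run_clrR y).seq (ih _)) ?_ ?_
    · funext x
      by_cases h1 : x = y
      · subst h1
        simp
      · simp [h1]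
    · rw [List.length_cons]; omega

/-- Clear all auxiliary rulers. -/
def wipeR (T : Type) [DecidableEq T] {M : Type} : Prog M (T ⊕ RF) α :=
  clrL T [.ed, .es, .K, .P, .L, .G, .s1, .C1, .te, .tau, .t, .P', .L', .C2, .C3, .W, .tw]

theorem run_wipeR (l h n : ℕ) :
    Prog.Run d (wipeR T) (st (T := T) u m (vr l h n) dat clk opX opY res) 35
      (st u m (v1 l h n) dat clk opX opY res) := by
  have h1 := run_clrL (T := T) (d := d) (u := u) (m := m) (dat := dat) (clk := clk) (opX := opX)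
    (opY := opY) (res := res) [.ed, .es, .K, .P, .L, .G, .s1, .C1, .te, .tau, .t, .P', .L', .C2,
      .C3, .W, .tw] (vr l h n)
  have e : (fun x => if x ∈ ([.ed, .es, .K, .P, .L, .G, .s1, .C1, .te, .tau, .t, .P', .L', .C2,
      .C3, .W, .tw] : List RR) then 0 else vr l h n x) = v1 l h n := by
    funext x
    cases x <;> simp [vr, v1]
  rw [e] at h1
  exact h1

end Vale.Agent.P338.R2.H898
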