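import Vale.Agent.P338.R2.H898.Comp

/-!
The simulation theorem: programs on files are simulated by raw programs.
-/

namespace Vale.Agent.P338.R2.H898

namespace Comp

variable {M F α : Type} [DecidableEq F]

/-- The raw store `rs` represents the store `s`. -/
structure SRep (s : Store M F α) (rs : RStore (M × Pend F) (PTape F) (PSym α)) : Prop where
  m : rs.m = (s.m, .none)
  z : ∀ f, Rep (s.z f) (rs.t (.file f))

theorem SRep.dec {s : Store M F α} {rs : RStore (M × Pend F) (PTape F) (PSym α)}
    (h : SRep s rs) : dec rs.reads = s.reads := by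
  funext f
  exact (h.z f).read_dec

/-- The potential. -/
def pot [Fintype F] (s : Store M F α) : ℕ := ∑ f, (s.z f).l.length

theorem pot_update [Fintype F] (m : M) (z : F → Zip α) (f : F) (x : Zip α) :
    pot (⟨m, Function.update z f x⟩ : Store M F α) + (z f).l.length =
      pot (⟨m, z⟩ : Store M F α) + x.l.length := by
  unfold pot
  simp only
  rw [← Finset.add_sum_erase Finset.univ _ (Finset.mem_univ f),
    ← Finset.add_sum_erase Finset.univ (fun f => (z f).l.length) (Finset.mem_univ f)]
  have : ∑ g ∈ Finset.univ.erase f, ((Function.update z f x) g).l.length =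
      ∑ g ∈ Finset.univ.erase f, (z g).l.length := by
    refine Finset.sum_congr rfl fun g hg => ?_
    rw [Function.update_of_ne (Finset.ne_of_mem_erase hg)]
  rw [this, Function.update_self]
  omega

/-- Running the translation of a primitive operation other than rewinding. -/
theorem exec_prim {d : α} {g : M → (F → Option α) → M × Option (F × Op α)}
    {rs rs1 rs2 : RStore (M × Pend F) (PTape F) (PSym α)}
    (h1 : RProg.appAct rs (act1 d (g rs.m.1 (dec rs.reads)).1 rs.reads
      (g rs.m.1 (dec rs.reads)).2) = rs1)
    (h2 : rewC rs1.m.2 rs1.reads = false)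
    (h3 : RProg.appAct rs1 (act2 rs1.m.1 rs1.reads rs1.m.2) = rs2) :
    RProg.Exec (tr d (.prim g)) rs 3 rs2 := by
  subst h1 h3
  have e1 := RProg.Exec.prim (fun (m : M × Pend F) (r : PTape F → PSym α) =>
    act1 d (g m.1 (dec r)).1 r (g m.1 (dec r)).2) rs
  have e2 := RProg.Exec.loopF (c := fun (m : M × Pend F) (r : PTape F → PSym α) => rewC m.2 r)
    (p := .prim fun m r => rewA m.1 m.2 r) h2
  have e3 := RProg.Exec.prim (fun (m : M × Pend F) (r : PTape F → PSym α) => act2 m.1 r m.2)
    (RProg.appAct rs (act1 d (g rs.m.1 (dec rs.reads)).1 rs.reads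
      (g rs.m.1 (dec rs.reads)).2))
  exact RProg.Exec.seq e1 (RProg.Exec.seq e2 e3)

theorem exec_rewind {n : ℕ} {m : M} {f : F} {t : PTape F → RT (PSym α)}
    (hc : ∀ i, i < n → ((t (.file f)).c (i + 1)).isLend = false)
    (h0 : ((t (.file f)).c 0).isLend = true) (hn : (t (.file f)).h = n) :
    RProg.Exec (.loop (fun (m : M × Pend F) (r : PTape F → PSym α) => rewC m.2 r)
      (.prim fun m r => rewA m.1 m.2 r)) ⟨(m, Pend.rewd f), t⟩ (2 * n + 1)
      ⟨(m, Pend.rewd f), Function.update t (.file f) ⟨(t (.file f)).c, 0⟩⟩ := by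
  induction n generalizing t with
  | zero =>
    have hu : Function.update t (.file f) ⟨(t (.file f)).c, 0⟩ = t := by
      have : (⟨(t (.file f)).c, 0⟩ : RT (PSym α)) = t (.file f) := by
        rcases ht : t (.file f) with ⟨c, h⟩
        rw [ht] at hn
        simp only at hn
        subst hn
        rfl
      rw [this, Function.update_eq_self]
    rw [hu]
    apply RProg.Exec.loopF
    simp only [rewC, RStore.reads, RT.read, hn, h0, Bool.not_true]
  | succ n ih =>
    have hread : RT.read (t (.file f)) = (t (.file f)).c (n + 1) := by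
      simp only [RT.read, hn]
    have e1 := RProg.Exec.prim (fun (m : M × Pend F) (r : PTape F → PSym α) => rewA m.1 m.2 r)
      ⟨(m, Pend.rewd f), t⟩
    have e1' : RProg.appAct (⟨(m, Pend.rewd f), t⟩ : RStore (M × Pend F) (PTape F) (PSym α))
        (rewA m (.rewd f) (RStore.reads ⟨(m, Pend.rewd f), t⟩)) =
        ⟨(m, Pend.rewd f), Function.update t (.file f) ⟨(t (.file f)).c, n⟩⟩ := by
      unfold rewA
      simp only
      rw [appAct_on]
      simp only [RStore.mk.injEq, true_and]
      have : RStore.reads (⟨(m, Pend.rewd f), t⟩ : RStore (M × Pend F) (PTape F) (PSym α))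
          (.file f) = (t (.file f)).read := rfl
      rw [this, app_read]
      simp [hn, Move.app]
    simp only at e1
    rw [e1'] at e1
    have e2 := ih (t := Function.update t (.file f) ⟨(t (.file f)).c, n⟩)
      (by
        intro i hi
        rw [Function.update_self]
        exact hc i (by omega))
      (by
        rw [Function.update_self]
        exact h0)
      (by rw [Function.update_self])
    rw [Function.update_self, Function.update_idem] at e2
    have hcond : rewC (Pend.rewd f)
        (RStore.reads (⟨(m, Pend.rewd f), t⟩ : RStore (M × Pend F) (PTape F) (PSym α))) = true := by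
      simp only [rewC, RStore.reads, RT.read, hn, hc n (by omega), Bool.not_false]
    have e3 := RProg.Exec.loopT (c := fun (m : M × Pend F) (r : PTape F → PSym α) => rewC m.2 r)
      hcond e1 e2
    have : 2 * (n + 1) + 1 = 1 + 1 + (2 * n + 1) := by ring
    rw [this]
    exact e3

/-- One operation. -/
theorem sim_prim [Fintype F] {d : α} {g : M → (F → Option α) → M × Option (F × Op α)}
    {s : Store M F α} {rs : RStore (M × Pend F) (PTape F) (PSym α)} (h : SRep s rs) :
    ∃ t' rs', RProg.Exec (tr d (.prim g)) rs t' rs' ∧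
      SRep (Prog.appAct d s (g s.m s.reads)) rs' ∧
      rs'.t .inp = rs.t .inp ∧ rs'.t .out = rs.t .out ∧
      t' + 2 * pot (Prog.appAct d s (g s.m s.reads)) ≤ 8 + 2 * pot s := by
  have hdec := h.dec
  have hm := h.m
  rcases s with ⟨m, z⟩
  rcases rs with ⟨rm, t⟩
  simp only at hm
  subst hm
  rcases hg : g m (Store.reads ⟨m, z⟩) with ⟨m', o⟩
  have hz := h.z
  simp only at hz
  -- a general conclusion for operations on one file
  have fin : ∀ (f : F) (x : Zip α) (y : RT (PSym α)) (t' : ℕ), Rep x y →
      t' + 2 * x.l.length ≤ 8 + 2 * (z f).l.length →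
      RProg.Exec (tr d (.prim g)) ⟨(m, Pend.none), t⟩ t'
        ⟨(m', Pend.none), Function.update t (.file f) y⟩ →
      Prog.appAct d ⟨m, z⟩ (m', o) = ⟨m', Function.update z f x⟩ →
      ∃ t' rs', RProg.Exec (tr d (.prim g)) ⟨(m, Pend.none), t⟩ t' rs' ∧
      SRep (Prog.appAct d ⟨m, z⟩ (m', o)) rs' ∧
      rs'.t .inp = t .inp ∧ rs'.t .out = t .out ∧
      t' + 2 * pot (Prog.appAct d ⟨m, z⟩ (m', o)) ≤ 8 + 2 * pot (⟨m, z⟩ : Store M F α) := by
    intro f x y t' hxy ht he ha
    refine ⟨t', _, he, ?_, ?_, ?_, ?_⟩
    · rw [ha]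
      refine ⟨rfl, fun f' => ?_⟩
      by_cases hf : f' = f
      · subst hf
        simp only [Function.update_self]
        exact hxy
      · simp only [Function.update_of_ne hf]
        rw [Function.update_of_ne (by simpa using hf)]
        exact hz f'
    · simp only
      rw [Function.update_of_ne (by simp)]
    · simp only
      rw [Function.update_of_ne (by simp)]
    · rw [ha]
      have h1 := pot_update m' z f x
      have h2 : pot (⟨m', z⟩ : Store M F α) = pot (⟨m, z⟩ : Store M F α) := rfl
      omega
  have hgd : g m (dec (RStore.reads (⟨(m, Pend.none), t⟩ :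
      RStore (M × Pend F) (PTape F) (PSym α)))) = (m', o) := by
    rw [hdec]
    exact hg
  have hreads : ∀ (mm : M × Pend F) (k : PTape F),
      RStore.reads (⟨mm, t⟩ : RStore (M × Pend F) (PTape F) (PSym α)) k = (t k).read :=
    fun _ _ => rfl
  match o with
  | none =>
    refine ⟨3, ⟨(m', Pend.none), t⟩, ?_, ?_, rfl, rfl, ?_⟩
    · refine exec_prim (rs1 := ⟨(m', Pend.none), t⟩) ?_ rfl ?_
      · simp only [hgd, act1]
        exact RProg.appAct_idle ⟨(m', Pend.none), t⟩
      · simp only [act2]
        exact RProg.appAct_idle ⟨(m', Pend.none), t⟩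
    · exact ⟨rfl, hz⟩
    · simp only [Prog.appAct]
      have h2 : pot (⟨m', z⟩ : Store M F α) = pot (⟨m, z⟩ : Store M F α) := rfl
      omega
  | some (f, .right) =>
    have hzf := hz f
    rcases hlr : z f with ⟨l, r⟩
    rw [hlr] at hzf
    cases r with
    | nil =>
      have hread := hzf.read_nil
      refine fin f ⟨d :: l, []⟩ _ 3 (rep_right_nil hzf) (by rw [hlr]; simp; omega) ?_
        (by simp [Prog.appAct, Op.app, hlr])
      refine exec_prim (rs1 := ⟨(m', .eof f false),
        Function.update t (.file f) ((t (.file f)).app (.sym d, .right))⟩) ?_ rfl ?_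
      · simp only [hgd, act1, hreads, hread]
        rw [appAct_on]
      · simp only [act2]
        rw [appAct_on]
        simp
    | cons a r =>
      have hread := hzf.read_cons
      refine fin f ⟨a :: l, r⟩ _ 3 (rep_right_cons hzf) (by rw [hlr]; simp; omega) ?_
        (by simp [Prog.appAct, Op.app, hlr])
      refine exec_prim (rs1 := ⟨(m', Pend.none),
        Function.update t (.file f) ((t (.file f)).app (.sym a, .right))⟩) ?_ rfl ?_
      · simp only [hgd, act1, hreads, hread]
        rw [appAct_on]
      · simp only [act2]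
        exact RProg.appAct_idle _
  | some (f, .left) =>
    have hzf := hz f
    rcases hlr : z f with ⟨l, r⟩
    rw [hlr] at hzf
    cases l with
    | nil =>
      refine fin f ⟨[], r⟩ ⟨(t (.file f)).c, 1⟩ 3 (hzf.sameC rfl) (by rw [hlr]; simp) ?_
        (by simp [Prog.appAct, Op.app, hlr])
      have hh := hzf.head
      have h0 := hzf.zero
      simp only [List.length_nil, Nat.zero_add] at hh
      refine exec_prim (rs1 := ⟨(m', Pend.chk f),
        Function.update t (.file f) ⟨(t (.file f)).c, 0⟩⟩) ?_ rfl ?_
      · simp only [hgd, act1, hreads]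
        rw [appAct_on, app_read]
        simp [Move.app, hh]
      · simp only [act2]
        have : RStore.reads (⟨(m', Pend.chk f), Function.update t (.file f)
            ⟨(t (.file f)).c, 0⟩⟩ : RStore (M × Pend F) (PTape F) (PSym α)) (.file f) = .lend := by
          simp [RStore.reads, RT.read, h0]
        rw [this]
        have hr := appAct_on (⟨(m', Pend.chk f), Function.update t (.file f)
            ⟨(t (.file f)).c, 0⟩⟩ : RStore (M × Pend F) (PTape F) (PSym α)) (m', Pend.none)
            (.file f) (PSym.lend, if (PSym.lend : PSym α).isLend then .right else .stay)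
        rw [hr]
        simp only [Function.update_self, Function.update_idem, PSym.isLend, if_true,
          RStore.mk.injEq, true_and]
        congr 1
        simp only [RT.app, Move.app, RT.mk.injEq, Nat.zero_add, and_true]
        rw [← h0]
        exact Function.update_eq_self _ _
    | cons a l =>
      refine fin f ⟨l, a :: r⟩ ⟨(t (.file f)).c, l.length + 1⟩ 3
        (hzf.sameC (by simp [Zip.full])) (by rw [hlr]; simp; omega) ?_
        (by simp [Prog.appAct, Op.app, hlr])
      have hh := hzf.head
      simp only [List.length_cons] at hh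
      have hsym := hzf.sym l.length a (by simp [Zip.full])
      refine exec_prim (rs1 := ⟨(m', Pend.chk f),
        Function.update t (.file f) ⟨(t (.file f)).c, l.length + 1⟩⟩) ?_ rfl ?_
      · simp only [hgd, act1, hreads]
        rw [appAct_on, app_read]
        simp [Move.app, hh]
      · simp only [act2]
        have : RStore.reads (⟨(m', Pend.chk f), Function.update t (.file f)
            ⟨(t (.file f)).c, l.length + 1⟩⟩ : RStore (M × Pend F) (PTape F) (PSym α)) (.file f) =
            .sym a := by
          simp [RStore.reads, RT.read, hsym]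
        rw [this]
        have hr := appAct_on (⟨(m', Pend.chk f), Function.update t (.file f)
            ⟨(t (.file f)).c, l.length + 1⟩⟩ : RStore (M × Pend F) (PTape F) (PSym α))
            (m', Pend.none) (.file f)
            (PSym.sym a, if (PSym.sym a : PSym α).isLend then .right else .stay)
        rw [hr]
        simp only [Function.update_self, Function.update_idem, PSym.isLend,
          RStore.mk.injEq, true_and]
        congr 1
        simp only [RT.app, Move.app, RT.mk.injEq, Bool.false_eq_true, if_false, and_true]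
        rw [← hsym]
        exact Function.update_eq_self _ _
  | some (f, .write b) =>
    have hzf := hz f
    rcases hlr : z f with ⟨l, r⟩
    rw [hlr] at hzf
    cases r with
    | nil =>
      have hread := hzf.read_nil
      refine fin f ⟨l, [b]⟩ _ 3 (rep_write_nil hzf) (by rw [hlr]; simp) ?_
        (by simp [Prog.appAct, Op.app, hlr])
      refine exec_prim (rs1 := ⟨(m', .eof f true),
        Function.update t (.file f) ((t (.file f)).app (.sym b, .right))⟩) ?_ rfl ?_
      · simp only [hgd, act1, hreads, hread]
        rw [appAct_on]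
      · simp only [act2]
        rw [appAct_on]
        simp
    | cons a r =>
      have hread := hzf.read_cons
      refine fin f ⟨l, b :: r⟩ _ 3 (rep_write_cons hzf) (by rw [hlr]; simp) ?_
        (by simp [Prog.appAct, Op.app, hlr])
      refine exec_prim (rs1 := ⟨(m', Pend.none),
        Function.update t (.file f) ((t (.file f)).app (.sym b, .stay))⟩) ?_ rfl ?_
      · simp only [hgd, act1, hreads, hread]
        rw [appAct_on]
      · simp only [act2]
        exact RProg.appAct_idle _
  | some (f, .trunc) =>
    have hzf := hz f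
    refine fin f ⟨(z f).l, []⟩ _ 3 (rep_trunc hzf) (by simp) ?_
      (by rcases hlr : z f with ⟨l, r⟩; simp [Prog.appAct, Op.app, hlr])
    refine exec_prim (rs1 := ⟨(m', Pend.none),
      Function.update t (.file f) ((t (.file f)).app (.eof, .stay))⟩) ?_ rfl ?_
    · simp only [hgd, act1]
      rw [appAct_on]
    · simp only [act2]
      exact RProg.appAct_idle _
  | some (f, .rew) =>
    have hzf := hz f
    rcases hlr : z f with ⟨l, r⟩
    rw [hlr] at hzf
    have hh := hzf.head
    have h0 := hzf.zero
    simp only at hh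
    refine fin f ⟨[], l.reverse ++ r⟩ ⟨(t (.file f)).c, 1⟩ (1 + ((2 * l.length + 1) + 1))
      (hzf.sameC (by simp [Zip.full])) (by rw [hlr]; simp; omega) ?_
      (by simp [Prog.appAct, Op.app, hlr])
    have e1 := RProg.Exec.prim (fun (m : M × Pend F) (r : PTape F → PSym α) =>
      act1 d (g m.1 (dec r)).1 r (g m.1 (dec r)).2)
      (⟨(m, Pend.none), t⟩ : RStore (M × Pend F) (PTape F) (PSym α))
    have e1' : RProg.appAct (⟨(m, Pend.none), t⟩ : RStore (M × Pend F) (PTape F) (PSym α))
        (act1 d (g m (dec (RStore.reads (⟨(m, Pend.none), t⟩ :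
          RStore (M × Pend F) (PTape F) (PSym α))))).1 (RStore.reads (⟨(m, Pend.none), t⟩ :
          RStore (M × Pend F) (PTape F) (PSym α)))
          (g m (dec (RStore.reads (⟨(m, Pend.none), t⟩ :
          RStore (M × Pend F) (PTape F) (PSym α))))).2) =
        ⟨(m', Pend.rewd f), Function.update t (.file f) ⟨(t (.file f)).c, l.length⟩⟩ := by
      simp only [hgd, act1, hreads]
      rw [appAct_on, app_read]
      simp [Move.app, hh]
    simp only at e1
    rw [e1'] at e1
    have e2 := exec_rewind (n := l.length) (m := m') (f := f)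
      (t := Function.update t (.file f) ⟨(t (.file f)).c, l.length⟩)
      (by
        intro i hi
        rw [Function.update_self]
        simp only
        obtain ⟨a, ha⟩ : ∃ a, (⟨l, r⟩ : Zip α).full[i]? = some a := by
          refine ⟨(⟨l, r⟩ : Zip α).full[i]'(by simp [Zip.full]; omega), ?_⟩
          exact List.getElem?_eq_getElem _
        rw [hzf.sym i a ha]
        rfl)
      (by
        rw [Function.update_self]
        simp only
        rw [h0]
        rfl)
      (by rw [Function.update_self])
    rw [Function.update_self, Function.update_idem] at e2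
    have e3 := RProg.Exec.prim (fun (m : M × Pend F) (r : PTape F → PSym α) => act2 m.1 r m.2)
      (⟨(m', Pend.rewd f), Function.update t (.file f) ⟨(t (.file f)).c, 0⟩⟩ :
        RStore (M × Pend F) (PTape F) (PSym α))
    have e3' : RProg.appAct (⟨(m', Pend.rewd f), Function.update t (.file f)
        ⟨(t (.file f)).c, 0⟩⟩ : RStore (M × Pend F) (PTape F) (PSym α))
        (act2 m' (RStore.reads (⟨(m', Pend.rewd f), Function.update t (.file f)
        ⟨(t (.file f)).c, 0⟩⟩ : RStore (M × Pend F) (PTape F) (PSym α))) (.rewd f)) =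
        ⟨(m', Pend.none), Function.update t (.file f) ⟨(t (.file f)).c, 1⟩⟩ := by
      simp only [act2]
      rw [appAct_on]
      have : RStore.reads (⟨(m', Pend.rewd f), Function.update t (.file f)
        ⟨(t (.file f)).c, 0⟩⟩ : RStore (M × Pend F) (PTape F) (PSym α)) (.file f) =
        RT.read (⟨(t (.file f)).c, 0⟩ : RT (PSym α)) := by
        simp [RStore.reads]
      rw [this]
      simp only [Function.update_self, Function.update_idem]
      rw [app_read]
      simp [Move.app]
    simp only at e3
    rw [e3'] at e3
    exact RProg.Exec.seq e1 (RProg.Exec.seq e2 e3)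

/-- The simulation theorem. -/
theorem sim [Fintype F] {d : α} {p : Prog M F α} {s s' : Store M F α} {t : ℕ}
    (he : Prog.Exec d p s t s') :
    ∀ rs, SRep s rs → ∃ t' rs', RProg.Exec (tr d p) rs t' rs' ∧ SRep s' rs' ∧
      rs'.t .inp = rs.t .inp ∧ rs'.t .out = rs.t .out ∧
      t' + 2 * pot s' ≤ 8 * t + 2 * pot s := by
  induction he with
  | prim g s =>
    intro rs hrs
    obtain ⟨t', rs', h1, h2, h3, h4, h5⟩ := sim_prim (d := d) (g := g) hrs
    exact ⟨t', rs', h1, h2, h3, h4, by omega⟩
  | seq _ _ ih1 ih2 =>
    intro rs hrs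
    obtain ⟨t1, rs1, h1, h2, h3, h4, h5⟩ := ih1 rs hrs
    obtain ⟨t2, rs2, k1, k2, k3, k4, k5⟩ := ih2 rs1 h2
    exact ⟨t1 + t2, rs2, RProg.Exec.seq h1 k1, k2, k3.trans h3, k4.trans h4, by omega⟩
  | iteT hc _ ih =>
    intro rs hrs
    obtain ⟨t1, rs1, h1, h2, h3, h4, h5⟩ := ih rs hrs
    refine ⟨1 + t1, rs1, RProg.Exec.iteT ?_ h1, h2, h3, h4, by omega⟩
    simp only [hrs.dec, hrs.m]
    exact hc
  | iteF hc _ ih =>
    intro rs hrs
    obtain ⟨t1, rs1, h1, h2, h3, h4, h5⟩ := ih rs hrs
    refine ⟨1 + t1, rs1, RProg.Exec.iteF ?_ h1, h2, h3, h4, by omega⟩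
    simp only [hrs.dec, hrs.m]
    exact hc
  | loopT hc _ _ ih1 ih2 =>
    intro rs hrs
    obtain ⟨t1, rs1, h1, h2, h3, h4, h5⟩ := ih1 rs hrs
    obtain ⟨t2, rs2, k1, k2, k3, k4, k5⟩ := ih2 rs1 h2
    refine ⟨1 + t1 + t2, rs2, RProg.Exec.loopT ?_ h1 k1, k2, k3.trans h3, k4.trans h4, by omega⟩
    simp only [hrs.dec, hrs.m]
    exact hc
  | loopF hc =>
    intro rs hrs
    refine ⟨1, rs, RProg.Exec.loopF ?_, hrs, rfl, rfl, by omega⟩
    simp only [hrs.dec, hrs.m]
    exact hc

end Comp

end Vale.Agent.P338.R2.H898
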