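import Vale.Agent.P338.R2.H898.Eval
import Vale.Agent.P338.R2.H806.Pass

/-!
Loop programs with external instructions.
-/

namespace Vale.Agent.P338.R2.H898

open H806 (atp right_atp rew_atp write_atp atp_peek atp_peek_isSome atp_succ_of_le)
open H806.LP (opP nopP skipP run_opP run_nopP getElem?_set_rep set_set_rep run_loop_inv)

/-- Loop programs with external instructions `ext j`. -/
inductive XP (F α J : Type)
  | nop
  | emit (a : α)
  | copy
  | skip
  | inc (r : F)
  | seq (p q : XP F α J)
  | loop (r : F) (p : XP F α J)
  | forReg (r : F) (p : XP F α J)
  | forCo (r : F) (p : XP F α J)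
  | ext (j : J)

/-- Abstract states: values of the registers, input position, output, extra state. -/
@[ext] structure XS (F α σ : Type) where
  /-- registers -/
  v : F → ℕ
  /-- input position -/
  p : ℕ
  /-- output -/
  o : List α
  /-- extra state -/
  x : σ

/-- Semantics of the external instructions. -/
structure XSem (α J σ : Type) where
  /-- number of symbols of the input consumed -/
  adv : J → ℕ
  /-- the output -/
  out : J → σ → List α
  /-- the new extra state -/
  nxt : J → (ℕ → α) → σ → σ

variable {M F α J σ : Type} [DecidableEq F]

/-- Set a register. -/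
def XS.set (s : XS F α σ) (r : F) (n : ℕ) : XS F α σ := ⟨Function.update s.v r n, s.p, s.o, s.x⟩

namespace XP

/-- Semantics. -/
def eval (m : F → ℕ) (w : List α) (e : α) (S : XSem α J σ) : XP F α J → XS F α σ → XS F α σ
  | nop, s => s
  | emit a, s => ⟨s.v, s.p, s.o ++ [a], s.x⟩
  | copy, s => ⟨s.v, s.p + 1, s.o ++ [w.getD s.p e], s.x⟩
  | skip, s => ⟨s.v, s.p + 1, s.o, s.x⟩
  | inc r, s => s.set r ((s.v r + 1) % m r)
  | seq a b, s => eval m w e S b (eval m w e S a s)
  | loop r a, s =>
      ((fun s => (eval m w e S a s).set r ((eval m w e S a s).v r + 1))^[m r - s.v r] s).set r 0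
  | forReg r a, s => (eval m w e S a)^[s.v r] s
  | forCo r a, s => (eval m w e S a)^[m r - s.v r] s
  | ext j, s => ⟨s.v, s.p + S.adv j, s.o ++ S.out j s.x,
      S.nxt j (fun t => w.getD (s.p + t) e) s.x⟩

/-- The registers mentioned. -/
def uses : XP F α J → Finset F
  | nop => ∅
  | emit _ => ∅
  | copy => ∅
  | skip => ∅
  | inc r => {r}
  | seq a b => uses a ∪ uses b
  | loop r a => insert r (uses a)
  | forReg r a => insert r (uses a)
  | forCo r a => insert r (uses a)
  | ext _ => ∅

/-- The registers whose value is changed. -/
def writes : XP F α J → Finset F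
  | nop => ∅
  | emit _ => ∅
  | copy => ∅
  | skip => ∅
  | inc r => {r}
  | seq a b => writes a ∪ writes b
  | loop r a => insert r (writes a)
  | forReg _ a => writes a
  | forCo _ a => writes a
  | ext _ => ∅

/-- The registers used for `forReg` or `forCo`. -/
def marks : XP F α J → Finset F
  | nop => ∅
  | emit _ => ∅
  | copy => ∅
  | skip => ∅
  | inc _ => ∅
  | seq a b => marks a ∪ marks b
  | loop _ a => marks a
  | forReg r a => insert r (marks a)
  | forCo r a => insert r (marks a)
  | ext _ => ∅

/-- Well-formed programs. -/
def WF : XP F α J → Prop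
  | nop => True
  | emit _ => True
  | copy => True
  | skip => True
  | inc _ => True
  | seq a b => WF a ∧ WF b
  | loop r a => r ∉ writes a ∧ WF a
  | forReg r a => r ∉ uses a ∧ WF a
  | forCo r a => r ∉ uses a ∧ WF a
  | ext _ => True

instance decWF : ∀ a : XP F α J, Decidable (WF a)
  | nop => isTrue trivial
  | emit _ => isTrue trivial
  | copy => isTrue trivial
  | skip => isTrue trivial
  | inc _ => isTrue trivial
  | seq a b => by
      have := decWF a
      have := decWF b
      unfold WF
      infer_instance
  | loop r a => by
      have := decWF a
      unfold WF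
      infer_instance
  | forReg r a => by
      have := decWF a
      unfold WF
      infer_instance
  | forCo r a => by
      have := decWF a
      unfold WF
      infer_instance
  | ext _ => isTrue trivial

/-- Bound of the cost (`c j` bounds the cost of the instruction `ext j`). -/
def bd (m : F → ℕ) (c : J → ℕ) : XP F α J → ℕ
  | nop => 1
  | emit _ => 2
  | copy => 3
  | skip => 1
  | inc _ => 3
  | seq a b => bd m c a + bd m c b
  | loop r a => m r * (bd m c a + 2) + 2
  | forReg r a => m r * (bd m c a + 2) + 4
  | forCo r a => m r * (bd m c a + 4) + 5
  | ext j => c j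

/-- Compilation: `I` is the input file, `O` the output file, `one` the symbol of the rulers, `mk`
the mark, `P j` the program of the instruction `ext j`. -/
def compile [DecidableEq α] (I O : F) (one mk e : α) (P : J → Prog M F α) :
    XP F α J → Prog M F α
  | nop => nopP
  | emit a => .seq (opP O (.write a)) (opP O .right)
  | copy => .seq (.prim fun m r => (m, some (O, .write ((r I).getD e))))
      (.seq (opP O .right) (skipP I))
  | skip => skipP I
  | inc r => .seq (opP r .right) (.ite (fun _ x => (x r).isNone) (opP r .rew) nopP)
  | seq a b => .seq (compile I O one mk e P a) (compile I O one mk e P b)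
  | loop r a => .seq (.loop (fun _ x => (x r).isSome)
      (.seq (compile I O one mk e P a) (opP r .right))) (opP r .rew)
  | forReg r a => .seq (opP r (.write mk)) (.seq (opP r .rew)
      (.seq (.loop (fun _ x => decide (x r ≠ some mk))
        (.seq (compile I O one mk e P a) (opP r .right))) (opP r (.write one))))
  | forCo r a => .seq (opP r (.write mk)) (.seq (.loop (fun _ x => (x r).isSome)
        (.seq (compile I O one mk e P a) (opP r .right)))
      (.seq (opP r .rew) (.seq (.loop (fun _ x => decide (x r ≠ some mk)) (opP r .right))
        (opP r (.write one)))))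
  | ext j => P j

end XP

/-- The store given by the input position `p`, the output `o` and the extra state `x` (on the
files `X`), over the store `g`. -/
def putX (I O : F) (w : List α) (X : Finset F) (zx : σ → F → Zip α) (p : ℕ) (o : List α) (x : σ)
    (g : F → Zip α) : F → Zip α := fun f =>
  if f = I then atp w p else if f = O then ⟨o.reverse, []⟩ else if f ∈ X then zx x f else g f

/-- The store represented by an abstract state: `U` is the set of registers, `C` gives the
contents of the rulers, `X` the files of the extra state, `z` the other files. -/
def toX (C : F → List α) (I O : F) (w : List α) (X : Finset F) (zx : σ → F → Zip α)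
    (U : Finset F) (z : F → Zip α) (s : XS F α σ) : F → Zip α :=
  putX I O w X zx s.p s.o s.x fun f => if f ∈ U then atp (C f) (s.v f) else z f

section basic

variable {C : F → List α} {I O : F} {w : List α} {X : Finset F} {zx : σ → F → Zip α}
  {U : Finset F} {z : F → Zip α} {s : XS F α σ}

theorem toX_I : toX C I O w X zx U z s I = atp w s.p := by simp [toX, putX]

theorem toX_O (h : O ≠ I) : toX C I O w X zx U z s O = ⟨s.o.reverse, []⟩ := by
  simp [toX, putX, h]

theorem toX_mem {f : F} (h : f ∈ U) (h1 : f ≠ I) (h2 : f ≠ O) (h3 : f ∉ X) :
    toX C I O w X zx U z s f = atp (C f) (s.v f) := by simp [toX, putX, h, h1, h2, h3]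

theorem toX_not_mem {f : F} (h : f ∉ U) (h1 : f ≠ I) (h2 : f ≠ O) (h3 : f ∉ X) :
    toX C I O w X zx U z s f = z f := by simp [toX, putX, h, h1, h2, h3]

theorem update_toX_mem {f : F} (h : f ∈ U) (h1 : f ≠ I) (h2 : f ≠ O) (h3 : f ∉ X) (n : ℕ) :
    Function.update (toX C I O w X zx U z s) f (atp (C f) n) =
      toX C I O w X zx U z (s.set f n) := by
  funext g
  by_cases hg : g = f
  · subst hg
    rw [Function.update_self, toX_mem h h1 h2 h3]
    simp [XS.set]
  · rw [Function.update_of_ne hg]
    simp [toX, putX, XS.set, Function.update_of_ne hg]

theorem update_toX_I (n : ℕ) :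
    Function.update (toX C I O w X zx U z s) I (atp w n) =
      toX C I O w X zx U z ⟨s.v, n, s.o, s.x⟩ := by
  funext g
  by_cases hg : g = I
  · subst hg
    simp [toX, putX]
  · rw [Function.update_of_ne hg]
    simp [toX, putX, hg]

theorem update_toX_O (h : O ≠ I) (o : List α) :
    Function.update (toX C I O w X zx U z s) O ⟨o.reverse, []⟩ =
      toX C I O w X zx U z ⟨s.v, s.p, o, s.x⟩ := by
  funext g
  by_cases hg : g = O
  · subst hg
    simp [toX, putX, h]
  · rw [Function.update_of_ne hg]
    simp [toX, putX, hg]

/-- Take a register out of `U`. -/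
theorem toX_erase {f : F} (h1 : f ≠ I) (h2 : f ≠ O) (h3 : f ∉ X)
    (x : Zip α) :
    Function.update (toX C I O w X zx U z s) f x =
      toX C I O w X zx (U.erase f) (Function.update z f x) s := by
  funext g
  by_cases hg : g = f
  · subst hg
    simp [toX, putX, h1, h2, h3]
  · rw [Function.update_of_ne hg]
    simp [toX, putX, hg]

theorem update_toX_bg {f : F} (h : f ∉ U) (h1 : f ≠ I) (h2 : f ≠ O) (h3 : f ∉ X) (x : Zip α) :
    Function.update (toX C I O w X zx U z s) f x =
      toX C I O w X zx U (Function.update z f x) s := by
  funext g
  by_cases hg : g = f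
  · subst hg
    simp [toX, putX, h, h1, h2, h3]
  · rw [Function.update_of_ne hg]
    simp [toX, putX, Function.update_of_ne hg]

end basic

namespace XP

open Prog

variable (m : F → ℕ) (w : List α) (e : α) (S : XSem α J σ)

theorem writes_subset (a : XP F α J) : a.writes ⊆ a.uses := by
  induction a with
  | nop => exact subset_rfl
  | emit a => exact subset_rfl
  | copy => exact subset_rfl
  | skip => exact subset_rfl
  | inc r => exact subset_rfl
  | seq a b iha ihb => exact Finset.union_subset_union iha ihb
  | loop r a ih => exact Finset.insert_subset_insert r ih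
  | forReg r a ih => exact ih.trans (Finset.subset_insert r _)
  | forCo r a ih => exact ih.trans (Finset.subset_insert r _)
  | ext j => exact subset_rfl

theorem marks_subset (a : XP F α J) : a.marks ⊆ a.uses := by
  induction a with
  | nop => exact subset_rfl
  | emit a => exact subset_rfl
  | copy => exact subset_rfl
  | skip => exact subset_rfl
  | inc r => simp [marks]
  | seq a b iha ihb => exact Finset.union_subset_union iha ihb
  | loop r a ih => exact ih.trans (Finset.subset_insert r _)
  | forReg r a ih => exact Finset.insert_subset_insert r ih
  | forCo r a ih => exact Finset.insert_subset_insert r ih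
  | ext j => exact subset_rfl

theorem eval_v_of_not_mem (a : XP F α J) (r : F) (hr : r ∉ a.writes) (s : XS F α σ) :
    (eval m w e S a s).v r = s.v r := by
  induction a generalizing s with
  | nop => rfl
  | emit a => rfl
  | copy => rfl
  | skip => rfl
  | inc r' =>
    have : r ≠ r' := by simpa [writes] using hr
    simp [eval, XS.set, Function.update_of_ne this]
  | seq a b iha ihb =>
    simp only [writes, Finset.mem_union, not_or] at hr
    rw [eval, ihb hr.2, iha hr.1]
  | loop r' a ih =>
    simp only [writes, Finset.mem_insert, not_or] at hr
    have h1 : ∀ n (s : XS F α σ), (((fun s => (eval m w e S a s).set r'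
        ((eval m w e S a s).v r' + 1))^[n]) s).v r = s.v r := by
      intro n
      induction n with
      | zero => intro s; rfl
      | succ n ihn =>
        intro s
        rw [Function.iterate_succ_apply, ihn]
        simp only [XS.set, Function.update_of_ne hr.1]
        exact ih hr.2 s
    rw [eval]
    simp only [XS.set, Function.update_of_ne hr.1]
    exact h1 _ s
  | forReg r' a ih =>
    have h1 : ∀ n (s : XS F α σ), ((eval m w e S a)^[n] s).v r = s.v r := by
      intro n
      induction n with
      | zero => intro s; rfl
      | succ n ihn =>
        intro s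
        rw [Function.iterate_succ_apply, ihn]
        exact ih hr s
    exact h1 _ s
  | forCo r' a ih =>
    have h1 : ∀ n (s : XS F α σ), ((eval m w e S a)^[n] s).v r = s.v r := by
      intro n
      induction n with
      | zero => intro s; rfl
      | succ n ihn =>
        intro s
        rw [Function.iterate_succ_apply, ihn]
        exact ih hr s
    exact h1 _ s
  | ext j => rfl

theorem run_skipX {d : α} (mem : M) (C : F → List α) (I O : F) (w : List α) (X : Finset F)
    (zx : σ → F → Zip α) (U : Finset F)
    (z : F → Zip α) (s : XS F α σ) : Run d (skipP I : Prog M F α) ⟨mem, toX C I O w X zx U z s⟩ 1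
      ⟨mem, toX C I O w X zx U z ⟨s.v, s.p + 1, s.o, s.x⟩⟩ := by
  apply Run.prim'
  have h1 : (Store.reads ⟨mem, toX C I O w X zx U z s⟩ I : Option α) = (atp w s.p).peek := by
    simp only [Store.reads]
    rw [toX_I]
  rw [h1]
  rw [atp_peek_isSome]
  by_cases h : s.p < w.length
  · simp only [h, decide_true, if_true, appAct]
    rw [toX_I, right_atp d w s.p h, update_toX_I]
  · simp only [h, decide_false, appAct]
    have : atp w s.p = atp w (s.p + 1) := (atp_succ_of_le w s.p (by omega)).symm
    have h2 := update_toX_I (C := C) (I := I) (O := O) (w := w) (X := X) (zx := zx) (U := U)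
      (z := z) (s := s) s.p
    have h3 := update_toX_I (C := C) (I := I) (O := O) (w := w) (X := X) (zx := zx) (U := U)
      (z := z) (s := s) (s.p + 1)
    rw [← this, h2] at h3
    simp only [Bool.false_eq_true, if_false]
    exact congrArg _ h3

theorem iterate_eval_v (a : XP F α J) (r : F) (hr : r ∉ a.writes) (j : ℕ) (s : XS F α σ) :
    ((eval m w e S a)^[j] s).v r = s.v r := by
  induction j generalizing s with
  | zero => rfl
  | succ j ih => rw [Function.iterate_succ_apply, ih, eval_v_of_not_mem m w e S a r hr]

/-- The programs `P j` implement the external instructions. -/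
def Impl (d : α) (I O : F) (w : List α) (e : α) (X : Finset F) (zx : σ → F → Zip α)
    (mem : M) (S : XSem α J σ) (P : J → Prog M F α) (c : J → ℕ) : Prop :=
  ∀ (j : J) (g : F → Zip α) (p : ℕ) (o : List α) (x : σ),
    Run d (P j) ⟨mem, putX I O w X zx p o x g⟩ (c j)
      ⟨mem, putX I O w X zx (p + S.adv j) (o ++ S.out j x)
        (S.nxt j (fun t => w.getD (p + t) e) x) g⟩

/-- Correctness of the compilation. -/
theorem compile_run [DecidableEq α] {d : α} (C : F → List α) (I O : F) (hIO : O ≠ I) (w : List α)
    (one mk e : α) (hmk : one ≠ mk) (mem : M) (X : Finset F) (zx : σ → F → Zip α)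
    (P : J → Prog M F α) (c : J → ℕ) (hP : Impl d I O w e X zx mem S P c) (a : XP F α J)
    (hwf : a.WF) (U : Finset F) (hUX : Disjoint U X)
    (hU : a.uses ⊆ U) (hI : I ∉ U) (hO : O ∉ U)
    (hC : ∀ r ∈ a.marks, C r = List.replicate (C r).length one) (z : F → Zip α) (s : XS F α σ)
    (hs : ∀ r ∈ a.uses, s.v r < (C r).length) :
    Run d (compile I O one mk e P a) ⟨mem, toX C I O w X zx U z s⟩
        (bd (fun f => (C f).length) c a)
      ⟨mem, toX C I O w X zx U z (eval (fun f => (C f).length) w e S a s)⟩ ∧
    ∀ r ∈ a.uses, (eval (fun f => (C f).length) w e S a s).v r < (C r).length := by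
  set m : F → ℕ := fun f => (C f).length with hm
  induction a generalizing U z s with
  | nop => exact ⟨run_nopP mem _, hs⟩
  | emit a =>
    refine ⟨?_, hs⟩
    refine Run.seq (t := 1) (t' := 1) (run_opP mem _ _ O (.write a) rfl)
      (run_opP mem _ _ O .right ?_)
    rw [Function.update_idem, Function.update_self, toX_O hIO]
    have : (Op.app d .right (Op.app d (.write a) ⟨s.o.reverse, []⟩) : Zip α) =
        ⟨(s.o ++ [a]).reverse, []⟩ := by simp [Op.app]
    rw [this, update_toX_O hIO]
    rfl
  | copy =>
    refine ⟨?_, hs⟩
    have h1 : (Store.reads ⟨mem, toX C I O w X zx U z s⟩ I : Option α) = w[s.p]? := by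
      simp only [Store.reads]
      rw [toX_I, atp_peek]
    refine Run.seq (t := 1) (t' := 2) (Run.prim _ _)
      (Run.seq (t := 1) (t' := 1) (run_opP mem _ _ O .right rfl) ?_)
    simp only [h1]
    rw [Function.update_idem, Function.update_self, toX_O hIO]
    have : (Op.app d .right (Op.app d (.write ((w[s.p]?).getD e)) ⟨s.o.reverse, []⟩) : Zip α) =
        ⟨(s.o ++ [(w[s.p]?).getD e]).reverse, []⟩ := by simp [Op.app]
    rw [this, update_toX_O hIO]
    exact run_skipX mem C I O w X zx U z _
  | skip => exact ⟨run_skipX mem C I O w X zx U z s, hs⟩
  | inc r =>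
    have hr : r ∈ U := hU (by simp [uses])
    have hrX : r ∉ X := fun h => (Finset.disjoint_left.1 hUX hr) h
    have hrI : r ≠ I := fun h => hI (h ▸ hr)
    have hrO : r ≠ O := fun h => hO (h ▸ hr)
    have hv : s.v r < (C r).length := hs r (by simp [uses])
    have h1 : Run d (opP r .right : Prog M F α) ⟨mem, toX C I O w X zx U z s⟩ 1
        ⟨mem, toX C I O w X zx U z (s.set r (s.v r + 1))⟩ := by
      apply run_opP
      rw [toX_mem hr hrI hrO hrX, right_atp d _ _ hv, update_toX_mem hr hrI hrO hrX]
    refine ⟨Run.seq (t := 1) (t' := 2) h1 ?_, ?_⟩
    · by_cases hlt : s.v r + 1 < (C r).length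
      · refine Run.iteF (t := 1) ?_ ?_
        · have : (Store.reads ⟨mem, toX C I O w X zx U z (s.set r (s.v r + 1))⟩ r : Option α) =
              (atp (C r) (s.v r + 1)).peek := by
            simp [Store.reads, toX_mem hr hrI hrO hrX, XS.set]
          simp only [this]
          rw [atp_peek, List.getElem?_eq_getElem hlt]
          rfl
        · have : (eval m w e S (inc r) s) = s.set r (s.v r + 1) := by
            simp only [eval, hm]
            rw [Nat.mod_eq_of_lt hlt]
          rw [this]
          exact run_nopP mem _
      · have hEq : s.v r + 1 = (C r).length := by omega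
        refine Run.iteT (t := 1) ?_ ?_
        · have : (Store.reads ⟨mem, toX C I O w X zx U z (s.set r (s.v r + 1))⟩ r : Option α) =
              (atp (C r) (s.v r + 1)).peek := by
            simp [Store.reads, toX_mem hr hrI hrO hrX, XS.set]
          simp only [this]
          rw [atp_peek, List.getElem?_eq_none (by omega)]
          rfl
        · have h2 : (eval m w e S (inc r) s) = s.set r 0 := by
            simp only [eval, hm]
            rw [hEq, Nat.mod_self]
          rw [h2]
          apply run_opP
          rw [toX_mem hr hrI hrO hrX, rew_atp, update_toX_mem hr hrI hrO hrX]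
          simp [XS.set]
    · intro r' hr'
      have : r' = r := by simpa [uses] using hr'
      subst this
      simp only [eval, XS.set, Function.update_self, hm]
      exact Nat.mod_lt _ (by omega)
  | seq a b iha ihb =>
    have h1 := iha hwf.1 U hUX (fun x hx => hU (Finset.mem_union_left _ hx)) hI hO
      (fun r hr => hC r (Finset.mem_union_left _ hr)) z s
      (fun r hr => hs r (Finset.mem_union_left _ hr))
    have hvb : ∀ r ∈ b.uses, (eval m w e S a s).v r < (C r).length := by
      intro r hr
      by_cases hra : r ∈ a.uses
      · exact h1.2 r hra
      · rw [eval_v_of_not_mem m w e S a r (fun h => hra (writes_subset a h))]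
        exact hs r (Finset.mem_union_right _ hr)
    have h2 := ihb hwf.2 U hUX (fun x hx => hU (Finset.mem_union_right _ hx)) hI hO
      (fun r hr => hC r (Finset.mem_union_right _ hr)) z (eval m w e S a s) hvb
    refine ⟨Run.seq h1.1 h2.1, ?_⟩
    intro r hr
    by_cases hrb : r ∈ b.uses
    · exact h2.2 r hrb
    · show (eval m w e S b (eval m w e S a s)).v r < _
      rw [eval_v_of_not_mem m w e S b r (fun h => hrb (writes_subset b h))]
      have hra : r ∈ a.uses := by
        simp only [uses, Finset.mem_union] at hr
        tauto
      exact h1.2 r hra
  | loop r a ih =>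
    have hr : r ∈ U := hU (by simp [uses])
    have hrX : r ∉ X := fun h => (Finset.disjoint_left.1 hUX hr) h
    have hrI : r ≠ I := fun h => hI (h ▸ hr)
    have hrO : r ≠ O := fun h => hO (h ▸ hr)
    have hv : s.v r < (C r).length := hs r (by simp [uses])
    set g : XS F α σ → XS F α σ := fun s => (eval m w e S a s).set r ((eval m w e S a s).v r + 1)
      with hg
    have key1 : ∀ t, (g t).v r = t.v r + 1 := by
      intro t
      simp only [hg, XS.set, Function.update_self]
      rw [eval_v_of_not_mem m w e S a r hwf.1]
    have key2 : ∀ t r', r' ≠ r → (g t).v r' = (eval m w e S a t).v r' := by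
      intro t r' h
      simp only [hg, XS.set, Function.update_of_ne h]
    -- the values along the loop
    have hgr : ∀ i, (g^[i] s).v r = s.v r + i := by
      intro i
      induction i with
      | zero => rfl
      | succ i ihi =>
        rw [Function.iterate_succ_apply', key1, ihi]
        rfl
    have hgu : ∀ i ≤ (C r).length - s.v r, (∀ r' ∈ a.uses, r' ≠ r →
        (g^[i] s).v r' < (C r').length) := by
      intro i
      induction i with
      | zero => intro _ r' hr' _; exact hs r' (Finset.mem_insert_of_mem hr')
      | succ i ihi =>
        intro hi r' hr' hne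
        rw [Function.iterate_succ_apply', key2 _ _ hne]
        have h2 := (ih hwf.2 U hUX (fun x hx => hU (Finset.mem_insert_of_mem hx)) hI hO hC z
          (g^[i] s) ?_).2 r' hr'
        · exact h2
        · intro r'' hr''
          by_cases h3 : r'' = r
          · subst h3
            rw [hgr]
            omega
          · exact ihi (by omega) r'' hr'' h3
    have hga : ∀ i < (C r).length - s.v r, ∀ r' ∈ a.uses, (g^[i] s).v r' < (C r').length := by
      intro i hi r' hr'
      by_cases h3 : r' = r
      · subst h3
        rw [hgr]
        omega
      · exact hgu i (by omega) r' hr' h3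
    refine ⟨?_, ?_⟩
    · have hloop : Run d (.loop (fun _ x => (x r).isSome)
          (.seq (compile I O one mk e P a) (opP r .right)) : Prog M F α)
          ⟨mem, toX C I O w X zx U z s⟩ (((C r).length - s.v r) * ((bd m c a + 1) + 1) + 1)
          ⟨mem, toX C I O w X zx U z (g^[(C r).length - s.v r] s)⟩ := by
        refine run_loop_inv ((C r).length - s.v r)
          (fun i => ⟨mem, toX C I O w X zx U z (g^[i] s)⟩) (bd m c a + 1) ?_ ?_ ?_ _ _ rfl rfl
        · intro i hi
          simp only [Store.reads]
          rw [toX_mem hr hrI hrO hrX, atp_peek_isSome, hgr]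
          simp only [decide_eq_true_eq]
          omega
        · simp only [Store.reads]
          rw [toX_mem hr hrI hrO hrX, atp_peek_isSome, hgr]
          simp only [decide_eq_false_iff_not]
          omega
        · intro i hi
          have h2 := (ih hwf.2 U hUX (fun x hx => hU (Finset.mem_insert_of_mem hx)) hI hO hC z
            (g^[i] s) (hga i hi)).1
          refine Run.seq h2 ?_
          apply run_opP
          rw [toX_mem hr hrI hrO hrX, right_atp, update_toX_mem hr hrI hrO hrX]
          · rw [Function.iterate_succ_apply']
          · rw [eval_v_of_not_mem m w e S a r hwf.1, hgr]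
            omega
      have hrew : Run d (opP r .rew : Prog M F α)
          ⟨mem, toX C I O w X zx U z (g^[(C r).length - s.v r] s)⟩ 1
          ⟨mem, toX C I O w X zx U z ((g^[(C r).length - s.v r] s).set r 0)⟩ := by
        apply run_opP
        rw [toX_mem hr hrI hrO hrX, rew_atp, update_toX_mem hr hrI hrO hrX]
      refine (Run.seq hloop hrew).mono ?_
      show _ ≤ (C r).length * (bd m c a + 2) + 2
      have : ((C r).length - s.v r) * (bd m c a + 2) ≤ (C r).length * (bd m c a + 2) :=
        Nat.mul_le_mul_right _ (by omega)
      have h3 : bd m c a + 1 + 1 = bd m c a + 2 := rfl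
      rw [h3]
      omega
    · intro r' hr'
      show ((g^[(C r).length - s.v r] s).set r 0).v r' < _
      by_cases h3 : r' = r
      · subst h3
        simp only [XS.set, Function.update_self]
        omega
      · simp only [XS.set]
        rw [Function.update_of_ne h3]
        apply hgu _ le_rfl _ _ h3
        simpa [uses, h3] using hr'
  | forReg r a ih =>
    have hr : r ∈ U := hU (by simp [uses])
    have hrX : r ∉ X := fun h => (Finset.disjoint_left.1 hUX hr) h
    have hrI : r ≠ I := fun h => hI (h ▸ hr)
    have hrO : r ≠ O := fun h => hO (h ▸ hr)
    have hv : s.v r < (C r).length := hs r (by simp [uses])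
    have hru : r ∉ a.uses := hwf.1
    have hrw : r ∉ a.writes := fun h => hru (writes_subset a h)
    have hrU' : r ∉ U.erase r := by simp
    have hUX' : Disjoint (U.erase r) X := hUX.mono_left (Finset.erase_subset _ _)
    have hCr : C r = List.replicate (C r).length one := hC r (by simp [marks])
    have hU' : a.uses ⊆ U.erase r := by
      intro x hx
      rw [Finset.mem_erase]
      exact ⟨fun h => hru (h ▸ hx), hU (Finset.mem_insert_of_mem hx)⟩
    set n := s.v r with hn
    set C' := (C r).set n mk with hC'
    have hC'j : ∀ j, C'[j]? = if j = n then some mk else if j < (C r).length then some one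
        else none := by
      intro j
      rw [hC', hCr, getElem?_set_rep one mk _ n j hv, List.length_replicate]
    have hC'l : C'.length = (C r).length := by simp [hC']
    have hq : ∀ (j : ℕ) (s' : XS F α σ), (Store.reads ⟨mem, toX C I O w X zx (U.erase r)
        (Function.update z r (atp C' j)) s'⟩ r : Option α) =
        if j = n then some mk else if j < (C r).length then some one else none := by
      intro j s'
      simp only [Store.reads]
      rw [toX_not_mem hrU' hrI hrO hrX, Function.update_self, atp_peek, hC'j]
    have hback : C'.set n one = C r := by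
      rw [hC', hCr, set_set_rep]
    have ih' := fun j s hs => ih hwf.2 (U.erase r) hUX' hU'
      (fun h => hI (Finset.mem_of_mem_erase h))
      (fun h => hO (Finset.mem_of_mem_erase h))
      (fun r' hr' => hC r' (Finset.mem_insert_of_mem hr'))
      (Function.update z r (atp C' j)) s hs
    have hit : ∀ j, ∀ r' ∈ a.uses, ((eval m w e S a)^[j] s).v r' < (C r').length := by
      intro j
      induction j with
      | zero => intro r' hr'; exact hs r' (Finset.mem_insert_of_mem hr')
      | succ j ihj =>
        rw [Function.iterate_succ_apply']
        exact (ih' 0 _ ihj).2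
    refine ⟨?_, ?_⟩
    · have e1 : Run d (opP r (.write mk) : Prog M F α) ⟨mem, toX C I O w X zx U z s⟩ 1
          ⟨mem, toX C I O w X zx (U.erase r) (Function.update z r (atp C' n)) s⟩ := by
        apply run_opP
        rw [toX_mem hr hrI hrO hrX, write_atp d _ _ _ hv, toX_erase hrI hrO hrX]
      have e2 : Run d (opP r .rew : Prog M F α)
          ⟨mem, toX C I O w X zx (U.erase r) (Function.update z r (atp C' n)) s⟩ 1
          ⟨mem, toX C I O w X zx (U.erase r) (Function.update z r (atp C' 0)) s⟩ := by
        apply run_opP
        rw [toX_not_mem hrU' hrI hrO hrX, Function.update_self, rew_atp,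
          update_toX_bg hrU' hrI hrO hrX, Function.update_idem]
      have e3 : Run d (.loop (fun _ x => decide (x r ≠ some mk))
          (.seq (compile I O one mk e P a) (opP r .right)) : Prog M F α)
          ⟨mem, toX C I O w X zx (U.erase r) (Function.update z r (atp C' 0)) s⟩
          (n * ((bd m c a + 1) + 1) + 1)
          ⟨mem, toX C I O w X zx (U.erase r) (Function.update z r (atp C' n))
            ((eval m w e S a)^[n] s)⟩ := by
        refine run_loop_inv n (fun j => ⟨mem, toX C I O w X zx (U.erase r)
          (Function.update z r (atp C' j)) ((eval m w e S a)^[j] s)⟩) (bd m c a + 1) ?_ ?_ ?_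
            _ _ rfl rfl
        · intro j hj
          rw [decide_eq_true_eq, hq, if_neg (by omega), if_pos (by omega)]
          simpa using hmk
        · rw [decide_eq_false_iff_not, hq, if_pos rfl]
          simp
        · intro j hj
          refine Run.seq (ih' j _ (hit j)).1 ?_
          apply run_opP
          rw [toX_not_mem hrU' hrI hrO hrX, Function.update_self, right_atp,
            update_toX_bg hrU' hrI hrO hrX, Function.update_idem, Function.iterate_succ_apply']
          omega
      have e4 : Run d (opP r (.write one) : Prog M F α)
          ⟨mem, toX C I O w X zx (U.erase r) (Function.update z r (atp C' n))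
            ((eval m w e S a)^[n] s)⟩ 1
          ⟨mem, toX C I O w X zx U z ((eval m w e S a)^[n] s)⟩ := by
        apply run_opP
        rw [toX_not_mem hrU' hrI hrO hrX, Function.update_self, write_atp d _ _ _ (by omega),
          hback, ← toX_erase hrI hrO hrX, Function.update_idem, update_toX_mem hr hrI hrO hrX]
        congr 1
        apply XS.ext
        · simp only [XS.set]
          have : ((eval m w e S a)^[n] s).v r = n := iterate_eval_v m w e S a r hrw n s
          conv_rhs => rw [← Function.update_eq_self r ((eval m w e S a)^[n] s).v]
          rw [this]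
        · rfl
        · rfl
        · rfl
      refine (Run.seq e1 (Run.seq e2 (Run.seq e3 e4))).mono ?_
      show _ ≤ (C r).length * (bd m c a + 2) + 4
      have : n * (bd m c a + 2) ≤ (C r).length * (bd m c a + 2) :=
        Nat.mul_le_mul_right _ (by omega)
      have h3 : bd m c a + 1 + 1 = bd m c a + 2 := rfl
      rw [h3]
      omega
    · intro r' hr'
      show ((eval m w e S a)^[n] s).v r' < _
      by_cases h3 : r' = r
      · subst h3
        rw [iterate_eval_v m w e S a r' hrw n s]
        exact hv
      · apply hit
        simpa [uses, h3] using hr'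
  | forCo r a ih =>
    have hr : r ∈ U := hU (by simp [uses])
    have hrX : r ∉ X := fun h => (Finset.disjoint_left.1 hUX hr) h
    have hrI : r ≠ I := fun h => hI (h ▸ hr)
    have hrO : r ≠ O := fun h => hO (h ▸ hr)
    have hv : s.v r < (C r).length := hs r (by simp [uses])
    have hru : r ∉ a.uses := hwf.1
    have hrw : r ∉ a.writes := fun h => hru (writes_subset a h)
    have hrU' : r ∉ U.erase r := by simp
    have hUX' : Disjoint (U.erase r) X := hUX.mono_left (Finset.erase_subset _ _)
    have hCr : C r = List.replicate (C r).length one := hC r (by simp [marks])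
    have hU' : a.uses ⊆ U.erase r := by
      intro x hx
      rw [Finset.mem_erase]
      exact ⟨fun h => hru (h ▸ hx), hU (Finset.mem_insert_of_mem hx)⟩
    set n := s.v r with hn
    set C' := (C r).set n mk with hC'
    have hC'j : ∀ j, C'[j]? = if j = n then some mk else if j < (C r).length then some one
        else none := by
      intro j
      rw [hC', hCr, getElem?_set_rep one mk _ n j hv, List.length_replicate]
    have hC'l : C'.length = (C r).length := by simp [hC']
    have hq : ∀ (j : ℕ) (s' : XS F α σ), (Store.reads ⟨mem, toX C I O w X zx (U.erase r)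
        (Function.update z r (atp C' j)) s'⟩ r : Option α) =
        if j = n then some mk else if j < (C r).length then some one else none := by
      intro j s'
      simp only [Store.reads]
      rw [toX_not_mem hrU' hrI hrO hrX, Function.update_self, atp_peek, hC'j]
    have hback : C'.set n one = C r := by
      rw [hC', hCr, set_set_rep]
    have ih' := fun j s hs => ih hwf.2 (U.erase r) hUX' hU'
      (fun h => hI (Finset.mem_of_mem_erase h))
      (fun h => hO (Finset.mem_of_mem_erase h))
      (fun r' hr' => hC r' (Finset.mem_insert_of_mem hr'))
      (Function.update z r (atp C' j)) s hs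
    have hit : ∀ j, ∀ r' ∈ a.uses, ((eval m w e S a)^[j] s).v r' < (C r').length := by
      intro j
      induction j with
      | zero => intro r' hr'; exact hs r' (Finset.mem_insert_of_mem hr')
      | succ j ihj =>
        rw [Function.iterate_succ_apply']
        exact (ih' 0 _ ihj).2
    set k := (C r).length - n with hk
    refine ⟨?_, ?_⟩
    · have e1 : Run d (opP r (.write mk) : Prog M F α) ⟨mem, toX C I O w X zx U z s⟩ 1
          ⟨mem, toX C I O w X zx (U.erase r) (Function.update z r (atp C' n)) s⟩ := by
        apply run_opP
        rw [toX_mem hr hrI hrO hrX, write_atp d _ _ _ hv, toX_erase hrI hrO hrX]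
      have e2 : Run d (.loop (fun _ x => (x r).isSome)
          (.seq (compile I O one mk e P a) (opP r .right)) : Prog M F α)
          ⟨mem, toX C I O w X zx (U.erase r) (Function.update z r (atp C' n)) s⟩
          (k * ((bd m c a + 1) + 1) + 1)
          ⟨mem, toX C I O w X zx (U.erase r) (Function.update z r (atp C' (n + k)))
            ((eval m w e S a)^[k] s)⟩ := by
        refine run_loop_inv k (fun j => ⟨mem, toX C I O w X zx (U.erase r)
          (Function.update z r (atp C' (n + j))) ((eval m w e S a)^[j] s)⟩) (bd m c a + 1)
            ?_ ?_ ?_ _ _ rfl rfl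
        · intro j hj
          simp only [Store.reads]
          rw [toX_not_mem hrU' hrI hrO hrX, Function.update_self, atp_peek_isSome]
          simp only [decide_eq_true_eq]
          omega
        · simp only [Store.reads]
          rw [toX_not_mem hrU' hrI hrO hrX, Function.update_self, atp_peek_isSome]
          simp only [decide_eq_false_iff_not]
          omega
        · intro j hj
          refine Run.seq (ih' (n + j) _ (hit j)).1 ?_
          apply run_opP
          rw [toX_not_mem hrU' hrI hrO hrX, Function.update_self, right_atp,
            update_toX_bg hrU' hrI hrO hrX, Function.update_idem, Function.iterate_succ_apply']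
          · rfl
          · omega
      have e3 : Run d (opP r .rew : Prog M F α)
          ⟨mem, toX C I O w X zx (U.erase r) (Function.update z r (atp C' (n + k)))
            ((eval m w e S a)^[k] s)⟩ 1
          ⟨mem, toX C I O w X zx (U.erase r) (Function.update z r (atp C' 0))
            ((eval m w e S a)^[k] s)⟩ := by
        apply run_opP
        rw [toX_not_mem hrU' hrI hrO hrX, Function.update_self, rew_atp,
          update_toX_bg hrU' hrI hrO hrX, Function.update_idem]
      have e4 : Run d (.loop (fun _ x => decide (x r ≠ some mk)) (opP r .right) : Prog M F α)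
          ⟨mem, toX C I O w X zx (U.erase r) (Function.update z r (atp C' 0))
            ((eval m w e S a)^[k] s)⟩
          (n * (1 + 1) + 1)
          ⟨mem, toX C I O w X zx (U.erase r) (Function.update z r (atp C' n))
            ((eval m w e S a)^[k] s)⟩ := by
        refine run_loop_inv n (fun j => ⟨mem, toX C I O w X zx (U.erase r)
          (Function.update z r (atp C' j)) ((eval m w e S a)^[k] s)⟩) 1 ?_ ?_ ?_ _ _ rfl rfl
        · intro j hj
          rw [decide_eq_true_eq, hq, if_neg (by omega), if_pos (by omega)]
          simpa using hmk
        · rw [decide_eq_false_iff_not, hq, if_pos rfl]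
          simp
        · intro j hj
          apply run_opP
          rw [toX_not_mem hrU' hrI hrO hrX, Function.update_self, right_atp,
            update_toX_bg hrU' hrI hrO hrX, Function.update_idem]
          omega
      have e5 : Run d (opP r (.write one) : Prog M F α)
          ⟨mem, toX C I O w X zx (U.erase r) (Function.update z r (atp C' n))
            ((eval m w e S a)^[k] s)⟩ 1
          ⟨mem, toX C I O w X zx U z ((eval m w e S a)^[k] s)⟩ := by
        apply run_opP
        rw [toX_not_mem hrU' hrI hrO hrX, Function.update_self, write_atp d _ _ _ (by omega),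
          hback, ← toX_erase hrI hrO hrX, Function.update_idem, update_toX_mem hr hrI hrO hrX]
        congr 1
        apply XS.ext
        · simp only [XS.set]
          have : ((eval m w e S a)^[k] s).v r = n := iterate_eval_v m w e S a r hrw k s
          conv_rhs => rw [← Function.update_eq_self r ((eval m w e S a)^[k] s).v]
          rw [this]
        · rfl
        · rfl
        · rfl
      refine (Run.seq e1 (Run.seq e2 (Run.seq e3 (Run.seq e4 e5)))).mono ?_
      show _ ≤ (C r).length * (bd m c a + 4) + 5
      have h3 : bd m c a + 1 + 1 = bd m c a + 2 := rfl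
      rw [h3]
      have h4 : k * (bd m c a + 2) ≤ (C r).length * (bd m c a + 2) :=
        Nat.mul_le_mul_right _ (by omega)
      have h5 : (C r).length * (bd m c a + 4) =
          (C r).length * (bd m c a + 2) + (C r).length * 2 := by
        ring
      omega
    · intro r' hr'
      show ((eval m w e S a)^[k] s).v r' < _
      by_cases h3 : r' = r
      · subst h3
        rw [iterate_eval_v m w e S a r' hrw k s]
        exact hv
      · apply hit
        simpa [uses, h3] using hr'
  | ext j =>
    refine ⟨?_, hs⟩
    exact hP j (fun f => if f ∈ U then atp (C f) (s.v f) else z f) s.p s.o s.x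

end XP

end Vale.Agent.P338.R2.H898
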