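import Vale.Agent.P338.R2.H898.XLoop

/-!
Renaming of registers; running a pass.
-/

namespace Vale.Agent.P338.R2.H898

open H806 (atp right_atp rew_atp write_atp atp_peek atp_peek_isSome atp_succ_of_le)
open H806.LP (opP nopP skipP run_opP run_nopP)

variable {M F R α J σ : Type} [DecidableEq F] [DecidableEq R]

namespace XP

/-- Renaming of registers. -/
def map (ρ : R → F) : XP R α J → XP F α J
  | nop => nop
  | emit a => emit a
  | copy => copy
  | skip => skip
  | inc r => inc (ρ r)
  | seq a b => seq (map ρ a) (map ρ b)
  | loop r a => loop (ρ r) (map ρ a)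
  | forReg r a => forReg (ρ r) (map ρ a)
  | forCo r a => forCo (ρ r) (map ρ a)
  | ext j => ext j

theorem uses_map (ρ : R → F) (a : XP R α J) : (map ρ a).uses = a.uses.image ρ := by
  induction a with
  | nop => rfl
  | emit a => rfl
  | copy => rfl
  | skip => rfl
  | inc r => simp [map, uses]
  | seq a b iha ihb => simp only [map, uses, iha, ihb, Finset.image_union]
  | loop r a ih => simp only [map, uses, ih, Finset.image_insert]
  | forReg r a ih => simp only [map, uses, ih, Finset.image_insert]
  | forCo r a ih => simp only [map, uses, ih, Finset.image_insert]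
  | ext j => rfl

theorem writes_map (ρ : R → F) (a : XP R α J) : (map ρ a).writes = a.writes.image ρ := by
  induction a with
  | nop => rfl
  | emit a => rfl
  | copy => rfl
  | skip => rfl
  | inc r => simp [map, writes]
  | seq a b iha ihb => simp only [map, writes, iha, ihb, Finset.image_union]
  | loop r a ih => simp only [map, writes, ih, Finset.image_insert]
  | forReg r a ih => simp only [map, writes, ih]
  | forCo r a ih => simp only [map, writes, ih]
  | ext j => rfl

theorem marks_map (ρ : R → F) (a : XP R α J) : (map ρ a).marks = a.marks.image ρ := by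
  induction a with
  | nop => rfl
  | emit a => rfl
  | copy => rfl
  | skip => rfl
  | inc r => rfl
  | seq a b iha ihb => simp only [map, marks, iha, ihb, Finset.image_union]
  | loop r a ih => simp only [map, marks, ih]
  | forReg r a ih => simp only [map, marks, ih, Finset.image_insert]
  | forCo r a ih => simp only [map, marks, ih, Finset.image_insert]
  | ext j => rfl

theorem wf_map {ρ : R → F} (hρ : Function.Injective ρ) (a : XP R α J) (h : a.WF) :
    (map ρ a).WF := by
  induction a with
  | nop => trivial
  | emit a => trivial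
  | copy => trivial
  | skip => trivial
  | inc r => trivial
  | seq a b iha ihb => exact ⟨iha h.1, ihb h.2⟩
  | loop r a ih =>
    refine ⟨?_, ih h.2⟩
    rw [writes_map, Finset.mem_image]
    rintro ⟨x, hx, he⟩
    rw [hρ he] at hx
    exact h.1 hx
  | forReg r a ih =>
    refine ⟨?_, ih h.2⟩
    rw [uses_map, Finset.mem_image]
    rintro ⟨x, hx, he⟩
    rw [hρ he] at hx
    exact h.1 hx
  | forCo r a ih =>
    refine ⟨?_, ih h.2⟩
    rw [uses_map, Finset.mem_image]
    rintro ⟨x, hx, he⟩
    rw [hρ he] at hx
    exact h.1 hx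
  | ext j => trivial

omit [DecidableEq F] [DecidableEq R] in
theorem bd_map (m : F → ℕ) (c : J → ℕ) (ρ : R → F) (a : XP R α J) :
    bd m c (map ρ a) = bd (fun r => m (ρ r)) c a := by
  induction a with
  | nop => rfl
  | emit a => rfl
  | copy => rfl
  | skip => rfl
  | inc r => rfl
  | seq a b iha ihb => simp only [map, bd, iha, ihb]
  | loop r a ih => simp only [map, bd, ih]
  | forReg r a ih => simp only [map, bd, ih]
  | forCo r a ih => simp only [map, bd, ih]
  | ext j => rfl

end XP

/-- The part of a state seen by a renamed program. -/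
def XS.pull (ρ : R → F) (s : XS F α σ) : XS R α σ := ⟨fun r => s.v (ρ r), s.p, s.o, s.x⟩

/-- Replace the part of a state seen by a renamed program. -/
noncomputable def XS.put (ρ : R → F) (s : XS F α σ) (t : XS R α σ) : XS F α σ :=
  ⟨Function.extend ρ t.v s.v, t.p, t.o, t.x⟩

section

variable {ρ : R → F} (hρ : Function.Injective ρ)

include hρ in
omit [DecidableEq F] [DecidableEq R] in
theorem XS.put_pull (s : XS F α σ) : s.put ρ (s.pull ρ) = s := by
  unfold XS.put XS.pull
  have : Function.extend ρ (fun r => s.v (ρ r)) s.v = s.v := by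
    funext f
    by_cases h : ∃ r, ρ r = f
    · obtain ⟨r, rfl⟩ := h
      rw [hρ.extend_apply]
    · rw [Function.extend_apply' _ _ _ h]
  rw [this]

include hρ in
omit [DecidableEq F] [DecidableEq R] in
theorem XS.pull_put (s : XS F α σ) (t : XS R α σ) : (s.put ρ t).pull ρ = t := by
  unfold XS.put XS.pull
  have : (fun r => Function.extend ρ t.v s.v (ρ r)) = t.v := by
    funext r
    rw [hρ.extend_apply]
  rw [this]

include hρ in
omit [DecidableEq F] [DecidableEq R] in
theorem XS.put_put (s : XS F α σ) (t t' : XS R α σ) : (s.put ρ t).put ρ t' = s.put ρ t' := by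
  unfold XS.put
  have : Function.extend ρ t'.v (Function.extend ρ t.v s.v) = Function.extend ρ t'.v s.v := by
    funext f
    by_cases h : ∃ r, ρ r = f
    · obtain ⟨r, rfl⟩ := h
      rw [hρ.extend_apply, hρ.extend_apply]
    · rw [Function.extend_apply' _ _ _ h, Function.extend_apply' _ _ _ h,
        Function.extend_apply' _ _ _ h]
  rw [this]

include hρ in
theorem XS.put_set (s : XS F α σ) (t : XS R α σ) (r : R) (n : ℕ) :
    (s.put ρ t).set (ρ r) n = s.put ρ (t.set r n) := by
  unfold XS.put XS.set
  simp only [XS.mk.injEq, and_self, and_true]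
  funext f
  by_cases h : ∃ r', ρ r' = f
  · obtain ⟨r', rfl⟩ := h
    rw [hρ.extend_apply]
    by_cases hr : r' = r
    · subst hr
      simp
    · rw [Function.update_of_ne hr, Function.update_of_ne (fun h => hr (hρ h)), hρ.extend_apply]
  · rw [Function.extend_apply' _ _ _ h, Function.update_of_ne, Function.extend_apply' _ _ _ h]
    rintro rfl
    exact h ⟨r, rfl⟩

include hρ in
omit [DecidableEq F] [DecidableEq R] in
theorem XS.put_v (s : XS F α σ) (t : XS R α σ) (r : R) : (s.put ρ t).v (ρ r) = t.v r :=
  hρ.extend_apply _ _ _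

namespace XP

variable (m : F → ℕ) (w : List α) (e : α) (S : XSem α J σ)

include hρ in
theorem eval_map' (a : XP R α J) (s : XS F α σ) (t : XS R α σ) :
    eval m w e S (map ρ a) (s.put ρ t) = s.put ρ (eval (fun r => m (ρ r)) w e S a t) := by
  induction a generalizing t with
  | nop => rfl
  | emit a => rfl
  | copy => rfl
  | skip => rfl
  | inc r =>
    simp only [map, eval]
    rw [XS.put_v hρ, XS.put_set hρ]
  | seq a b iha ihb =>
    simp only [map, eval]
    rw [iha, ihb]
  | loop r a ih =>
    have h1 : ∀ n (t : XS R α σ), (fun s => (eval m w e S (map ρ a) s).set (ρ r)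
        ((eval m w e S (map ρ a) s).v (ρ r) + 1))^[n] (s.put ρ t) =
        s.put ρ ((fun s => (eval (fun r => m (ρ r)) w e S a s).set r
          ((eval (fun r => m (ρ r)) w e S a s).v r + 1))^[n] t) := by
      intro n
      induction n with
      | zero => intro t; rfl
      | succ n ihn =>
        intro t
        rw [Function.iterate_succ_apply, Function.iterate_succ_apply]
        rw [ih, XS.put_v hρ, XS.put_set hρ, ihn]
    simp only [map, eval]
    rw [XS.put_v hρ, h1, XS.put_set hρ]
  | forReg r a ih =>
    have h1 : ∀ n (t : XS R α σ), (eval m w e S (map ρ a))^[n] (s.put ρ t) =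
        s.put ρ ((eval (fun r => m (ρ r)) w e S a)^[n] t) := by
      intro n
      induction n with
      | zero => intro t; rfl
      | succ n ihn =>
        intro t
        rw [Function.iterate_succ_apply, Function.iterate_succ_apply, ih, ihn]
    simp only [map, eval]
    rw [XS.put_v hρ, h1]
  | forCo r a ih =>
    have h1 : ∀ n (t : XS R α σ), (eval m w e S (map ρ a))^[n] (s.put ρ t) =
        s.put ρ ((eval (fun r => m (ρ r)) w e S a)^[n] t) := by
      intro n
      induction n with
      | zero => intro t; rfl
      | succ n ihn =>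
        intro t
        rw [Function.iterate_succ_apply, Function.iterate_succ_apply, ih, ihn]
    simp only [map, eval]
    rw [XS.put_v hρ, h1]
  | ext j => rfl

include hρ in
theorem eval_map (a : XP R α J) (s : XS F α σ) :
    eval m w e S (map ρ a) s = s.put ρ (eval (fun r => m (ρ r)) w e S a (s.pull ρ)) := by
  have := eval_map' hρ m w e S a s (s.pull ρ)
  rwa [XS.put_pull hρ] at this

end XP

end

namespace XP

open Prog

/-- The evaluation depends only on the lengths of the rulers used. -/
theorem eval_congr_m {m m' : F → ℕ} {w : List α} {e : α} {S : XSem α J σ} (a : XP F α J)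
    (h : ∀ r ∈ a.uses, m r = m' r) (s : XS F α σ) : eval m w e S a s = eval m' w e S a s := by
  induction a generalizing s with
  | nop => rfl
  | emit a => rfl
  | copy => rfl
  | skip => rfl
  | inc r =>
    simp only [eval]
    rw [h r (by simp [uses])]
  | seq a b iha ihb =>
    simp only [eval]
    rw [iha (fun r hr => h r (Finset.mem_union_left _ hr)),
      ihb (fun r hr => h r (Finset.mem_union_right _ hr))]
  | loop r a ih =>
    have h1 : eval m w e S a = eval m' w e S a := by
      funext s
      exact ih (fun r hr => h r (Finset.mem_insert_of_mem hr)) s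
    simp only [eval]
    rw [h1, h r (by simp [uses])]
  | forReg r a ih =>
    have h1 : eval m w e S a = eval m' w e S a := by
      funext s
      exact ih (fun r hr => h r (Finset.mem_insert_of_mem hr)) s
    simp only [eval]
    rw [h1]
  | forCo r a ih =>
    have h1 : eval m w e S a = eval m' w e S a := by
      funext s
      exact ih (fun r hr => h r (Finset.mem_insert_of_mem hr)) s
    simp only [eval]
    rw [h1, h r (by simp [uses])]
  | ext j => rfl

theorem bd_congr_m {m m' : F → ℕ} {c : J → ℕ} (a : XP F α J) (h : ∀ r ∈ a.uses, m r = m' r) :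
    bd m c a = bd m' c a := by
  induction a with
  | nop => rfl
  | emit a => rfl
  | copy => rfl
  | skip => rfl
  | inc r => rfl
  | seq a b iha ihb =>
    simp only [bd]
    rw [iha (fun r hr => h r (Finset.mem_union_left _ hr)),
      ihb (fun r hr => h r (Finset.mem_union_right _ hr))]
  | loop r a ih =>
    simp only [bd]
    rw [ih (fun r hr => h r (Finset.mem_insert_of_mem hr)), h r (by simp [uses])]
  | forReg r a ih =>
    simp only [bd]
    rw [ih (fun r hr => h r (Finset.mem_insert_of_mem hr)), h r (by simp [uses])]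
  | forCo r a ih =>
    simp only [bd]
    rw [ih (fun r hr => h r (Finset.mem_insert_of_mem hr)), h r (by simp [uses])]
  | ext j => rfl

/-- The program of a pass: run the loop program, rewind the input and the output. -/
def passX [DecidableEq α] (I O : F) (one mk e : α) (P : J → Prog M F α) (a : XP F α J) :
    Prog M F α :=
  .seq (compile I O one mk e P a) (.seq (opP I .rew) (opP O .rew))

/-- The `Run` statement of a pass. The program `a` is written with registers `R`, embedded in the
files by `ρ`. The rulers `ρ r` of the program are files of length `m r`; those used for `forReg`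
and `forCo` consist of the symbol `one`. -/
theorem run_passX [DecidableEq α] {d : α} (ρ : R → F) (hρ : Function.Injective ρ)
    (a : XP R α J) (hwf : a.WF) (I O : F) (hIO : O ≠ I) (X : Finset F) (hIX : I ∉ X)
    (hOX : O ∉ X) (hρI : ∀ r, ρ r ≠ I) (hρO : ∀ r, ρ r ≠ O) (hρX : ∀ r, ρ r ∉ X)
    (one mk e : α) (hmk : one ≠ mk) (mem : M) (zx : σ → F → Zip α) (S : XSem α J σ)
    (P : J → Prog M F α) (c : J → ℕ) (w : List α)
    (hP : Impl d I O w e X zx mem S P c) (z : F → Zip α) (m : R → ℕ)
    (hzI : z I = ⟨[], w⟩) (hzO : z O = ⟨[], []⟩)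
    (hz : ∀ r ∈ a.uses, ∃ c, z (ρ r) = ⟨[], c⟩ ∧ c.length = m r ∧
      (r ∈ a.marks → c = List.replicate (m r) one))
    (hm : ∀ r ∈ a.uses, 0 < m r) {x0 x1 : σ} (hx0 : ∀ f ∈ X, z f = zx x0 f)
    {n : ℕ} {out : List α}
    (h : eval m w e S a ⟨fun _ => 0, 0, [], x0⟩ = ⟨fun _ => 0, n, out, x1⟩) :
    Run d (passX I O one mk e P (map ρ a)) ⟨mem, z⟩ (bd m c a + 2)
      ⟨mem, fun f => if f = O then ⟨[], out⟩ else if f ∈ X then zx x1 f else z f⟩ := by
  classical
  set C : F → List α := fun f => (z f).r with hC
  set b := map ρ a with hb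
  have hbu : b.uses = a.uses.image ρ := uses_map ρ a
  have hCm : ∀ r ∈ a.uses, (C (ρ r)).length = m r := by
    intro r hr
    obtain ⟨c, h1, h2, _⟩ := hz r hr
    simp [hC, h1, h2]
  have hUX : Disjoint b.uses X := by
    rw [Finset.disjoint_left, hbu]
    intro f hf
    obtain ⟨r, _, rfl⟩ := Finset.mem_image.1 hf
    exact hρX r
  have hIU : I ∉ b.uses := by
    rw [hbu, Finset.mem_image]
    rintro ⟨r, _, h⟩
    exact hρI r h
  have hOU : O ∉ b.uses := by
    rw [hbu, Finset.mem_image]
    rintro ⟨r, _, h⟩
    exact hρO r h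
  have hstart : toX C I O w X zx b.uses z ⟨fun _ => 0, 0, [], x0⟩ = z := by
    funext f
    unfold toX putX
    by_cases h1 : f = I
    · subst h1
      simp [hzI, atp]
    · by_cases h2 : f = O
      · subst h2
        simp [h1, hzO]
      · by_cases h3 : f ∈ X
        · simp only [h1, h2, h3, if_false, if_true]
          exact (hx0 f h3).symm
        · by_cases h4 : f ∈ b.uses
          · rw [hbu] at h4
            obtain ⟨r, hr, rfl⟩ := Finset.mem_image.1 h4
            obtain ⟨c, h5, _, _⟩ := hz r hr
            rw [← hbu] at h4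
            simp [h1, h2, h3, h4, hC, atp, h5]
          · simp [h1, h2, h3, h4]
  have hev : eval (fun f => (C f).length) w e S b ⟨fun _ => 0, 0, [], x0⟩ =
      ⟨fun _ => 0, n, out, x1⟩ := by
    rw [hb, eval_map hρ]
    have h1 : eval (fun r => (C (ρ r)).length) w e S a
        ((⟨fun _ => 0, 0, [], x0⟩ : XS F α σ).pull ρ) = ⟨fun _ => 0, n, out, x1⟩ := by
      rw [eval_congr_m (m' := m) a hCm]
      exact h
    rw [h1]
    unfold XS.put
    have : Function.extend ρ (fun _ => 0) (fun _ => 0) = (fun _ => 0 : F → ℕ) := by
      funext f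
      by_cases hf : ∃ r, ρ r = f
      · obtain ⟨r, rfl⟩ := hf
        rw [hρ.extend_apply]
      · rw [Function.extend_apply' _ _ _ hf]
    rw [this]
  have hrun := (compile_run (d := d) (S := S) C I O hIO w one mk e hmk mem X zx P c hP b
    (wf_map hρ a hwf) b.uses hUX subset_rfl hIU hOU (by
      intro f hf
      rw [hb, marks_map] at hf
      obtain ⟨r, hr, rfl⟩ := Finset.mem_image.1 hf
      obtain ⟨c, h1, h2, h3⟩ := hz r (marks_subset a hr)
      simp only [hC, h1]
      rw [h2]
      exact h3 hr) z ⟨fun _ => 0, 0, [], x0⟩ (by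
      intro f hf
      rw [hbu] at hf
      obtain ⟨r, hr, rfl⟩ := Finset.mem_image.1 hf
      rw [hCm r hr]
      exact hm r hr)).1
  rw [hstart, hev, hb, bd_map, bd_congr_m (m' := m) a hCm] at hrun
  refine (Run.seq hrun (Run.seq (t := 1) (t' := 1) (run_opP mem _ _ I .rew rfl)
    (run_opP mem _ _ O .rew ?_)))
  rw [toX_I, rew_atp, update_toX_I, toX_O hIO]
  have h5 : (Op.app d .rew ⟨out.reverse, []⟩ : Zip α) = ⟨[], out⟩ := by simp [Op.app]
  rw [h5]
  funext f
  by_cases h2 : f = O
  · subst h2
    simp
  · rw [Function.update_of_ne h2, if_neg h2]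
    have h6 := congrFun hstart f
    unfold toX putX at h6 ⊢
    by_cases h1 : f = I
    · subst h1
      simp only [if_true] at h6 ⊢
      rw [if_neg hIX, h6]
    · by_cases h3 : f ∈ X
      · simp only [h1, h2, h3, if_false, if_true]
      · simp only [h1, h2, h3, if_false] at h6 ⊢
        exact h6

end XP

end Vale.Agent.P338.R2.H898
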