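import Vale.Agent.P338.R2.H898.XMap
import Vale.Agent.P338.R2.H525.Fp.Spec

/-!
Loop programs with word registers. Programs have type `XP R Bool (WI V)`: `R` is the type of the
rulers, `V` the type of the word registers. They are evaluated by `XP.eval m w false (wsem W L p μ)`
on states `⟨v, p, o, u⟩ : XS R Bool (V → ℕ)`.
-/

namespace Vale.Agent.P338.R2.H898

open H778 (bits)
open H525.Fp (mmN)

/-- Instructions on word registers: `rd i` reads the next `W` bits of the input, `wr i` writes the
`W` bits of the register, `wrl i` writes its last `L` bits, `mul i j k` is the multiplication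
modulo `p`, `cp i j` copies register `j` to register `i`, `one i` sets register `i` to `1`. -/
inductive WI (V : Type)
  | rd (i : V)
  | wr (i : V)
  | wrl (i : V)
  | mul (i j k : V)
  | cp (i j : V)
  | one (i : V)

variable {V : Type} [DecidableEq V]

/-- Number of bits read. -/
def WI.adv (W : ℕ) : WI V → ℕ
  | .rd _ => W
  | .wr _ => 0
  | .wrl _ => 0
  | .mul _ _ _ => 0
  | .cp _ _ => 0
  | .one _ => 0

/-- Output. -/
def WI.out (W L : ℕ) : WI V → (V → ℕ) → List Bool
  | .rd _, _ => []
  | .wr i, u => bits W (u i)
  | .wrl i, u => (bits W (u i)).drop (W - L)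
  | .mul _ _ _, _ => []
  | .cp _ _, _ => []
  | .one _, _ => []

/-- New values of the registers. -/
def WI.nxt (W p μ : ℕ) : WI V → (ℕ → Bool) → (V → ℕ) → V → ℕ
  | .rd i, f, u => Function.update u i (H778.val ((List.range W).map f))
  | .wr _, _, u => u
  | .wrl _, _, u => u
  | .mul i j k, _, u => Function.update u i (mmN W p μ (u j) (u k))
  | .cp i j, _, u => Function.update u i (u j)
  | .one i, _, u => Function.update u i 1

/-- The semantics of the instructions. -/
def wsem (W L p μ : ℕ) : XSem Bool (WI V) (V → ℕ) := ⟨WI.adv W, WI.out W L, WI.nxt W p μ⟩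

namespace XP

variable {R : Type} [DecidableEq R] {m : R → ℕ} {w : List Bool} {e : Bool} {W L p μ : ℕ}

theorem eval_rd (i : V) (s : XS R Bool (V → ℕ)) (h : s.p + W ≤ w.length) :
    eval m w e (wsem W L p μ) (ext (.rd i)) s =
      ⟨s.v, s.p + W, s.o, Function.update s.x i (H778.val ((w.drop s.p).take W))⟩ := by
  simp only [eval, wsem, WI.adv, WI.out, WI.nxt, List.append_nil]
  rw [map_getD_range w e s.p W h]

theorem eval_wr (i : V) (s : XS R Bool (V → ℕ)) :
    eval m w e (wsem W L p μ) (ext (.wr i)) s = ⟨s.v, s.p, s.o ++ bits W (s.x i), s.x⟩ := rfl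

theorem eval_wrl (i : V) (s : XS R Bool (V → ℕ)) :
    eval m w e (wsem W L p μ) (ext (.wrl i)) s =
      ⟨s.v, s.p, s.o ++ (bits W (s.x i)).drop (W - L), s.x⟩ := rfl

theorem eval_mul (i j k : V) (s : XS R Bool (V → ℕ)) :
    eval m w e (wsem W L p μ) (ext (.mul i j k)) s =
      ⟨s.v, s.p, s.o, Function.update s.x i (mmN W p μ (s.x j) (s.x k))⟩ := by
  simp [eval, wsem, WI.adv, WI.out, WI.nxt]

theorem eval_cp (i j : V) (s : XS R Bool (V → ℕ)) :
    eval m w e (wsem W L p μ) (ext (.cp i j)) s =
      ⟨s.v, s.p, s.o, Function.update s.x i (s.x j)⟩ := by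
  simp [eval, wsem, WI.adv, WI.out, WI.nxt]

theorem eval_one (i : V) (s : XS R Bool (V → ℕ)) :
    eval m w e (wsem W L p μ) (ext (.one i)) s =
      ⟨s.v, s.p, s.o, Function.update s.x i 1⟩ := by
  simp [eval, wsem, WI.adv, WI.out, WI.nxt]

end XP

section rules

/-! Rules for the evaluation. -/

variable {F α J σ : Type} [DecidableEq F] {m : F → ℕ} {w : List α} {e : α} {S : XSem α J σ}

theorem XS.set_set (s : XS F α σ) (r : F) (i j : ℕ) : (s.set r i).set r j = s.set r j := by
  simp [XS.set]

theorem XS.set_v_self (s : XS F α σ) (r : F) (i : ℕ) : (s.set r i).v r = i := by simp [XS.set]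

theorem XS.set_v_ne (s : XS F α σ) {r r' : F} (h : r' ≠ r) (i : ℕ) :
    (s.set r i).v r' = s.v r' := by
  simp [XS.set, h]

theorem XS.set_eq (s : XS F α σ) (r : F) : s.set r (s.v r) = s := by
  simp [XS.set]

namespace XP

/-- Rule for loops. -/
theorem eval_loop {r : F} {a : XP F α J} {s : XS F α σ} (I : ℕ → XS F α σ) (h0 : I 0 = s)
    (hv : ∀ i, (I i).v r = 0)
    (step : ∀ i < m r, eval m w e S a ((I i).set r i) = (I (i + 1)).set r i) :
    eval m w e S (loop r a) s = I (m r) := by
  have hs : s.v r = 0 := h0 ▸ hv 0
  have key : ∀ i ≤ m r, (fun s => (eval m w e S a s).set r ((eval m w e S a s).v r + 1))^[i] s =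
      (I i).set r i := by
    intro i
    induction i with
    | zero =>
      intro _
      simp only [Function.iterate_zero, id_eq]
      rw [← h0]
      have := XS.set_eq (I 0) r
      rw [hv 0] at this
      exact this.symm
    | succ i ih =>
      intro hi
      rw [Function.iterate_succ_apply', ih (by omega), step i (by omega), XS.set_v_self,
        XS.set_set]
  rw [eval]
  rw [hs, Nat.sub_zero, key _ le_rfl, XS.set_set]
  have := XS.set_eq (I (m r)) r
  rw [hv] at this
  exact this

/-- Rule for loops whose body does not use the register. -/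
theorem eval_loop_v {r : F} {a : XP F α J} (v : F → ℕ) (hv : v r = 0) (q : ℕ → ℕ)
    (o : ℕ → List α) (x : ℕ → σ)
    (step : ∀ i < m r, eval m w e S a ⟨Function.update v r i, q i, o i, x i⟩ =
      ⟨Function.update v r i, q (i + 1), o (i + 1), x (i + 1)⟩) :
    eval m w e S (loop r a) ⟨v, q 0, o 0, x 0⟩ = ⟨v, q (m r), o (m r), x (m r)⟩ :=
  eval_loop (fun i => ⟨v, q i, o i, x i⟩) rfl (fun _ => hv) step

/-- Rule for `forReg`. -/
theorem eval_forReg {r : F} {a : XP F α J} {s : XS F α σ} (I : ℕ → XS F α σ) (h0 : I 0 = s)
    (step : ∀ i < s.v r, eval m w e S a (I i) = I (i + 1)) :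
    eval m w e S (forReg r a) s = I (s.v r) := by
  have key : ∀ i ≤ s.v r, (eval m w e S a)^[i] s = I i := by
    intro i
    induction i with
    | zero =>
      intro _
      exact h0.symm
    | succ i ih =>
      intro hi
      rw [Function.iterate_succ_apply', ih (by omega), step i (by omega)]
  rw [eval]
  exact key _ le_rfl

/-- Rule for `forCo`. -/
theorem eval_forCo {r : F} {a : XP F α J} {s : XS F α σ} (I : ℕ → XS F α σ) (h0 : I 0 = s)
    (step : ∀ i < m r - s.v r, eval m w e S a (I i) = I (i + 1)) :
    eval m w e S (forCo r a) s = I (m r - s.v r) := by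
  have key : ∀ i ≤ m r - s.v r, (eval m w e S a)^[i] s = I i := by
    intro i
    induction i with
    | zero =>
      intro _
      exact h0.symm
    | succ i ih =>
      intro hi
      rw [Function.iterate_succ_apply', ih (by omega), step i (by omega)]
  rw [eval]
  exact key _ le_rfl

theorem eval_seq (a b : XP F α J) (s : XS F α σ) :
    eval m w e S (seq a b) s = eval m w e S b (eval m w e S a s) := rfl

theorem eval_inc (r : F) (s : XS F α σ) :
    eval m w e S (inc r) s = s.set r ((s.v r + 1) % m r) := rfl

theorem eval_emit (b : α) (s : XS F α σ) :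
    eval m w e S (emit b) s = ⟨s.v, s.p, s.o ++ [b], s.x⟩ := rfl

theorem eval_skip (s : XS F α σ) : eval m w e S skip s = ⟨s.v, s.p + 1, s.o, s.x⟩ := rfl

/-- A program that skips `c` symbols and writes `l`, whatever the extra state, provided that the
registers of `Z` are `0`. -/
def Act (m : F → ℕ) (w : List α) (e : α) (S : XSem α J σ) (a : XP F α J) (Z : Finset F) (c : ℕ)
    (l : List α) : Prop :=
  ∀ s : XS F α σ, (∀ r ∈ Z, s.v r = 0) → eval m w e S a s = ⟨s.v, s.p + c, s.o ++ l, s.x⟩

theorem Act.skip : Act m w e S (skip : XP F α J) ∅ 1 [] := by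
  intro s _
  simp [eval]

theorem Act.emit (x : α) : Act m w e S (emit x : XP F α J) ∅ 0 [x] := by
  intro s _
  simp [eval]

theorem Act.nop : Act m w e S (nop : XP F α J) ∅ 0 [] := by
  intro s _
  simp [eval]

theorem Act.seq {a b : XP F α J} {Z Z' : Finset F} {c c' : ℕ} {l l' : List α}
    (h : Act m w e S a Z c l) (h' : Act m w e S b Z' c' l') :
    Act m w e S (XP.seq a b) (Z ∪ Z') (c + c') (l ++ l') := by
  intro s hs
  rw [eval, h s (fun r hr => hs r (Finset.mem_union_left _ hr)),
    h' ⟨s.v, s.p + c, s.o ++ l, s.x⟩ (fun r hr => hs r (Finset.mem_union_right _ hr))]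
  simp [Nat.add_assoc]

theorem Act.loop {r : F} {a : XP F α J} {Z : Finset F} {c : ℕ} {l : List α} (hr : r ∉ Z)
    (h : Act m w e S a Z c l) :
    Act m w e S (XP.loop r a) (insert r Z) (m r * c) ((List.range (m r)).flatMap fun _ => l) := by
  intro s hs
  have h0 : s.v r = 0 := hs r (Finset.mem_insert_self _ _)
  have := eval_loop (m := m) (w := w) (e := e) (S := S) (r := r) (a := a) (s := s)
    (fun i => ⟨s.v, s.p + i * c, s.o ++ (List.range i).flatMap fun _ => l, s.x⟩) (by simp)
    (fun _ => h0) (by
      intro i hi
      rw [h]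
      · simp only [XS.set, XS.mk.injEq, true_and, and_true]
        constructor
        · ring
        · rw [List.range_succ, List.flatMap_append]
          simp
      · intro r' hr'
        have hne : r' ≠ r := fun h => hr (h ▸ hr')
        simp only [XS.set, Function.update_of_ne hne]
        exact hs r' (Finset.mem_insert_of_mem hr'))
  exact this

theorem Act.weaken {a : XP F α J} {Z Z' : Finset F} {c c' : ℕ} {l l' : List α}
    (h : Act m w e S a Z c l) (hZ : Z ⊆ Z') (hc : c = c') (hl : l = l') :
    Act m w e S a Z' c' l' := by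
  subst hc hl
  exact fun s hs => h s (fun r hr => hs r (hZ hr))

/-- Skipping. -/
theorem Act.loopSkip {r : F} {a : XP F α J} {Z : Finset F} {c : ℕ} (hr : r ∉ Z)
    (h : Act m w e S a Z c []) : Act m w e S (XP.loop r a) (insert r Z) (m r * c) [] :=
  (Act.loop hr h).weaken subset_rfl rfl (flatMap_nil _)

/-- Emitting copies of one symbol. -/
theorem Act.loopEmit {r : F} {a : XP F α J} {Z : Finset F} {k : ℕ} {x : α} (hr : r ∉ Z)
    (h : Act m w e S a Z 0 (List.replicate k x)) :
    Act m w e S (XP.loop r a) (insert r Z) 0 (List.replicate (m r * k) x) :=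
  (Act.loop hr h).weaken subset_rfl (Nat.mul_zero _) (flatMap_replicate _ _ _)

end XP

end rules

section sym

/-! Change of the alphabet. -/

variable {F α J σ : Type} [DecidableEq F]

/-- Replace the bits by symbols. -/
def XP.sym (bit : Bool → α) : XP F Bool J → XP F α J
  | .nop => .nop
  | .emit b => .emit (bit b)
  | .copy => .copy
  | .skip => .skip
  | .inc r => .inc r
  | .seq a b => .seq (sym bit a) (sym bit b)
  | .loop r a => .loop r (sym bit a)
  | .forReg r a => .forReg r (sym bit a)
  | .forCo r a => .forCo r (sym bit a)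
  | .ext j => .ext j

/-- Replace the bits by symbols. -/
def XSem.sym (bit : Bool → α) (unbit : α → Bool) (S : XSem Bool J σ) : XSem α J σ :=
  ⟨S.adv, fun j x => (S.out j x).map bit, fun j f x => S.nxt j (fun t => unbit (f t)) x⟩

/-- Replace the bits by symbols. -/
def XS.sym (bit : Bool → α) (s : XS F Bool σ) : XS F α σ := ⟨s.v, s.p, s.o.map bit, s.x⟩

theorem XS.sym_set (bit : Bool → α) (s : XS F Bool σ) (r : F) (n : ℕ) :
    (s.sym bit).set r n = (s.set r n).sym bit := rfl

namespace XP

variable (bit : Bool → α)

theorem uses_sym (a : XP F Bool J) : (a.sym bit).uses = a.uses := by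
  induction a with
  | nop => rfl
  | emit b => rfl
  | copy => rfl
  | skip => rfl
  | inc r => rfl
  | seq a b iha ihb => simp only [sym, uses, iha, ihb]
  | loop r a ih => simp only [sym, uses, ih]
  | forReg r a ih => simp only [sym, uses, ih]
  | forCo r a ih => simp only [sym, uses, ih]
  | ext j => rfl

theorem writes_sym (a : XP F Bool J) : (a.sym bit).writes = a.writes := by
  induction a with
  | nop => rfl
  | emit b => rfl
  | copy => rfl
  | skip => rfl
  | inc r => rfl
  | seq a b iha ihb => simp only [sym, writes, iha, ihb]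
  | loop r a ih => simp only [sym, writes, ih]
  | forReg r a ih => simp only [sym, writes, ih]
  | forCo r a ih => simp only [sym, writes, ih]
  | ext j => rfl

theorem marks_sym (a : XP F Bool J) : (a.sym bit).marks = a.marks := by
  induction a with
  | nop => rfl
  | emit b => rfl
  | copy => rfl
  | skip => rfl
  | inc r => rfl
  | seq a b iha ihb => simp only [sym, marks, iha, ihb]
  | loop r a ih => simp only [sym, marks, ih]
  | forReg r a ih => simp only [sym, marks, ih]
  | forCo r a ih => simp only [sym, marks, ih]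
  | ext j => rfl

theorem wf_sym (a : XP F Bool J) (h : a.WF) : (a.sym bit).WF := by
  induction a with
  | nop => trivial
  | emit b => trivial
  | copy => trivial
  | skip => trivial
  | inc r => trivial
  | seq a b iha ihb => exact ⟨iha h.1, ihb h.2⟩
  | loop r a ih => exact ⟨by rw [writes_sym]; exact h.1, ih h.2⟩
  | forReg r a ih => exact ⟨by rw [uses_sym]; exact h.1, ih h.2⟩
  | forCo r a ih => exact ⟨by rw [uses_sym]; exact h.1, ih h.2⟩
  | ext j => trivial

omit [DecidableEq F] in
theorem bd_sym (m : F → ℕ) (c : J → ℕ) (a : XP F Bool J) : bd m c (a.sym bit) = bd m c a := by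
  induction a with
  | nop => rfl
  | emit b => rfl
  | copy => rfl
  | skip => rfl
  | inc r => rfl
  | seq a b iha ihb => simp only [sym, bd, iha, ihb]
  | loop r a ih => simp only [sym, bd, ih]
  | forReg r a ih => simp only [sym, bd, ih]
  | forCo r a ih => simp only [sym, bd, ih]
  | ext j => rfl

theorem eval_sym {unbit : α → Bool} (hu : ∀ b, unbit (bit b) = b) (m : F → ℕ) (w : List Bool)
    (e : Bool) (S : XSem Bool J σ) (a : XP F Bool J) (s : XS F Bool σ) :
    eval m (w.map bit) (bit e) (S.sym bit unbit) (a.sym bit) (s.sym bit) =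
      (eval m w e S a s).sym bit := by
  have hget : ∀ i, (w.map bit).getD i (bit e) = bit (w.getD i e) := by
    intro i
    simp only [List.getD_eq_getElem?_getD, List.getElem?_map]
    cases w[i]? <;> rfl
  induction a generalizing s with
  | nop => rfl
  | emit b =>
    simp [sym, eval, XS.sym]
  | copy =>
    simp only [sym, eval, XS.sym, XS.mk.injEq, true_and, and_true]
    rw [hget]
    simp
  | skip => rfl
  | inc r => rfl
  | seq a b iha ihb =>
    simp only [sym, eval]
    rw [iha, ihb]
  | loop r a ih =>
    have h1 : ∀ n (s : XS F Bool σ), (fun s => (eval m (w.map bit) (bit e) (S.sym bit unbit)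
        (a.sym bit) s).set r ((eval m (w.map bit) (bit e) (S.sym bit unbit)
        (a.sym bit) s).v r + 1))^[n] (s.sym bit) =
        ((fun s => (eval m w e S a s).set r ((eval m w e S a s).v r + 1))^[n] s).sym bit := by
      intro n
      induction n with
      | zero => intro s; rfl
      | succ n ihn =>
        intro s
        rw [Function.iterate_succ_apply, Function.iterate_succ_apply, ih, XS.sym_set]
        exact ihn _
    simp only [sym, eval]
    exact congrArg (fun s => XS.set s r 0) (h1 _ s)
  | forReg r a ih =>
    have h1 : ∀ n (s : XS F Bool σ), (eval m (w.map bit) (bit e) (S.sym bit unbit)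
        (a.sym bit))^[n] (s.sym bit) = ((eval m w e S a)^[n] s).sym bit := by
      intro n
      induction n with
      | zero => intro s; rfl
      | succ n ihn =>
        intro s
        rw [Function.iterate_succ_apply, Function.iterate_succ_apply, ih, ihn]
    simp only [sym, eval]
    exact h1 _ s
  | forCo r a ih =>
    have h1 : ∀ n (s : XS F Bool σ), (eval m (w.map bit) (bit e) (S.sym bit unbit)
        (a.sym bit))^[n] (s.sym bit) = ((eval m w e S a)^[n] s).sym bit := by
      intro n
      induction n with
      | zero => intro s; rfl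
      | succ n ihn =>
        intro s
        rw [Function.iterate_succ_apply, Function.iterate_succ_apply, ih, ihn]
    simp only [sym, eval]
    exact h1 _ s
  | ext j =>
    simp only [sym, eval, XS.sym, XSem.sym, List.map_append]
    congr 1
    congr 1
    funext t
    rw [hget, hu]

end XP

end sym

end Vale.Agent.P338.R2.H898
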